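import Mathlib

/-!
Definitions used in the statement of the result on critical percolation.
-/

open MeasureTheory ProbabilityTheory unitInterval

namespace Vale.Agent.P151

/-- The nearest-neighbour lattice `ℤ^d`: `x ∼ y` iff the `ℓ¹` distance is `1`. -/
def lattice (d : ℕ) : SimpleGraph (Fin d → ℤ) where
  Adj x y := ∑ i, |x i - y i| = 1
  symm := ⟨fun x y h => by simpa only [abs_sub_comm] using h⟩
  loopless := ⟨fun x h => by simp at h⟩

/-- Bernoulli bond percolation: the law of the random set of open edges. -/
noncomputable def perc {V : Type} (G : SimpleGraph V) (p : I) : Measure (Set (Sym2 V)) :=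
  setBernoulli G.edgeSet p

/-- The event that some open cluster is infinite. -/
def infCluster (V : Type) : Set (Set (Sym2 V)) :=
  {ω | ∃ x : V, {y | (SimpleGraph.fromEdgeSet ω).Reachable x y}.Infinite}

/-- The critical probability. -/
noncomputable def pc {V : Type} (G : SimpleGraph V) : I :=
  sInf {p : I | 0 < perc G p (infCluster V)}

end Vale.Agent.P151
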