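import Mathlib

/-!
Finite product expectations over random subsets of a finite set.
-/

namespace Vale.Agent.P151

open Finset

open Classical in
/-- real indicator of a proposition -/
noncomputable def ind (P : Prop) : ℝ := if P then 1 else 0

theorem ind_pos {P : Prop} (h : P) : ind P = 1 := by simp [ind, h]
theorem ind_neg {P : Prop} (h : ¬ P) : ind P = 0 := by simp [ind, h]
theorem ind_nonneg (P : Prop) : 0 ≤ ind P := by unfold ind; split_ifs <;> norm_num
theorem ind_le_one (P : Prop) : ind P ≤ 1 := by unfold ind; split_ifs <;> norm_num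
theorem ind_mono {P Q : Prop} (h : P → Q) : ind P ≤ ind Q := by
  by_cases hP : P
  · rw [ind_pos hP, ind_pos (h hP)]
  · rw [ind_neg hP]; exact ind_nonneg _
theorem ind_congr {P Q : Prop} (h : P ↔ Q) : ind P = ind Q := by rw [propext h]
theorem ind_not (P : Prop) : ind (¬ P) = 1 - ind P := by
  by_cases hP : P <;> simp [ind, hP]
theorem ind_and (P Q : Prop) : ind (P ∧ Q) = ind P * ind Q := by
  by_cases hP : P <;> by_cases hQ : Q <;> simp [ind, hP, hQ]
theorem ind_or_le (P Q : Prop) : ind (P ∨ Q) ≤ ind P + ind Q := by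
  by_cases hP : P <;> by_cases hQ : Q <;> simp [ind, hP, hQ]
theorem ind_exists_le {ι : Type} (s : Finset ι) (P : ι → Prop) :
    ind (∃ i ∈ s, P i) ≤ ∑ i ∈ s, ind (P i) := by
  by_cases h : ∃ i ∈ s, P i
  · obtain ⟨i, hi, hP⟩ := h
    calc ind (∃ i ∈ s, P i) ≤ 1 := ind_le_one _
      _ = ind (P i) := (ind_pos hP).symm
      _ ≤ _ := single_le_sum (f := fun i => ind (P i)) (fun _ _ => ind_nonneg _) hi
  · rw [ind_neg h]; exact sum_nonneg fun _ _ => ind_nonneg _

variable {E : Type} [DecidableEq E]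

/-- weight of a configuration -/
noncomputable def wt (F : Finset E) (q : E → ℝ) (ω : Finset E) : ℝ :=
  ∏ e ∈ F, if e ∈ ω then q e else 1 - q e

/-- expectation over the random subset of `F` containing `e` with probability `q e` -/
noncomputable def Ex (F : Finset E) (q : E → ℝ) (f : Finset E → ℝ) : ℝ :=
  ∑ ω ∈ F.powerset, wt F q ω * f ω

/-- admissible parameters -/
def Adm (q : E → ℝ) : Prop := ∀ e, 0 ≤ q e ∧ q e ≤ 1

omit [DecidableEq E] in
theorem adm_const {p : ℝ} (h0 : 0 ≤ p) (h1 : p ≤ 1) : Adm (fun _ : E => p) := fun _ => ⟨h0, h1⟩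

variable {F : Finset E} {q : E → ℝ} {f g : Finset E → ℝ}

theorem wt_nonneg (hq : Adm q) (F ω : Finset E) : 0 ≤ wt F q ω :=
  prod_nonneg fun e _ => by
    split_ifs
    · exact (hq e).1
    · linarith [(hq e).2]

@[simp] theorem Ex_empty (q : E → ℝ) (f : Finset E → ℝ) : Ex ∅ q f = f ∅ := by simp [Ex, wt]

theorem Ex_insert {e : E} (he : e ∉ F) (q : E → ℝ) (f : Finset E → ℝ) :
    Ex (insert e F) q f = q e * Ex F q (fun ω => f (insert e ω)) + (1 - q e) * Ex F q f := by
  simp only [Ex, sum_powerset_insert he, mul_sum]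
  rw [add_comm]
  congr 1
  · refine sum_congr rfl fun ω hω => ?_
    rw [wt, prod_insert he, if_pos (mem_insert_self _ _), wt, mul_assoc]
    congr 2
    refine prod_congr rfl fun e' he' => ?_
    have : e' ≠ e := fun h => he (h ▸ he')
    simp [this]
  · refine sum_congr rfl fun ω hω => ?_
    have : e ∉ ω := fun h => he (mem_powerset.1 hω h)
    rw [wt, prod_insert he, if_neg this, wt, mul_assoc]

theorem Ex_congr (h : ∀ ω, ω ⊆ F → f ω = g ω) : Ex F q f = Ex F q g :=
  sum_congr rfl fun ω hω => by rw [h ω (mem_powerset.1 hω)]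

theorem Ex_congr_q {q' : E → ℝ} (h : ∀ e ∈ F, q e = q' e) (f : Finset E → ℝ) :
    Ex F q f = Ex F q' f :=
  sum_congr rfl fun ω _ => by
    congr 1
    exact prod_congr rfl fun e he => by rw [h e he]

theorem Ex_mono (hq : Adm q) (h : ∀ ω, ω ⊆ F → f ω ≤ g ω) : Ex F q f ≤ Ex F q g :=
  sum_le_sum fun ω hω => mul_le_mul_of_nonneg_left (h ω (mem_powerset.1 hω)) (wt_nonneg hq _ _)

theorem Ex_add (F : Finset E) (q : E → ℝ) (f g : Finset E → ℝ) :
    Ex F q (fun ω => f ω + g ω) = Ex F q f + Ex F q g := by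
  simp only [Ex, mul_add, sum_add_distrib]

theorem Ex_sub (F : Finset E) (q : E → ℝ) (f g : Finset E → ℝ) :
    Ex F q (fun ω => f ω - g ω) = Ex F q f - Ex F q g := by
  simp only [Ex, mul_sub, sum_sub_distrib]

theorem Ex_mul_left (F : Finset E) (q : E → ℝ) (c : ℝ) (f : Finset E → ℝ) :
    Ex F q (fun ω => c * f ω) = c * Ex F q f := by
  simp only [Ex, mul_sum]; exact sum_congr rfl fun _ _ => by ring

theorem Ex_mul_right (F : Finset E) (q : E → ℝ) (c : ℝ) (f : Finset E → ℝ) :
    Ex F q (fun ω => f ω * c) = Ex F q f * c := by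
  simp only [Ex, sum_mul]; exact sum_congr rfl fun _ _ => by ring

theorem Ex_sum {ι : Type} (s : Finset ι) (F : Finset E) (q : E → ℝ) (f : ι → Finset E → ℝ) :
    Ex F q (fun ω => ∑ i ∈ s, f i ω) = ∑ i ∈ s, Ex F q (f i) := by
  simp only [Ex, mul_sum]; exact sum_comm

@[simp] theorem Ex_const (F : Finset E) (q : E → ℝ) (c : ℝ) : Ex F q (fun _ => c) = c := by
  induction F using Finset.induction_on with
  | empty => simp
  | insert e F he ih => rw [Ex_insert he, ih]; ring

theorem Ex_nonneg (hq : Adm q) (h : ∀ ω, ω ⊆ F → 0 ≤ f ω) : 0 ≤ Ex F q f := by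
  have := Ex_mono (F := F) (f := fun _ => 0) hq h
  simpa using this

theorem Ex_le_const (hq : Adm q) {c : ℝ} (h : ∀ ω, ω ⊆ F → f ω ≤ c) : Ex F q f ≤ c := by
  have := Ex_mono (F := F) (g := fun _ => c) hq h
  simpa using this

theorem const_le_Ex (hq : Adm q) {c : ℝ} (h : ∀ ω, ω ⊆ F → c ≤ f ω) : c ≤ Ex F q f := by
  have := Ex_mono (F := F) (f := fun _ => c) hq h
  simpa using this

theorem Ex_comm (F F' : Finset E) (q : E → ℝ) (f : Finset E → Finset E → ℝ) :
    Ex F q (fun ω => Ex F' q (fun ω' => f ω ω')) = Ex F' q (fun ω' => Ex F q (fun ω => f ω ω')) := by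
  simp only [Ex, mul_sum]
  rw [sum_comm]
  exact sum_congr rfl fun _ _ => sum_congr rfl fun _ _ => by ring

/-- Fubini on a disjoint union -/
theorem Ex_union {F₁ F₂ : Finset E} (h : Disjoint F₁ F₂) (q : E → ℝ) (f : Finset E → ℝ) :
    Ex (F₁ ∪ F₂) q f = Ex F₁ q (fun ω₁ => Ex F₂ q (fun ω₂ => f (ω₁ ∪ ω₂))) := by
  induction F₁ using Finset.induction_on generalizing f with
  | empty => simp
  | insert e F₁ he ih =>
    have h1 : Disjoint F₁ F₂ := (disjoint_insert_left.1 h).2
    have h2 : e ∉ F₁ ∪ F₂ := by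
      simp only [mem_union, not_or]; exact ⟨he, (disjoint_insert_left.1 h).1⟩
    rw [insert_union, Ex_insert h2, Ex_insert he, ih h1, ih h1]
    simp only [insert_union]

/-- Fubini along a subset -/
theorem Ex_split {F₁ : Finset E} (h : F₁ ⊆ F) (q : E → ℝ) (f : Finset E → ℝ) :
    Ex F q f = Ex F₁ q (fun ω₁ => Ex (F \ F₁) q (fun ω₂ => f (ω₁ ∪ ω₂))) := by
  rw [← Ex_union disjoint_sdiff, union_sdiff_of_subset h]

/-- a function of `ω ∩ F₁` only -/
theorem Ex_inter {F₁ : Finset E} (h : F₁ ⊆ F) (q : E → ℝ) (f : Finset E → ℝ) :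
    Ex F q (fun ω => f (ω ∩ F₁)) = Ex F₁ q f := by
  rw [Ex_split h]
  refine Ex_congr fun ω₁ h₁ => ?_
  rw [← Ex_const (F \ F₁) q (f ω₁)]
  refine Ex_congr fun ω₂ h₂ => ?_
  congr 1
  ext e
  simp only [mem_inter, mem_union]
  constructor
  · rintro ⟨h3 | h3, h4⟩
    · exact h3
    · exact absurd h4 (mem_sdiff.1 (h₂ h3)).2
  · intro h3; exact ⟨Or.inl h3, h₁ h3⟩

/-- independence of functions of disjoint coordinates -/
theorem Ex_indep {F₁ F₂ : Finset E} (h₁ : F₁ ⊆ F) (h₂ : F₂ ⊆ F) (h : Disjoint F₁ F₂) (q : E → ℝ)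
    (f g : Finset E → ℝ) :
    Ex F q (fun ω => f (ω ∩ F₁) * g (ω ∩ F₂)) = Ex F₁ q f * Ex F₂ q g := by
  rw [Ex_split h₁, ← Ex_mul_right]
  refine Ex_congr fun ω₁ hω₁ => ?_
  have h3 : F₂ ⊆ F \ F₁ := subset_sdiff.2 ⟨h₂, h.symm⟩
  rw [← Ex_inter h3, ← Ex_mul_left]
  refine Ex_congr fun ω₂ hω₂ => ?_
  congr 2
  · ext e
    simp only [mem_inter, mem_union]
    constructor
    · rintro ⟨h3 | h3, h4⟩
      · exact h3
      · exact absurd h4 (mem_sdiff.1 (hω₂ h3)).2
    · intro h3; exact ⟨Or.inl h3, hω₁ h3⟩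
  · ext e
    simp only [mem_inter, mem_union]
    constructor
    · rintro ⟨h3 | h3, h4⟩
      · exact absurd h4 (disjoint_left.1 h (hω₁ h3))
      · exact ⟨h3, h4⟩
    · rintro ⟨h3, h4⟩; exact ⟨Or.inr h3, h4⟩

/-- all of `σ` is present -/
theorem Ex_all {σ : Finset E} (h : σ ⊆ F) (q : E → ℝ) :
    Ex F q (fun ω => ind (σ ⊆ ω)) = ∏ e ∈ σ, q e := by
  have h1 : Ex F q (fun ω => ind (σ ⊆ ω)) = Ex F q (fun ω => ind (σ ⊆ ω ∩ σ)) :=
    Ex_congr fun ω _ => ind_congr (by simp [subset_inter_iff])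
  rw [h1, Ex_inter h q (fun ω => ind (σ ⊆ ω)), Ex, sum_eq_single σ]
  · rw [ind_pos Subset.rfl, mul_one, wt]
    exact prod_congr rfl fun e he => if_pos he
  · intro ω hω hne
    rw [ind_neg, mul_zero]
    exact fun h' => hne (Subset.antisymm (mem_powerset.1 hω) h')
  · simp

/-- none of `σ` is present -/
theorem Ex_none {σ : Finset E} (h : σ ⊆ F) (q : E → ℝ) :
    Ex F q (fun ω => ind (Disjoint ω σ)) = ∏ e ∈ σ, (1 - q e) := by
  have h1 : Ex F q (fun ω => ind (Disjoint ω σ)) = Ex F q (fun ω => ind (ω ∩ σ = ∅)) :=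
    Ex_congr fun ω _ => ind_congr disjoint_iff_inter_eq_empty
  rw [h1, Ex_inter h q (fun ω => ind (ω = ∅)), Ex, sum_eq_single ∅]
  · rw [ind_pos rfl, mul_one, wt]
    exact prod_congr rfl fun e he => if_neg (by simp)
  · intro ω _ hne
    rw [ind_neg hne, mul_zero]
  · simp

/-- a single configuration bounds the expectation of a nonnegative function -/
theorem wt_mul_le_Ex (hq : Adm q) (h : ∀ ω, ω ⊆ F → 0 ≤ f ω) {ω : Finset E} (hω : ω ⊆ F) :
    wt F q ω * f ω ≤ Ex F q f :=
  single_le_sum (f := fun ω => wt F q ω * f ω)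
    (fun ω' h' => mul_nonneg (wt_nonneg hq _ _) (h ω' (mem_powerset.1 h'))) (mem_powerset.2 hω)

/-- Harris inequality -/
theorem harris (hq : Adm q) (F : Finset E) (hf : Monotone f) (hg : Monotone g) :
    Ex F q f * Ex F q g ≤ Ex F q (fun ω => f ω * g ω) := by
  induction F using Finset.induction_on generalizing f g with
  | empty => simp
  | insert e F he ih =>
    have hi : Monotone (fun ω : Finset E => insert e ω) := fun _ _ h => insert_subset_insert _ h
    have h1 := ih (hf.comp hi) (hg.comp hi)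
    have h2 := ih hf hg
    have h3 : Ex F q f ≤ Ex F q (fun ω => f (insert e ω)) :=
      Ex_mono hq fun ω _ => hf (subset_insert _ _)
    have h4 : Ex F q g ≤ Ex F q (fun ω => g (insert e ω)) :=
      Ex_mono hq fun ω _ => hg (subset_insert _ _)
    simp only [Function.comp_def] at h1
    rw [Ex_insert he, Ex_insert he, Ex_insert he]
    have a := (hq e).1
    have b : 0 ≤ 1 - q e := by linarith [(hq e).2]
    nlinarith [mul_nonneg (mul_nonneg a b) (mul_nonneg (sub_nonneg.2 h3) (sub_nonneg.2 h4)),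
      mul_le_mul_of_nonneg_left h1 a, mul_le_mul_of_nonneg_left h2 b]

/-- Harris inequality, increasing against decreasing -/
theorem harris_anti (hq : Adm q) (F : Finset E) (hf : Monotone f) (hg : Antitone g) :
    Ex F q (fun ω => f ω * g ω) ≤ Ex F q f * Ex F q g := by
  have h := harris hq F hf (g := fun ω => -1 * g ω) (fun a b hab => by simpa using hg hab)
  rw [Ex_mul_left] at h
  have e : Ex F q (fun ω => f ω * (-1 * g ω)) = -1 * Ex F q (fun ω => f ω * g ω) := by
    rw [← Ex_mul_left]; exact Ex_congr fun _ _ => by ring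
  rw [e] at h; linarith

/-- Harris inequality for two decreasing functions -/
theorem harris_anti_anti (hq : Adm q) (F : Finset E) (hf : Antitone f) (hg : Antitone g) :
    Ex F q f * Ex F q g ≤ Ex F q (fun ω => f ω * g ω) := by
  have h := harris hq F (f := fun ω => -1 * f ω) (g := fun ω => -1 * g ω)
    (fun a b hab => by simpa using hf hab) (fun a b hab => by simpa using hg hab)
  rw [Ex_mul_left, Ex_mul_left] at h
  have e : Ex F q (fun ω => (-1 * f ω) * (-1 * g ω)) = Ex F q (fun ω => f ω * g ω) :=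
    Ex_congr fun _ _ => by ring
  rw [e] at h; linarith

/-- more fresh or open elements only help an increasing function -/
theorem Ex_mono_base (hq : Adm q) (hf : Monotone f) {D D' ξ ξ' : Finset E} (hξ : ξ ⊆ ξ')
    (hD : D ⊆ D' ∪ ξ') : Ex D q (fun ω => f (ξ ∪ ω)) ≤ Ex D' q (fun ω => f (ξ' ∪ ω)) := by
  calc Ex D q (fun ω => f (ξ ∪ ω)) ≤ Ex D q (fun ω => f (ξ' ∪ (ω ∩ (D ∩ D')))) := by
        refine Ex_mono hq fun ω hω => hf ?_
        intro e he
        simp only [mem_union, mem_inter] at he ⊢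
        rcases he with he | he
        · exact Or.inl (hξ he)
        · rcases mem_union.1 (hD (hω he)) with h | h
          · exact Or.inr ⟨he, hω he, h⟩
          · exact Or.inl h
    _ = Ex (D ∩ D') q (fun ω => f (ξ' ∪ ω)) :=
        Ex_inter inter_subset_left q (fun ω => f (ξ' ∪ ω))
    _ = Ex D' q (fun ω => f (ξ' ∪ (ω ∩ (D ∩ D')))) :=
        (Ex_inter inter_subset_right q (fun ω => f (ξ' ∪ ω))).symm
    _ ≤ _ := Ex_mono hq fun ω _ => hf (union_subset_union Subset.rfl inter_subset_left)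

open Classical in
/-- hybrid configuration: `η` on `S`, `η'` off `S` -/
noncomputable def hyb (S : E → Prop) (η η' : Finset E) : Finset E :=
  η.filter S ∪ η'.filter (fun e => ¬ S e)

theorem mem_hyb {S : E → Prop} {η η' : Finset E} {e : E} :
    e ∈ hyb S η η' ↔ (e ∈ η ∧ S e) ∨ (e ∈ η' ∧ ¬ S e) := by simp [hyb]

theorem hyb_subset {S : E → Prop} {η η' : Finset E} (h : η ⊆ F) (h' : η' ⊆ F) :
    hyb S η η' ⊆ F := fun e he => by
  rcases mem_hyb.1 he with h1 | h1
  · exact h h1.1
  · exact h' h1.1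

/-- Markov property for a stopping set `S` -/
theorem Ex_stop (F : Finset E) (q : E → ℝ) (S : Finset E → E → Prop)
    (hS : ∀ η η', η ⊆ F → η' ⊆ F → S (hyb (S η) η η') = S η) (f : Finset E → ℝ) :
    Ex F q f = Ex F q (fun η => Ex F q (fun η' => f (hyb (S η) η η'))) := by
  have h1 : Ex F q f = ∑ x ∈ F.powerset ×ˢ F.powerset, wt F q x.1 * wt F q x.2 * f x.1 := by
    rw [sum_product]
    refine sum_congr rfl fun η _ => ?_
    have := Ex_const F q (f η)
    simp only [Ex] at this
    rw [← this, mul_sum]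
    exact sum_congr rfl fun _ _ => by ring
  have h2 : Ex F q (fun η => Ex F q (fun η' => f (hyb (S η) η η')))
      = ∑ x ∈ F.powerset ×ˢ F.powerset,
        wt F q x.1 * wt F q x.2 * f (hyb (S x.1) x.1 x.2) := by
    rw [sum_product]
    refine sum_congr rfl fun η _ => ?_
    simp only [Ex, mul_sum]
    exact sum_congr rfl fun _ _ => by ring
  rw [h1, h2]
  symm
  have hmem : ∀ x ∈ F.powerset ×ˢ F.powerset,
      (hyb (S x.1) x.1 x.2, hyb (S x.1) x.2 x.1) ∈ F.powerset ×ˢ F.powerset := by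
    intro x hx
    simp only [mem_product, mem_powerset] at hx ⊢
    exact ⟨hyb_subset hx.1 hx.2, hyb_subset hx.2 hx.1⟩
  have hinv : ∀ x ∈ F.powerset ×ˢ F.powerset,
      (hyb (S (hyb (S x.1) x.1 x.2)) (hyb (S x.1) x.1 x.2) (hyb (S x.1) x.2 x.1),
        hyb (S (hyb (S x.1) x.1 x.2)) (hyb (S x.1) x.2 x.1) (hyb (S x.1) x.1 x.2)) = x := by
    intro x hx
    simp only [mem_product, mem_powerset] at hx
    rw [hS _ _ hx.1 hx.2]
    ext e <;> simp only [mem_hyb] <;> tauto
  refine sum_nbij' (fun x => (hyb (S x.1) x.1 x.2, hyb (S x.1) x.2 x.1))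
    (fun x => (hyb (S x.1) x.1 x.2, hyb (S x.1) x.2 x.1)) hmem hmem hinv hinv ?_
  intro x _
  congr 1
  simp only [wt, ← prod_mul_distrib]
  refine prod_congr rfl fun e _ => ?_
  by_cases h : S x.1 e <;> simp [mem_hyb, h, mul_comm]

/-- continuity in a parameter -/
theorem continuous_Ex (F : Finset E) (q : ℝ → E → ℝ) (hq : ∀ e, Continuous fun t => q t e)
    (f : Finset E → ℝ) : Continuous fun t => Ex F (q t) f := by
  unfold Ex wt
  refine continuous_finsetSum _ fun ω _ => Continuous.mul ?_ continuous_const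
  refine continuous_finsetProd _ fun e _ => ?_
  split_ifs
  · exact hq e
  · exact continuous_const.sub (hq e)

/-- transport along an injection -/
theorem Ex_image {E' : Type} [DecidableEq E'] (φ : E → E') (hφ : Function.Injective φ)
    (F : Finset E) (p : ℝ) (f : Finset E' → ℝ) :
    Ex (F.image φ) (fun _ => p) f = Ex F (fun _ => p) (fun ω => f (ω.image φ)) := by
  induction F using Finset.induction_on generalizing f with
  | empty => simp
  | insert e F he ih =>
    have h2 : φ e ∉ F.image φ := by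
      simp only [mem_image, not_exists, not_and]
      intro x hx h; exact he (hφ h ▸ hx)
    rw [image_insert, Ex_insert h2, Ex_insert he, ih, ih]
    simp only [image_insert]

/-- Markov inequality in the form used below -/
theorem Ex_ind_le_div (hq : Adm q) {c : ℝ} (hc : 0 < c) (h : ∀ ω, ω ⊆ F → 0 ≤ f ω) :
    Ex F q (fun ω => ind (c < f ω)) ≤ Ex F q f / c := by
  rw [div_eq_mul_inv, ← Ex_mul_right]
  refine Ex_mono hq fun ω hω => ?_
  by_cases h1 : c < f ω
  · rw [ind_pos h1, ← div_eq_mul_inv, le_div_iff₀ hc]; linarith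
  · rw [ind_neg h1]; exact mul_nonneg (h ω hω) (inv_nonneg.2 hc.le)

end Vale.Agent.P151
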