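import Mathlib
import Vale.Agent.P151.Defs
import Vale.Agent.P151.Ex

/-!
Connections in finite configurations, neighbourhoods, boxes.
-/

namespace Vale.Agent.P151

open Finset

set_option linter.unusedSectionVars false

variable {V : Type} [DecidableEq V]

/-- open connection in a finite edge configuration -/
def Conn (ω : Finset (Sym2 V)) (x y : V) : Prop := Relation.ReflTransGen (fun a b => s(a, b) ∈ ω) x y

/-- `o` is connected to the set `T` -/
def ConnTo (ω : Finset (Sym2 V)) (o : V) (T : Finset V) : Prop := ∃ t ∈ T, Conn ω o t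

/-- probability that `o` is connected to `T`, with fresh edges `D` and open edges `ξ` -/
noncomputable def hit (D : Finset (Sym2 V)) (p : ℝ) (ξ : Finset (Sym2 V)) (o : V) (T : Finset V) :
    ℝ :=
  Ex D (fun _ => p) (fun ω => ind (ConnTo (ξ ∪ ω) o T))

/-- probability that `A` is connected to `T`, with fresh edges `D` and open edges `ξ` -/
noncomputable def hitS (D : Finset (Sym2 V)) (p : ℝ) (ξ : Finset (Sym2 V)) (A T : Finset V) : ℝ :=
  Ex D (fun _ => p) (fun ω => ind (∃ u ∈ A, ConnTo (ξ ∪ ω) u T))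

omit [DecidableEq V] in
theorem Conn.refl (ω : Finset (Sym2 V)) (x : V) : Conn ω x x := Relation.ReflTransGen.refl

omit [DecidableEq V] in
theorem Conn.trans {ω : Finset (Sym2 V)} {x y z : V} (h : Conn ω x y) (h' : Conn ω y z) :
    Conn ω x z := Relation.ReflTransGen.trans h h'

omit [DecidableEq V] in
theorem Conn.single {ω : Finset (Sym2 V)} {x y : V} (h : s(x, y) ∈ ω) : Conn ω x y :=
  Relation.ReflTransGen.single h

omit [DecidableEq V] in
theorem Conn.symm {ω : Finset (Sym2 V)} {x y : V} (h : Conn ω x y) : Conn ω y x := by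
  induction h with
  | refl => exact Conn.refl _ _
  | tail _ h2 ih => exact (Conn.single (by rwa [Sym2.eq_swap])).trans ih

omit [DecidableEq V] in
theorem Conn.mono {ω ω' : Finset (Sym2 V)} (h : ω ⊆ ω') {x y : V} (hc : Conn ω x y) :
    Conn ω' x y := by
  induction hc with
  | refl => exact Conn.refl _ _
  | tail _ h2 ih => exact ih.trans (Conn.single (h h2))

omit [DecidableEq V] in
theorem ConnTo.mono {ω ω' : Finset (Sym2 V)} (h : ω ⊆ ω') {T T' : Finset V} (hT : T ⊆ T') {o : V}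
    (hc : ConnTo ω o T) : ConnTo ω' o T' := by
  obtain ⟨t, ht, hc⟩ := hc
  exact ⟨t, hT ht, hc.mono h⟩

theorem hit_mono {D D' ξ ξ' : Finset (Sym2 V)} {p : ℝ} (h0 : 0 ≤ p) (h1 : p ≤ 1) (hξ : ξ ⊆ ξ')
    (hD : D ⊆ D' ∪ ξ') (o : V) {T T' : Finset V} (hT : T ⊆ T') :
    hit D p ξ o T ≤ hit D' p ξ' o T' :=
  le_trans (Ex_mono (adm_const h0 h1) fun _ _ => ind_mono (ConnTo.mono Subset.rfl hT))
    (Ex_mono_base (f := fun ω => ind (ConnTo ω o T')) (adm_const h0 h1)
      (fun _ _ h => ind_mono (ConnTo.mono h Subset.rfl)) hξ hD)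

theorem hitS_mono {D D' ξ ξ' : Finset (Sym2 V)} {p : ℝ} (h0 : 0 ≤ p) (h1 : p ≤ 1) (hξ : ξ ⊆ ξ')
    (hD : D ⊆ D' ∪ ξ') {A A' T T' : Finset V} (hA : A ⊆ A') (hT : T ⊆ T') :
    hitS D p ξ A T ≤ hitS D' p ξ' A' T' :=
  le_trans (Ex_mono (adm_const h0 h1) fun _ _ => ind_mono fun ⟨u, hu, hc⟩ =>
      ⟨u, hA hu, ConnTo.mono Subset.rfl hT hc⟩)
    (Ex_mono_base (f := fun ω => ind (∃ u ∈ A', ConnTo ω u T')) (adm_const h0 h1)
      (fun _ _ h => ind_mono fun ⟨u, hu, hc⟩ => ⟨u, hu, ConnTo.mono h Subset.rfl hc⟩) hξ hD)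

theorem hit_nonneg {D ξ : Finset (Sym2 V)} {p : ℝ} (h0 : 0 ≤ p) (h1 : p ≤ 1) (o : V)
    (T : Finset V) : 0 ≤ hit D p ξ o T := Ex_nonneg (adm_const h0 h1) fun _ _ => ind_nonneg _

theorem hit_le_one {D ξ : Finset (Sym2 V)} {p : ℝ} (h0 : 0 ≤ p) (h1 : p ≤ 1) (o : V)
    (T : Finset V) : hit D p ξ o T ≤ 1 := Ex_le_const (adm_const h0 h1) fun _ _ => ind_le_one _

open Classical in
/-- edges of `G` with both endpoints in `W` -/
noncomputable def Ein (G : SimpleGraph V) (W : Finset V) : Finset (Sym2 V) :=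
  W.sym2.filter (fun e => e ∈ G.edgeSet)

theorem mk_mem_Ein {G : SimpleGraph V} {W : Finset V} {x y : V} :
    s(x, y) ∈ Ein G W ↔ x ∈ W ∧ y ∈ W ∧ G.Adj x y := by
  simp [Ein, and_assoc]

theorem mem_Ein {G : SimpleGraph V} {W : Finset V} {e : Sym2 V} :
    e ∈ Ein G W ↔ e ∈ G.edgeSet ∧ ∀ v ∈ e, v ∈ W := by
  simp [Ein, mem_sym2_iff, and_comm]

theorem Ein_mono (G : SimpleGraph V) {W W' : Finset V} (h : W ⊆ W') : Ein G W ⊆ Ein G W' :=
  fun _ he => mem_Ein.2 ⟨(mem_Ein.1 he).1, fun v hv => h ((mem_Ein.1 he).2 v hv)⟩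

theorem Ein_sub_edgeSet (G : SimpleGraph V) (W : Finset V) : (↑(Ein G W) : Set (Sym2 V)) ⊆ G.edgeSet :=
  fun _ he => (mem_Ein.1 he).1

/-- first entrance: to reach `U` no edge of `G` inside `U` is needed -/
theorem connTo_sdiff {G : SimpleGraph V} {ω : Finset (Sym2 V)} {o : V} {U : Finset V}
    (h : ConnTo ω o U) : ConnTo (ω \ Ein G U) o U := by
  obtain ⟨t, ht, hc⟩ := h
  have key : ∀ y, Conn ω o y → ConnTo (ω \ Ein G U) o U ∨ Conn (ω \ Ein G U) o y := by
    intro y hy
    induction hy with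
    | refl => exact Or.inr (Conn.refl _ _)
    | @tail b c _ h2 ih =>
      rcases ih with ih | ih
      · exact Or.inl ih
      · by_cases hb : b ∈ U
        · exact Or.inl ⟨b, hb, ih⟩
        · exact Or.inr (ih.trans (Conn.single (mem_sdiff.2 ⟨h2, fun h => hb (mk_mem_Ein.1 h).1⟩)))
  rcases key t hc with h | h
  · exact h
  · exact ⟨t, ht, h⟩

/-- closed neighbourhood -/
def nb (G : SimpleGraph V) [G.LocallyFinite] (B : Finset V) : Finset V :=
  B ∪ B.biUnion (fun v => G.neighborFinset v)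

/-- iterated closed neighbourhood -/
def nbk (G : SimpleGraph V) [G.LocallyFinite] (k : ℕ) (B : Finset V) : Finset V := (nb G)^[k] B

theorem mem_nb {G : SimpleGraph V} [G.LocallyFinite] {B : Finset V} {x : V} :
    x ∈ nb G B ↔ x ∈ B ∨ ∃ b ∈ B, G.Adj b x := by simp [nb]

theorem nbk_zero (G : SimpleGraph V) [G.LocallyFinite] (B : Finset V) : nbk G 0 B = B := rfl

theorem nbk_succ (G : SimpleGraph V) [G.LocallyFinite] (k : ℕ) (B : Finset V) :
    nbk G (k + 1) B = nb G (nbk G k B) := Function.iterate_succ_apply' _ _ _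

theorem nbk_add (G : SimpleGraph V) [G.LocallyFinite] (k l : ℕ) (B : Finset V) :
    nbk G (k + l) B = nbk G k (nbk G l B) := Function.iterate_add_apply _ _ _ _

theorem nb_mono (G : SimpleGraph V) [G.LocallyFinite] {B B' : Finset V} (h : B ⊆ B') :
    nb G B ⊆ nb G B' := fun x hx => by
  rw [mem_nb] at hx ⊢
  rcases hx with hx | ⟨b, hb, hx⟩
  · exact Or.inl (h hx)
  · exact Or.inr ⟨b, h hb, hx⟩

theorem nbk_mono (G : SimpleGraph V) [G.LocallyFinite] (k : ℕ) {B B' : Finset V} (h : B ⊆ B') :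
    nbk G k B ⊆ nbk G k B' := by
  induction k with
  | zero => exact h
  | succ k ih => rw [nbk_succ, nbk_succ]; exact nb_mono G ih

theorem nbk_mono_left (G : SimpleGraph V) [G.LocallyFinite] {k l : ℕ} (h : k ≤ l) (B : Finset V) :
    nbk G k B ⊆ nbk G l B := by
  induction h with
  | refl => exact Subset.rfl
  | step _ ih => rw [nbk_succ]; exact ih.trans subset_union_left

theorem mem_nbk_iff (G : SimpleGraph V) [G.LocallyFinite] (k : ℕ) (B : Finset V) (x : V) :
    x ∈ nbk G k B ↔ ∃ b ∈ B, x ∈ nbk G k {b} := by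
  induction k generalizing x with
  | zero => simp [nbk_zero]
  | succ k ih =>
    simp only [nbk_succ, mem_nb, ih]
    constructor
    · rintro (⟨b, hb, h⟩ | ⟨y, ⟨b, hb, h⟩, hy⟩)
      · exact ⟨b, hb, Or.inl h⟩
      · exact ⟨b, hb, Or.inr ⟨y, h, hy⟩⟩
    · rintro ⟨b, hb, h | ⟨y, h, hy⟩⟩
      · exact Or.inl ⟨b, hb, h⟩
      · exact Or.inr ⟨y, ⟨b, hb, h⟩, hy⟩

/-- an open ball is connected to its centre -/
theorem conn_of_mem_nbk (G : SimpleGraph V) [G.LocallyFinite] (k : ℕ) (v x : V)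
    (hx : x ∈ nbk G k {v}) : Conn (Ein G (nbk G k {v})) v x := by
  induction k generalizing x with
  | zero => rw [nbk_zero, mem_singleton] at hx; rw [hx]; exact Conn.refl _ _
  | succ k ih =>
    have hs : nbk G k {v} ⊆ nbk G (k + 1) {v} := nbk_mono_left G (Nat.le_succ k) _
    have hx' := hx
    rw [nbk_succ, mem_nb] at hx
    rcases hx with hx | ⟨y, hy, hxy⟩
    · exact (ih x hx).mono (Ein_mono G hs)
    · exact ((ih y hy).mono (Ein_mono G hs)).trans (Conn.single (mk_mem_Ein.2 ⟨hs hy, hx', hxy⟩))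

/-- The conclusion of the target lemma. -/
def TargetOK (G : SimpleGraph V) [G.LocallyFinite] (p : ℝ) (m R : ℕ) (δ ε : ℝ) : Prop :=
  ∀ (D ξ : Finset (Sym2 V)) (o : V) (B T : Finset V), Disjoint ξ D →
    (↑ξ : Set (Sym2 V)) ⊆ G.edgeSet → (↑D : Set (Sym2 V)) ⊆ G.edgeSet →
    o ∉ nbk G R B → Ein G (nbk G R B) ⊆ D →
    (∀ v ∈ nbk G R B, 1 - δ ≤ hitS D p ξ (nbk G m {v}) T) →
    hit D p ξ o B - ε ≤ hit D p ξ o T

section Lattice

variable {d : ℕ}

theorem lattice_adj {x y : Fin d → ℤ} :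
    (lattice d).Adj x y ↔ ∃ i, y = x + Pi.single i 1 ∨ y = x - Pi.single i 1 := by
  change ∑ i, |x i - y i| = 1 ↔ _
  constructor
  · intro h
    obtain ⟨i, hi⟩ : ∃ i, |x i - y i| ≠ 0 := by
      by_contra hcon
      push Not at hcon
      simp [hcon] at h
    have h1 := add_sum_erase univ (fun j => |x j - y j|) (mem_univ i)
    have h2 : 0 ≤ ∑ j ∈ univ.erase i, |x j - y j| := sum_nonneg fun _ _ => abs_nonneg _
    have h3 : 0 < |x i - y i| := lt_of_le_of_ne (abs_nonneg _) hi.symm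
    have h4 : |x i - y i| = 1 := by omega
    have h5 : ∑ j ∈ univ.erase i, |x j - y j| = 0 := by omega
    rw [sum_eq_zero_iff_of_nonneg fun _ _ => abs_nonneg _] at h5
    have h6 : ∀ j, j ≠ i → y j = x j := fun j hj => by
      have := h5 j (mem_erase.2 ⟨hj, mem_univ _⟩)
      rw [abs_eq_zero] at this; omega
    refine ⟨i, ?_⟩
    rcases (abs_eq (by norm_num : (0 : ℤ) ≤ 1)).1 h4 with h7 | h7
    · right; funext j
      by_cases hj : j = i
      · subst hj; simp; omega
      · simp [hj, h6 j hj]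
    · left; funext j
      by_cases hj : j = i
      · subst hj; simp; omega
      · simp [hj, h6 j hj]
  · rintro ⟨i, rfl | rfl⟩ <;>
    · rw [sum_eq_single i]
      · simp
      · intro j _ hj; simp [hj]
      · simp

noncomputable instance latticeLF (d : ℕ) : (lattice d).LocallyFinite := fun x =>
  Set.Finite.fintype <| Set.Finite.subset
    ((Set.finite_range fun i : Fin d => x + Pi.single i 1).union
      (Set.finite_range fun i : Fin d => x - Pi.single i 1)) fun y hy => by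
    obtain ⟨i, h | h⟩ := lattice_adj.1 hy
    · exact Or.inl ⟨i, h.symm⟩
    · exact Or.inr ⟨i, h.symm⟩

theorem lattice_degree_le (x : Fin d → ℤ) : (lattice d).degree x ≤ 2 * d := by
  have h : (lattice d).neighborFinset x ⊆
      univ.image (fun i : Fin d => x + Pi.single i 1) ∪
        univ.image (fun i : Fin d => x - Pi.single i 1) := by
    intro y hy
    obtain ⟨i, h | h⟩ := lattice_adj.1 ((SimpleGraph.mem_neighborFinset _ _ _).1 hy) <;> simp [h]
  calc (lattice d).degree x ≤ _ := card_le_card h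
    _ ≤ _ := card_union_le _ _
    _ ≤ d + d := add_le_add (card_image_le.trans (by simp)) (card_image_le.trans (by simp))
    _ = 2 * d := by ring

theorem lattice_adj_abs {x y : Fin d → ℤ} (h : (lattice d).Adj x y) (j : Fin d) :
    |x j - y j| ≤ 1 := by
  have h' : ∑ i, |x i - y i| = 1 := h
  rw [← h']
  exact single_le_sum (f := fun i => |x i - y i|) (fun _ _ => abs_nonneg _) (mem_univ j)

theorem abs_le_of_mem_nbk {k : ℕ} {v x : Fin d → ℤ} (h : x ∈ nbk (lattice d) k {v}) (j : Fin d) :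
    |x j - v j| ≤ k := by
  induction k generalizing x with
  | zero => rw [nbk_zero, mem_singleton] at h; simp [h]
  | succ k ih =>
    rw [nbk_succ, mem_nb] at h
    rcases h with h | ⟨y, hy, h⟩
    · have := ih h; push_cast; omega
    · have h1 := ih hy
      have h2 := lattice_adj_abs h j
      push_cast
      rw [abs_le] at h1 h2 ⊢
      omega

/-- the box with corners `lo`, `hi` -/
noncomputable def boxI (lo hi : Fin d → ℤ) : Finset (Fin d → ℤ) := Fintype.piFinset fun j => Icc (lo j) (hi j)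

theorem mem_boxI {lo hi x : Fin d → ℤ} : x ∈ boxI lo hi ↔ ∀ j, lo j ≤ x j ∧ x j ≤ hi j := by
  simp [boxI]

/-- the cube of radius `r` around `v` -/
noncomputable def box (v : Fin d → ℤ) (r : ℤ) : Finset (Fin d → ℤ) := boxI (fun j => v j - r) (fun j => v j + r)

theorem mem_box {v x : Fin d → ℤ} {r : ℤ} : x ∈ box v r ↔ ∀ j, v j - r ≤ x j ∧ x j ≤ v j + r :=
  mem_boxI

/-- an orthant of a face of the cube of radius `r` around `v` -/
noncomputable def face (v : Fin d → ℤ) (r : ℤ) (i : Fin d) (s : Fin d → Bool) : Finset (Fin d → ℤ) :=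
  boxI (fun j => if j = i then (if s j then v j + r else v j - r) else (if s j then v j else v j - r))
    (fun j => if j = i then (if s j then v j + r else v j - r) else (if s j then v j + r else v j))

/-- the boundary of the cube of radius `n` around the origin -/
noncomputable def bd (d : ℕ) (n : ℕ) : Finset (Fin d → ℤ) := (box 0 (n : ℤ)).filter fun x => ∃ i, |x i| = n

/-- every face orthant is hit from the ball of radius `m` with probability at least `1 - δ` -/
def HitAt (d : ℕ) (p : ℝ) (m l : ℕ) (δ : ℝ) : Prop :=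
  ∀ (v : Fin d → ℤ) (i : Fin d) (s : Fin d → Bool),
    1 - δ ≤ hitS (Ein (lattice d) (box v l)) p ∅ (nbk (lattice d) m {v}) (face v l i s)

/-- finite-volume form of percolation from `x` -/
def PercFin (d : ℕ) (p : ℝ) (x : Fin d → ℤ) : Prop :=
  ∃ c : ℝ, 0 < c ∧ ∀ n : ℕ, x ∈ box 0 (n : ℤ) →
    c ≤ hit (Ein (lattice d) (box 0 (n : ℤ))) p ∅ x (bd d n)

end Lattice

/-- the four directions of the coarse lattice -/
def vec : Bool × Bool → ℤ × ℤ
  | (false, false) => (-1, 0)
  | (false, true) => (1, 0)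
  | (true, false) => (0, -1)
  | (true, true) => (0, 1)

/-- the coarse box -/
def InBox (n : ℕ) (y : ℤ × ℤ) : Prop := |y.1| ≤ n ∧ |y.2| ≤ n

/-- `z` is neither the origin nor an endpoint of an examined coarse edge -/
def Untouched (X : Finset ((ℤ × ℤ) × (Bool × Bool))) (z : ℤ × ℤ) : Prop :=
  z ≠ 0 ∧ ∀ a ∈ X, a.1 ≠ z ∧ a.1 + vec a.2 ≠ z

end Vale.Agent.P151
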