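import Mathlib
import Vale.Agent.P151.Conn

/-!
Probabilistic core of the renormalisation step, and slabs.
-/

namespace Vale.Agent.P151.BlockAux

open Finset

section Abstract

variable {V : Type} [DecidableEq V]

theorem hit_split {D H ξ : Finset (Sym2 V)} (h : H ⊆ D) (p : ℝ) (o : V) (T : Finset V) :
    hit D p ξ o T = Ex H (fun _ => p) (fun η => hit (D \ H) p (ξ ∪ η) o T) := by
  unfold hit
  rw [Ex_split h]
  simp only [union_assoc]

theorem hit_union {D D' ξ : Finset (Sym2 V)} (h : Disjoint D D') (p : ℝ) (o : V) (T : Finset V) :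
    hit (D ∪ D') p ξ o T = Ex D (fun _ => p) (fun η => hit D' p (ξ ∪ η) o T) := by
  unfold hit
  rw [Ex_union h]
  simp only [union_assoc]

theorem hit_inside (G : SimpleGraph V) {D ξ : Finset (Sym2 V)} {U : Finset V} (h : D ⊆ Ein G U)
    (p : ℝ) (o : V) : hit D p ξ o U = ind (ConnTo ξ o U) := by
  unfold hit
  rw [← Ex_const D (fun _ => p) (ind (ConnTo ξ o U))]
  refine Ex_congr fun ω hω => ind_congr ⟨fun hc => (connTo_sdiff (G := G) hc).mono ?_ Subset.rfl,
    fun hc => hc.mono subset_union_left Subset.rfl⟩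
  intro e he
  rcases mem_union.1 (mem_sdiff.1 he).1 with h1 | h1
  · exact h1
  · exact absurd (h (hω h1)) (mem_sdiff.1 he).2

theorem exists_small_drop {K : ℕ} (hK : 0 < K) (a : ℕ → ℝ) (h : a 0 - a K ≤ 1) :
    ∃ j < K, a j - a (j + 1) ≤ 1 / K := by
  by_contra hcon
  push Not at hcon
  have h1 : ∑ j ∈ range K, (1 / K : ℝ) < ∑ j ∈ range K, (a j - a (j + 1)) :=
    sum_lt_sum_of_nonempty (nonempty_range_iff.2 hK.ne') fun j hj => hcon j (mem_range.1 hj)
  rw [sum_range_sub', sum_const, card_range, nsmul_eq_mul, mul_one_div_cancel (by positivity)] at h1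
  linarith

theorem step_abs (G : SimpleGraph V) {p δ1 δ2 θ : ℝ} (h0 : 0 ≤ p) (h1 : p ≤ 1) (hδ1 : 0 < δ1)
    (hδ2 : 0 < δ2) (hθ : 0 ≤ θ) {K : ℕ} (hK : 0 < K) (D0 Ds ξ : Finset (Sym2 V))
    (Dn : Bool × Bool → Finset (Sym2 V)) (ok : Bool × Bool → Prop) (o : V) (U : ℕ → Finset V)
    (En : Bool × Bool → Finset V) (hU : Antitone U) (h0s : D0 ⊆ Ds)
    (hdis : ∀ u, Disjoint Ds (Dn u)) (hinv : 1 - δ1 ≤ hit D0 p ξ o (U K))
    (hst : ∀ j < K, ∀ η ⊆ D0 \ Ein G (U j), ∀ u, ok u →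
      hit ((Ds \ (D0 \ Ein G (U j))) ∪ Dn u) p (ξ ∪ η) o (U (j + 1)) - θ ≤
        hit ((Ds \ (D0 \ Ein G (U j))) ∪ Dn u) p (ξ ∪ η) o (En u)) :
    Ex Ds (fun _ => p) (fun ω => ind (∃ u, ok u ∧ ¬ (1 - δ1 ≤ hit (Dn u) p (ξ ∪ ω) o (En u)))) ≤
      δ1 + 1 / (δ2 * K) + 4 * ((δ2 + θ) / δ1) := by
  have hq : Adm (fun _ : Sym2 V => p) := adm_const h0 h1
  obtain ⟨j, hj, hdrop⟩ := exists_small_drop hK (fun j => hit D0 p ξ o (U j))
    (by linarith [hit_le_one (D := D0) (ξ := ξ) h0 h1 o (U 0),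
      hit_nonneg (D := D0) (ξ := ξ) h0 h1 o (U K)])
  set H := D0 \ Ein G (U j) with hH
  have hHD : H ⊆ D0 := sdiff_subset
  have hin : D0 \ H ⊆ Ein G (U j) := by
    intro e he
    by_contra h
    exact (mem_sdiff.1 he).2 (mem_sdiff.2 ⟨(mem_sdiff.1 he).1, h⟩)
  set X : Finset (Sym2 V) → ℝ := fun η => hit (D0 \ H) p (ξ ∪ η) o (U (j + 1)) with hX
  have e1 : hit D0 p ξ o (U j) = Ex H (fun _ => p) (fun η => ind (ConnTo (ξ ∪ η) o (U j))) := by
    rw [hit_split hHD]
    exact Ex_congr fun η _ => hit_inside G hin p o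
  have e2 : hit D0 p ξ o (U (j + 1)) = Ex H (fun _ => p) X := hit_split hHD _ _ _
  have hXA : ∀ η, X η ≤ ind (ConnTo (ξ ∪ η) o (U j)) := fun η => by
    rw [← hit_inside G hin p o]
    exact hit_mono h0 h1 Subset.rfl subset_union_left o (hU (Nat.le_succ j))
  have hKj : hit D0 p ξ o (U K) ≤ hit D0 p ξ o (U j) :=
    hit_mono h0 h1 Subset.rfl subset_union_left o (hU hj.le)
  have hbad : Ex H (fun _ => p) (fun η => ind (X η < 1 - δ2)) ≤ δ1 + 1 / (δ2 * K) := by
    have h3 : Ex H (fun _ => p) (fun η => ind (X η < 1 - δ2)) ≤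
        Ex H (fun _ => p) (fun η => (1 - ind (ConnTo (ξ ∪ η) o (U j))) +
          δ2⁻¹ * (ind (ConnTo (ξ ∪ η) o (U j)) - X η)) := by
      refine Ex_mono hq fun η _ => ?_
      have h4 := hXA η
      have h5 : 0 ≤ δ2⁻¹ * (ind (ConnTo (ξ ∪ η) o (U j)) - X η) :=
        mul_nonneg (by positivity) (by linarith)
      by_cases hA : ConnTo (ξ ∪ η) o (U j)
      · by_cases hx : X η < 1 - δ2
        · rw [ind_pos hx, ind_pos hA, sub_self, zero_add, ← div_eq_inv_mul, le_div_iff₀ hδ2]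
          linarith
        · rw [ind_neg hx]
          linarith [ind_le_one (ConnTo (ξ ∪ η) o (U j))]
      · have := ind_le_one (X η < 1 - δ2)
        rw [ind_neg hA] at h5 ⊢
        linarith
    rw [Ex_add, Ex_sub, Ex_mul_left, Ex_sub, Ex_const, ← e1, ← e2] at h3
    have h6 : δ2⁻¹ * (hit D0 p ξ o (U j) - hit D0 p ξ o (U (j + 1))) ≤ 1 / (δ2 * K) := by
      calc _ ≤ δ2⁻¹ * (1 / K) := mul_le_mul_of_nonneg_left hdrop (by positivity)
        _ = _ := by field_simp
    linarith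
  rw [Ex_split (hHD.trans h0s)]
  have hc : 0 ≤ (δ2 + θ) / δ1 := by positivity
  calc _ ≤ Ex H (fun _ => p) (fun η => ind (X η < 1 - δ2) + 4 * ((δ2 + θ) / δ1)) := by
        refine Ex_mono hq fun η hη => ?_
        by_cases hx : X η < 1 - δ2
        · rw [ind_pos hx]
          exact le_trans (Ex_le_const hq fun _ _ => ind_le_one _) (by linarith)
        rw [ind_neg hx, zero_add]
        have h7 : ∀ u, Ex (Ds \ H) (fun _ => p) (fun ω =>
            ind (ok u ∧ ¬ (1 - δ1 ≤ hit (Dn u) p (ξ ∪ (η ∪ ω)) o (En u)))) ≤ (δ2 + θ) / δ1 := by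
          intro u
          by_cases hu : ok u
          · have h8 := hst j hj η hη u hu
            have h9 : X η ≤ hit ((Ds \ H) ∪ Dn u) p (ξ ∪ η) o (U (j + 1)) :=
              hit_mono h0 h1 Subset.rfl ((sdiff_subset_sdiff h0s Subset.rfl).trans
                (subset_union_left.trans subset_union_left)) o Subset.rfl
            have h10 := hit_union (ξ := ξ ∪ η) (disjoint_of_subset_left (sdiff_subset (t := H))
              (hdis u)) p o (En u)
            have h11 := Ex_ind_le_div (F := Ds \ H) (c := δ1)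
              (f := fun ω => 1 - hit (Dn u) p (ξ ∪ η ∪ ω) o (En u)) hq hδ1
              (fun ω _ => by linarith [hit_le_one (D := Dn u) (ξ := ξ ∪ η ∪ ω) h0 h1 o (En u)])
            rw [Ex_sub, Ex_const, ← h10] at h11
            refine le_trans (Ex_mono hq fun ω _ => ind_mono fun h => ?_) (h11.trans ?_)
            · rw [union_assoc]; linarith [not_le.1 h.2]
            · exact div_le_div_of_nonneg_right (by linarith [not_lt.1 hx]) hδ1.le
          · exact le_trans (Ex_le_const hq fun _ _ => (ind_neg fun h => hu h.1).le) hc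
        calc _ ≤ Ex (Ds \ H) (fun _ => p) (fun ω => ∑ u : Bool × Bool,
              ind (ok u ∧ ¬ (1 - δ1 ≤ hit (Dn u) p (ξ ∪ (η ∪ ω)) o (En u)))) :=
              Ex_mono hq fun ω _ => le_trans (ind_mono fun ⟨u, hu⟩ => ⟨u, mem_univ _, hu⟩)
                (ind_exists_le univ _)
          _ ≤ ∑ _u : Bool × Bool, (δ2 + θ) / δ1 := by
              rw [Ex_sum]; exact sum_le_sum fun u _ => h7 u
          _ = _ := by simp
    _ ≤ _ := by rw [Ex_add, Ex_const]; linarith

/-- a path leaves `ξ` only through a vertex of an edge of `ω` -/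
theorem first_exit {ξ ω : Finset (Sym2 V)} {o t : V} (h : Conn (ξ ∪ ω) o t) :
    Conn ξ o t ∨ ∃ z w, Conn ξ o z ∧ s(z, w) ∈ ω := by
  induction h with
  | refl => exact Or.inl (Conn.refl _ _)
  | tail _ h2 ih =>
    rcases ih with ih | ih
    · rcases mem_union.1 h2 with h3 | h3
      · exact Or.inl (ih.trans (Conn.single h3))
      · exact Or.inr ⟨_, _, ih, h3⟩
    · exact Or.inr ih

theorem exists_of_hit_pos {D ξ : Finset (Sym2 V)} {p : ℝ} {o : V} {T : Finset V}
    (h : 0 < hit D p ξ o T) : ∃ ω ⊆ D, ConnTo (ξ ∪ ω) o T := by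
  by_contra hcon
  push Not at hcon
  have : hit D p ξ o T = Ex D (fun _ => p) (fun _ => 0) :=
    Ex_congr fun ω hω => ind_neg (hcon ω hω)
  rw [this, Ex_const] at h
  exact lt_irrefl _ h

end Abstract

section Lattice

variable {d : ℕ}

/-- first visit to the boundary of a cube -/
theorem first_visit {ω : Finset (Sym2 (Fin d → ℤ))} (hω : (↑ω : Set _) ⊆ (lattice d).edgeSet)
    (n : ℕ) {z : Fin d → ℤ} (h : Conn ω 0 z) (hz : ∃ i, (n : ℤ) ≤ |z i|) :
    ConnTo (ω ∩ Ein (lattice d) (box 0 (n : ℤ))) 0 (bd d n) := by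
  have key : ∀ y, Conn ω 0 y → ConnTo (ω ∩ Ein (lattice d) (box 0 (n : ℤ))) 0 (bd d n) ∨
      (Conn (ω ∩ Ein (lattice d) (box 0 (n : ℤ))) 0 y ∧ ∀ i, |y i| < n) := by
    intro y hy
    induction hy with
    | refl =>
      by_cases hn : n = 0
      · obtain ⟨i, -⟩ := hz
        refine Or.inl ⟨0, mem_filter.2 ⟨mem_box.2 fun j => by simp, i, by simp [hn]⟩, Conn.refl _ _⟩
      · exact Or.inr ⟨Conn.refl _ _, fun i => by simpa using Nat.pos_of_ne_zero hn⟩
    | @tail b c _ h2 ih =>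
      rcases ih with ih | ⟨ih, hb⟩
      · exact Or.inl ih
      · have hadj : (lattice d).Adj b c := hω h2
        have hb' : b ∈ box 0 (n : ℤ) := mem_box.2 fun j => by
          have := abs_lt.1 (hb j); simp only [Pi.zero_apply]; omega
        have hc' : c ∈ box 0 (n : ℤ) := mem_box.2 fun j => by
          have := abs_lt.1 (hb j)
          have := abs_le.1 (lattice_adj_abs hadj j)
          simp only [Pi.zero_apply]; omega
        have hc : Conn (ω ∩ Ein (lattice d) (box 0 (n : ℤ))) 0 c :=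
          ih.trans (Conn.single (mem_inter.2 ⟨h2, mk_mem_Ein.2 ⟨hb', hc', hadj⟩⟩))
        by_cases hi : ∃ i, |c i| = n
        · exact Or.inl ⟨c, mem_filter.2 ⟨hc', hi⟩, hc⟩
        · refine Or.inr ⟨hc, fun i => lt_of_le_of_ne ?_ fun h => hi ⟨i, h⟩⟩
          have := mem_box.1 hc' i
          simp only [Pi.zero_apply] at this
          exact abs_le.2 ⟨by omega, by omega⟩
  rcases key z h with h | ⟨-, h⟩
  · exact h
  · obtain ⟨i, hi⟩ := hz
    exact absurd (h i) (not_lt.2 hi)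

theorem far_le_hit {U : Finset (Sym2 (Fin d → ℤ))} (hU : (↑U : Set _) ⊆ (lattice d).edgeSet)
    {p : ℝ} (h0 : 0 ≤ p) (h1 : p ≤ 1) (n : ℕ) :
    Ex U (fun _ => p) (fun ω => ind (∃ z, Conn ω 0 z ∧ ∃ i, (n : ℤ) ≤ |z i|)) ≤
      hit (Ein (lattice d) (box 0 (n : ℤ))) p ∅ 0 (bd d n) := by
  set B := Ein (lattice d) (box 0 (n : ℤ))
  calc _ ≤ Ex U (fun _ => p) (fun ω => ind (ConnTo (∅ ∪ (ω ∩ (U ∩ B))) 0 (bd d n))) := by
        refine Ex_mono (adm_const h0 h1) fun ω hω => ind_mono fun ⟨z, hz, hi⟩ => ?_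
        refine (first_visit (fun e he => hU (hω he)) n hz hi).mono (fun e he => ?_) Subset.rfl
        rw [mem_inter] at he
        exact mem_union_right _ (mem_inter.2 ⟨he.1, mem_inter.2 ⟨hω he.1, he.2⟩⟩)
    _ = hit (U ∩ B) p ∅ 0 (bd d n) :=
        Ex_inter inter_subset_left _ (fun ω => ind (ConnTo (∅ ∪ ω) 0 (bd d n)))
    _ ≤ _ := hit_mono h0 h1 Subset.rfl (inter_subset_right.trans subset_union_left) _ Subset.rfl

/-- sign -/
def sg (b : Bool) : ℤ := if b then 1 else -1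

/-- lower corner of a slab -/
def slo (c : Fin d → ℤ) (i : Fin d) (b : Bool) (α β w : ℤ) : Fin d → ℤ :=
  fun j => if j = i then (if b then c j + α else c j - β) else c j - w

/-- upper corner of a slab -/
def shi (c : Fin d → ℤ) (i : Fin d) (b : Bool) (α β w : ℤ) : Fin d → ℤ :=
  fun j => if j = i then (if b then c j + β else c j - α) else c j + w

/-- a box elongated in the direction `(i, b)` -/
noncomputable def slab (c : Fin d → ℤ) (i : Fin d) (b : Bool) (α β w : ℤ) : Finset (Fin d → ℤ) :=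
  boxI (slo c i b α β w) (shi c i b α β w)

variable {c x : Fin d → ℤ} {i : Fin d} {b : Bool} {α β w α' β' w' : ℤ}

theorem mem_slab : x ∈ slab c i b α β w ↔ (α ≤ sg b * (x i - c i) ∧ sg b * (x i - c i) ≤ β) ∧
    ∀ j, j ≠ i → c j - w ≤ x j ∧ x j ≤ c j + w := by
  rw [slab, mem_boxI]
  constructor
  · intro h
    refine ⟨?_, fun j hj => by simpa [slo, shi, hj] using h j⟩
    have := h i
    cases b <;> simp [slo, shi, sg] at this ⊢ <;> omega
  · rintro ⟨h, h'⟩ j
    by_cases hj : j = i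
    · subst hj
      cases b <;> simp [slo, shi, sg] at h ⊢ <;> omega
    · simpa [slo, shi, hj] using h' j hj

theorem slab_mono (h1 : α' ≤ α) (h2 : β ≤ β') (h3 : w ≤ w') :
    slab c i b α β w ⊆ slab c i b α' β' w' := fun x hx => by
  rw [mem_slab] at hx ⊢
  exact ⟨⟨by omega, by omega⟩, fun j hj => by have := hx.2 j hj; omega⟩

theorem slab_cut (γ : ℤ) : slab c i b α β w ⊆ slab c i b α γ w ∪ slab c i b (γ + 1) β w :=
  fun x hx => by
    rw [mem_union, mem_slab, mem_slab]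
    rw [mem_slab] at hx
    by_cases h : sg b * (x i - c i) ≤ γ
    · exact Or.inl ⟨⟨hx.1.1, h⟩, hx.2⟩
    · exact Or.inr ⟨⟨by omega, hx.1.2⟩, hx.2⟩

theorem slab_inter (h : x ∈ slab c i b α β w) (h' : x ∈ slab c i b α' β' w') :
    x ∈ slab c i b α β' w' := by
  rw [mem_slab] at h h' ⊢
  exact ⟨⟨h.1.1, h'.1.2⟩, h'.2⟩

theorem slab_shift (γ : ℤ) : slab (c + Pi.single i (sg b * γ)) i b α β w =
    slab c i b (α + γ) (β + γ) w := by
  ext x
  rw [mem_slab, mem_slab]
  refine and_congr ?_ (forall_congr' fun j => imp_congr_right fun hj => by simp [hj])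
  cases b <;> simp [sg] <;> omega

theorem box_eq_slab (c : Fin d → ℤ) (i : Fin d) (b : Bool) (r : ℤ) :
    box c r = slab c i b (-r) r r := by
  ext x
  rw [mem_slab, mem_box]
  constructor
  · intro h
    refine ⟨?_, fun j _ => h j⟩
    have := h i
    cases b <;> simp [sg] <;> omega
  · rintro ⟨h, h'⟩ j
    by_cases hj : j = i
    · subst hj
      cases b <;> simp [sg] at h <;> omega
    · exact h' j hj

theorem slab_ext (r : ℤ) : boxI (fun j => slo c i b α β w j - r) (fun j => shi c i b α β w j + r) =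
    slab c i b (α - r) (β + r) (w + r) := by
  unfold slab
  congr 1 <;> funext j <;> simp only [slo, shi] <;> split_ifs <;> ring

/-- steering between slabs -/
def SteerOK (d : ℕ) (p : ℝ) (l ρ L : ℤ) (θ : ℝ) : Prop :=
  ∀ (c : Fin d → ℤ) (i : Fin d) (b : Bool) (α β w γ : ℤ), α ≤ γ - l → γ + l ≤ β → l ≤ w →
    β - α ≤ L → 2 * w ≤ L → ∀ (D ξ : Finset (Sym2 (Fin d → ℤ))) (o : Fin d → ℤ), Disjoint ξ D →
    (↑ξ : Set (Sym2 (Fin d → ℤ))) ⊆ (lattice d).edgeSet →
    (↑D : Set (Sym2 (Fin d → ℤ))) ⊆ (lattice d).edgeSet →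
    o ∉ slab c i b (α - ρ) (β + ρ) (w + ρ) →
    Ein (lattice d) (slab c i b (α - ρ) (β + ρ) (w + ρ)) ⊆ D →
    Ein (lattice d) (slab c i b (α - 2 * l) (β + 2 * l) (w + 2 * l)) ⊆ D ∪ ξ →
    hit D p ξ o (slab c i b α β w) - θ ≤ hit D p ξ o (slab c i b (γ - 3 * l) (γ + 3 * l) (3 * l))

end Lattice

end Vale.Agent.P151.BlockAux
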