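import Mathlib
import Vale.Agent.P151.BlockA

/-!
Geometry of the renormalisation: cells, corridors and their disjointness.
-/

namespace Vale.Agent.P151.BlockAux

open Finset

/-- index of an integer with respect to cells and gaps -/
def Idx (S a n t : ℤ) : Prop :=
  (∃ k, n = 2 * k ∧ S * k - a ≤ t ∧ t ≤ S * k + a) ∨
    (∃ k, n = 2 * k + 1 ∧ S * k + a + 1 ≤ t ∧ t ≤ S * k + S - a - 1)

theorem idx_unique {S a n n' t : ℤ} (ha : 0 ≤ a) (hS : 2 * a < S) (h : Idx S a n t)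
    (h' : Idx S a n' t) : n = n' := by
  have step : ∀ k k' : ℤ, k < k' → S * k + S ≤ S * k' := fun k k' hk => by
    have := mul_le_mul_of_nonneg_left (show k + 1 ≤ k' from hk) (show 0 ≤ S by omega)
    rwa [mul_add, mul_one] at this
  rcases h with ⟨k, rfl, h1, h2⟩ | ⟨k, rfl, h1, h2⟩ <;>
    rcases h' with ⟨k', rfl, h3, h4⟩ | ⟨k', rfl, h3, h4⟩ <;>
    rcases lt_trichotomy k k' with hk | rfl | hk
  all_goals first
    | (have := step _ _ hk; omega)
    | omega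

/-- parameters of the renormalisation -/
structure Par (d : ℕ) where
  /-- first coarse axis -/
  i0 : Fin d
  /-- second coarse axis -/
  i1 : Fin d
  ne : i0 ≠ i1
  /-- scale -/
  l : ℤ
  /-- length of the ladder -/
  T : ℤ
  hl : 0 < l
  hT : 0 ≤ T

/-- coarse oriented edges -/
abbrev CE := (ℤ × ℤ) × (Bool × Bool)

namespace Par

variable {d : ℕ} (P : Par d)

/-- spacing -/
def S : ℤ := 22 * P.l + 2 + P.T

/-- centre of a cell -/
def cen (y : ℤ × ℤ) : Fin d → ℤ :=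
  fun j => if j = P.i0 then P.S * y.1 else if j = P.i1 then P.S * y.2 else 0

/-- axis of a direction -/
def ax (u : Bool × Bool) : Fin d := if u.1 then P.i1 else P.i0

/-- slab along a coarse edge -/
noncomputable def sl (a : CE) (α β w : ℤ) : Finset (Fin d → ℤ) :=
  slab (P.cen a.1) (P.ax a.2) a.2.2 α β w

/-- cell -/
noncomputable def Q (y : ℤ × ℤ) : Finset (Fin d → ℤ) := box (P.cen y) (8 * P.l)

/-- corridor -/
noncomputable def Cor (a : CE) : Finset (Fin d → ℤ) :=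
  P.sl a (8 * P.l + 1) (14 * P.l + 1 + P.T) (8 * P.l)

/-- narrow corridor beyond level `τ` -/
noncomputable def Nar (a : CE) (τ : ℤ) : Finset (Fin d → ℤ) :=
  P.sl a (8 * P.l + 1 + τ) (14 * P.l + 1 + P.T) (5 * P.l)

/-- end box -/
noncomputable def End (a : CE) : Finset (Fin d → ℤ) :=
  P.sl a (8 * P.l + 1 + P.T) (14 * P.l + 1 + P.T) (3 * P.l)

/-- explored region -/
noncomputable def W (X : Finset CE) : Finset (Fin d → ℤ) :=
  P.Q 0 ∪ X.biUnion fun b => P.Cor b ∪ P.Q (b.1 + vec b.2)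

theorem cen_zero : P.cen 0 = 0 := by
  funext j; simp [cen]

theorem cen_i0 (y : ℤ × ℤ) : P.cen y P.i0 = P.S * y.1 := by simp [cen]

theorem cen_i1 (y : ℤ × ℤ) : P.cen y P.i1 = P.S * y.2 := by simp [cen, P.ne.symm]

theorem cen_add (y : ℤ × ℤ) (u : Bool × Bool) :
    P.cen (y + vec u) = P.cen y + Pi.single (P.ax u) (sg u.2 * P.S) := by
  have h1 := P.ne
  have h2 := P.ne.symm
  funext j
  obtain ⟨u1, u2⟩ := u
  by_cases h0 : j = P.i0
  · subst h0
    cases u1 <;> cases u2 <;> simp [cen, ax, vec, sg, h1] <;> ring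
  · by_cases h3 : j = P.i1
    · subst h3
      cases u1 <;> cases u2 <;> simp [cen, ax, vec, sg, h2] <;> ring
    · cases u1 <;> cases u2 <;> simp [cen, ax, h0, h3]

theorem box_tgt (a : CE) (r : ℤ) :
    box (P.cen (a.1 + vec a.2)) r = P.sl a (P.S - r) (P.S + r) r := by
  rw [cen_add, box_eq_slab _ (P.ax a.2) a.2.2, slab_shift, sl]
  congr 1 <;> ring

theorem box_src (a : CE) (r : ℤ) : box (P.cen a.1) r = P.sl a (-r) r r := box_eq_slab _ _ _ _

theorem idx_Q {x : Fin d → ℤ} {y : ℤ × ℤ} (h : x ∈ P.Q y) :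
    Idx P.S (8 * P.l) (2 * y.1) (x P.i0) ∧ Idx P.S (8 * P.l) (2 * y.2) (x P.i1) := by
  have h0 := mem_box.1 h P.i0
  have h1 := mem_box.1 h P.i1
  rw [cen_i0] at h0
  rw [cen_i1] at h1
  exact ⟨Or.inl ⟨_, rfl, h0⟩, Or.inl ⟨_, rfl, h1⟩⟩

theorem idx_Cor {x : Fin d → ℤ} {a : CE} (h : x ∈ P.Cor a) :
    Idx P.S (8 * P.l) (2 * a.1.1 + (vec a.2).1) (x P.i0) ∧
      Idx P.S (8 * P.l) (2 * a.1.2 + (vec a.2).2) (x P.i1) := by
  obtain ⟨y, u1, u2⟩ := a
  obtain ⟨⟨h1, h2⟩, h3⟩ := mem_slab.1 h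
  have hS : P.S = 22 * P.l + 2 + P.T := rfl
  have e1 : P.S * (y.1 - 1) = P.S * y.1 - P.S := by ring
  have e2 : P.S * (y.2 - 1) = P.S * y.2 - P.S := by ring
  cases u1
  · have h4 := h3 P.i1 P.ne.symm
    simp only [ax, Bool.false_eq_true, if_false, cen_i0, cen_i1] at h1 h2 h4
    cases u2
    · simp only [sg, Bool.false_eq_true, if_false] at h1 h2
      exact ⟨Or.inr ⟨y.1 - 1, by simp [vec]; ring, by omega, by omega⟩,
        Or.inl ⟨y.2, by simp [vec], h4⟩⟩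
    · simp only [sg, if_true] at h1 h2
      exact ⟨Or.inr ⟨y.1, by simp [vec], by omega, by omega⟩, Or.inl ⟨y.2, by simp [vec], h4⟩⟩
  · have h4 := h3 P.i0 P.ne
    simp only [ax, if_true, cen_i0, cen_i1] at h1 h2 h4
    cases u2
    · simp only [sg, Bool.false_eq_true, if_false] at h1 h2
      exact ⟨Or.inl ⟨y.1, by simp [vec], h4⟩,
        Or.inr ⟨y.2 - 1, by simp [vec]; ring, by omega, by omega⟩⟩
    · simp only [sg, if_true] at h1 h2
      exact ⟨Or.inl ⟨y.1, by simp [vec], h4⟩, Or.inr ⟨y.2, by simp [vec], by omega, by omega⟩⟩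

theorem uniq {n n' t : ℤ} (h : Idx P.S (8 * P.l) n t) (h' : Idx P.S (8 * P.l) n' t) : n = n' :=
  idx_unique (by have := P.hl; omega) (by have := P.hl; have := P.hT; unfold S; omega) h h'

theorem Q_Q {x : Fin d → ℤ} {y z : ℤ × ℤ} (h : x ∈ P.Q y) (h' : x ∈ P.Q z) : y = z := by
  have h1 := P.uniq (P.idx_Q h).1 (P.idx_Q h').1
  have h2 := P.uniq (P.idx_Q h).2 (P.idx_Q h').2
  exact Prod.ext (by omega) (by omega)

theorem Q_Cor {x : Fin d → ℤ} {y : ℤ × ℤ} {a : CE} (h : x ∈ P.Q y) (h' : x ∈ P.Cor a) : False := by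
  have h1 := P.uniq (P.idx_Q h).1 (P.idx_Cor h').1
  have h2 := P.uniq (P.idx_Q h).2 (P.idx_Cor h').2
  obtain ⟨z, u1, u2⟩ := a
  cases u1 <;> cases u2 <;> simp only [vec] at h1 h2 <;> omega

theorem Cor_Cor {x : Fin d → ℤ} {a b : CE} (h : x ∈ P.Cor a) (h' : x ∈ P.Cor b) :
    b.1 = a.1 + vec a.2 ∨ b.1 + vec b.2 = a.1 + vec a.2 := by
  have h1 := P.uniq (P.idx_Cor h).1 (P.idx_Cor h').1
  have h2 := P.uniq (P.idx_Cor h).2 (P.idx_Cor h').2
  obtain ⟨z, u1, u2⟩ := a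
  obtain ⟨z', v1, v2⟩ := b
  simp only [Prod.ext_iff, Prod.fst_add, Prod.snd_add]
  cases u1 <;> cases u2 <;> cases v1 <;> cases v2 <;> simp only [vec] at h1 h2 ⊢ <;> omega

theorem mem_W {x : Fin d → ℤ} {X : Finset CE} :
    x ∈ P.W X ↔ x ∈ P.Q 0 ∨ ∃ b ∈ X, x ∈ P.Cor b ∨ x ∈ P.Q (b.1 + vec b.2) := by
  simp only [W, mem_union, mem_biUnion]

theorem W_mono {X X' : Finset CE} (h : X ⊆ X') : P.W X ⊆ P.W X' := fun x hx => by
  rw [mem_W] at hx ⊢
  rcases hx with hx | ⟨b, hb, hx⟩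
  · exact Or.inl hx
  · exact Or.inr ⟨b, h hb, hx⟩

theorem Q_W {x : Fin d → ℤ} {X : Finset CE} {y : ℤ × ℤ} (hy : Untouched X y) (h : x ∈ P.Q y) :
    x ∉ P.W X := fun hx => by
  rcases P.mem_W.1 hx with hx | ⟨b, hb, hx | hx⟩
  · exact hy.1 (P.Q_Q h hx)
  · exact P.Q_Cor h hx
  · exact (hy.2 b hb).2 (P.Q_Q hx h)

theorem Cor_W {x : Fin d → ℤ} {X : Finset CE} {a : CE} (hy : Untouched X (a.1 + vec a.2))
    (h : x ∈ P.Cor a) : x ∉ P.W X := fun hx => by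
  rcases P.mem_W.1 hx with hx | ⟨b, hb, hx | hx⟩
  · exact P.Q_Cor hx h
  · rcases P.Cor_Cor h hx with h1 | h1
    · exact (hy.2 b hb).1 h1
    · exact (hy.2 b hb).2 h1
  · exact P.Q_Cor hx h

theorem Nar_sub_Cor (a : CE) {τ : ℤ} (h : 0 ≤ τ) : P.Nar a τ ⊆ P.Cor a :=
  slab_mono (by omega) le_rfl (by have := P.hl; omega)

theorem End_sub_Nar (a : CE) {τ : ℤ} (h : τ ≤ P.T) : P.End a ⊆ P.Nar a τ :=
  slab_mono (by omega) le_rfl (by have := P.hl; omega)

theorem Q0_sub_W (X : Finset CE) : P.Q 0 ⊆ P.W X := subset_union_left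

theorem zero_mem_Q0 : (0 : Fin d → ℤ) ∈ P.Q 0 := by
  rw [Q, cen_zero, mem_box]
  intro j
  have := P.hl
  simp only [Pi.zero_apply]
  omega

theorem sub_W_insert (X : Finset CE) (a : CE) :
    P.Cor a ∪ P.Q (a.1 + vec a.2) ⊆ P.W (insert a X) := fun _ hx =>
  P.mem_W.2 (Or.inr ⟨a, mem_insert_self _ _, mem_union.1 hx⟩)

theorem far {x : Fin d → ℤ} {a : CE} {n : ℕ} (h : x ∈ P.Cor a) (h1 : InBox n a.1)
    (h2 : ¬ InBox n (a.1 + vec a.2)) : (n : ℤ) + 1 ≤ |x (P.ax a.2)| := by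
  obtain ⟨y, u1, u2⟩ := a
  obtain ⟨⟨h3, -⟩, -⟩ := mem_slab.1 h
  have hl := P.hl
  have hS : (n : ℤ) ≤ P.S * n := le_mul_of_one_le_left (by omega)
    (by have := P.hT; unfold S; omega)
  have hS' : P.S * (-(n : ℤ)) = -(P.S * n) := by ring
  simp only [InBox, abs_le, Prod.fst_add, Prod.snd_add] at h1 h2
  rw [le_abs]
  cases u1 <;> cases u2 <;>
    simp only [vec, ax, sg, Bool.false_eq_true, if_false, if_true, cen_i0, cen_i1] at h2 h3 ⊢
  · have : y.1 = -n := by omega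
    rw [this] at h3; omega
  · have : y.1 = n := by omega
    rw [this] at h3; omega
  · have : y.2 = -n := by omega
    rw [this] at h3; omega
  · have : y.2 = n := by omega
    rw [this] at h3; omega

end Par

end Vale.Agent.P151.BlockAux
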