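import Mathlib
import Vale.Agent.P151.BlockB

/-!
The invariant of the renormalisation and its four properties.
-/

namespace Vale.Agent.P151.BlockAux

open Finset

theorem not_mem_Ein {V : Type} [DecidableEq V] {G : SimpleGraph V} {Z W : Finset V}
    (h : ∀ x ∈ Z, x ∉ W) {e : Sym2 V} (he : e ∈ Ein G Z) : e ∉ Ein G W := by
  induction e using Sym2.ind with
  | h x y => exact fun h' => h x (mk_mem_Ein.1 he).1 (mk_mem_Ein.1 h').1

theorem exists_end {V : Type} [DecidableEq V] {G : SimpleGraph V} {W N : Finset V}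
    {e : Sym2 V} (he : e ∈ Ein G (W ∪ N) \ Ein G W) : ∃ x ∈ e, x ∈ N := by
  by_contra hcon
  push Not at hcon
  obtain ⟨h1, h2⟩ := mem_sdiff.1 he
  exact h2 (mem_Ein.2 ⟨(mem_Ein.1 h1).1, fun v hv =>
    (mem_union.1 ((mem_Ein.1 h1).2 v hv)).resolve_right (hcon v hv)⟩)

theorem single_mem_nbk {d : ℕ} (i : Fin d) (b : Bool) (k : ℕ) :
    (Pi.single i (sg b * k) : Fin d → ℤ) ∈ nbk (lattice d) k {0} := by
  induction k with
  | zero => simp [nbk_zero]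
  | succ k ih =>
    rw [nbk_succ, mem_nb]
    refine Or.inr ⟨_, ih, lattice_adj.2 ⟨i, ?_⟩⟩
    cases b
    · right; rw [← Pi.single_sub]; congr 1; simp [sg]; ring
    · left; rw [← Pi.single_add]; congr 1

namespace Par

variable {d : ℕ} (P : Par d)

/-- the wired edges -/
noncomputable def base : Finset (Sym2 (Fin d → ℤ)) := Ein (lattice d) (P.Q 0)

/-- revealed edges -/
noncomputable def Rv (X : Finset CE) : Finset (Sym2 (Fin d → ℤ)) :=
  Ein (lattice d) (P.W X) \ P.base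

/-- fresh edges of the narrow corridor -/
noncomputable def Dn (X : Finset CE) (a : CE) : Finset (Sym2 (Fin d → ℤ)) :=
  Ein (lattice d) (P.W X ∪ P.Nar a 0) \ Ein (lattice d) (P.W X)

/-- the invariant -/
def Inv (p δ1 : ℝ) (X : Finset CE) (ξ : Finset (Sym2 (Fin d → ℤ))) (a : CE) : Prop :=
  1 - δ1 ≤ hit (P.Dn X a) p (P.base ∪ ξ) 0 (P.End a)

theorem base_sub (X : Finset CE) : P.base ⊆ Ein (lattice d) (P.W X) := Ein_mono _ (P.Q0_sub_W X)

theorem Rv_mono {X X' : Finset CE} (h : X ⊆ X') : P.Rv X ⊆ P.Rv X' :=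
  sdiff_subset_sdiff (Ein_mono _ (P.W_mono h)) Subset.rfl

theorem Rv_empty : P.Rv ∅ = ∅ := by simp [Rv, W, base]

theorem inv_mono {p δ1 : ℝ} (h0 : 0 ≤ p) (h1 : p ≤ 1) {X X' : Finset CE}
    {ξ ξ' : Finset (Sym2 (Fin d → ℤ))} {a : CE} (hX : X ⊆ X') (hξ : ξ ⊆ ξ')
    (hu : Untouched X' (a.1 + vec a.2)) (h : P.Inv p δ1 X ξ a) : P.Inv p δ1 X' ξ' a := by
  refine le_trans h (hit_mono h0 h1 (union_subset_union_right hξ) (fun e he => ?_) _ Subset.rfl)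
  refine mem_union_left _ (mem_sdiff.2 ⟨Ein_mono _ (union_subset_union_left (P.W_mono hX))
    (mem_sdiff.1 he).1, fun h' => ?_⟩)
  obtain ⟨x, hx, hN⟩ := exists_end he
  exact P.Cor_W hu (P.Nar_sub_Cor a le_rfl hN) ((mem_Ein.1 h').2 x hx)

theorem inv_far {p δ1 : ℝ} (hδ : δ1 < 1) {X : Finset CE} {ξ : Finset (Sym2 (Fin d → ℤ))} {a : CE}
    {n : ℕ} (h1 : InBox n a.1) (h2 : ¬ InBox n (a.1 + vec a.2)) (h : P.Inv p δ1 X ξ a) :
    ∃ z, Conn (P.base ∪ ξ) 0 z ∧ ∃ i, (n : ℤ) ≤ |z i| := by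
  obtain ⟨ω, hω, t, ht, hc⟩ := exists_of_hit_pos (lt_of_lt_of_le (by linarith) h)
  have hf : ∀ x ∈ P.Nar a 0, (n : ℤ) + 1 ≤ |x (P.ax a.2)| := fun x hx =>
    P.far (P.Nar_sub_Cor a le_rfl hx) h1 h2
  rcases first_exit hc with hc | ⟨z, w, hc, he⟩
  · exact ⟨t, hc, _, le_trans (by omega) (hf t (P.End_sub_Nar a P.hT ht))⟩
  · refine ⟨z, hc, P.ax a.2, ?_⟩
    obtain ⟨x, hx, hN⟩ := exists_end (hω he)
    have h3 := hf x hN
    have h4 := lattice_adj_abs (mk_mem_Ein.1 (mem_sdiff.1 (hω he)).1).2.2 (P.ax a.2)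
    rcases Sym2.mem_iff.1 hx with rfl | rfl
    · omega
    · rw [abs_le] at h4
      rw [le_abs] at h3 ⊢
      omega

theorem inv_init {p δ δ1 θ : ℝ} (h0 : 0 ≤ p) (h1 : p ≤ 1) {m l : ℕ} {ρ L : ℤ} (hl : P.l = l)
    (hH : HitAt d p m l δ) (hS : SteerOK d p P.l ρ L θ) (hρ0 : 0 ≤ ρ) (hρ : ρ + m + 1 ≤ P.l)
    (hL : P.T + 16 * P.l ≤ L) (hδ : δ + θ ≤ δ1) (u : Bool × Bool) : P.Inv p δ1 ∅ ∅ (0, u) := by
  have hl0 := P.hl
  have hT := P.hT
  have hW : P.W ∅ = P.Q 0 := by simp [W]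
  obtain ⟨k, hk⟩ : ∃ k : ℕ, (k : ℤ) = 8 * P.l - m := ⟨(8 * P.l - m).toNat, by omega⟩
  set v : Fin d → ℤ := Pi.single (P.ax u) (sg u.2 * k) with hv
  have hvc : v = P.cen 0 + Pi.single (P.ax u) (sg u.2 * k) := by rw [cen_zero, zero_add]
  have hball : nbk (lattice d) m {v} ⊆ nbk (lattice d) (m + k) {0} := by
    rw [nbk_add]
    exact nbk_mono _ _ (singleton_subset_iff.2 (single_mem_nbk _ _ _))
  have hQ : nbk (lattice d) (m + k) {0} ⊆ P.Q 0 := fun x hx => by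
    rw [Q, cen_zero, mem_box]
    intro j
    have := abs_le.1 (abs_le_of_mem_nbk hx j)
    push_cast at this
    omega
  have hroom : ∀ {α β w : ℤ}, -(8 * P.l) ≤ α → β ≤ 14 * P.l + 1 + P.T → w ≤ 5 * P.l →
      Ein (lattice d) (P.sl (0, u) α β w) ⊆ P.Dn ∅ (0, u) ∪ (P.base ∪ ∅) := by
    intro α β w ha hb hw e he
    rw [union_empty, Dn, hW, base, sdiff_union_self_eq_union]
    refine mem_union_left _ (Ein_mono _ ((slab_cut (8 * P.l)).trans (union_subset_union ?_ ?_)) he)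
    · rw [Q, P.box_src (0, u)]
      exact slab_mono ha le_rfl (by omega)
    · exact slab_mono (by omega) hb hw
  have hbox : box v (l : ℤ) = P.sl (0, u) (-l + k) (l + k) l := by
    rw [hvc, box_eq_slab _ (P.ax u) u.2, slab_shift, sl]
  have hface : face v l (P.ax u) (fun _ => u.2) ⊆
      P.sl (0, u) (k + P.l) (12 * P.l + 1 + P.T) P.l := fun x hx => by
    rw [face, mem_boxI] at hx
    refine mem_slab.2 ⟨?_, fun j hj => ?_⟩
    · have := hx (P.ax u)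
      simp only [cen_zero, hv, if_true, Pi.single_eq_same, Pi.zero_apply] at this ⊢
      cases h : u.2 <;> simp [h, sg] at this ⊢ <;> omega
    · have := hx j
      simp only [cen_zero, hv, if_neg hj, Pi.single_eq_of_ne hj, Pi.zero_apply] at this ⊢
      cases h : u.2 <;> simp [h] at this ⊢ <;> omega
  have h2 : 1 - δ ≤ hit (P.Dn ∅ (0, u)) p (P.base ∪ ∅) 0
      (P.sl (0, u) (k + P.l) (12 * P.l + 1 + P.T) P.l) := by
    refine le_trans (hH v (P.ax u) (fun _ => u.2)) (le_trans (hitS_mono h0 h1 (empty_subset _)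
      (D' := P.Dn ∅ (0, u)) (ξ' := P.base ∪ ∅) ?_ Subset.rfl hface) ?_)
    · rw [hbox]; exact hroom (by omega) (by omega) (by omega)
    · refine Ex_mono (adm_const h0 h1) fun ω _ => ind_mono fun ⟨x, hx, t, ht, hc⟩ => ⟨t, ht, ?_⟩
      exact ((conn_of_mem_nbk _ _ _ _ (hball hx)).mono ((Ein_mono _ hQ).trans
        (subset_union_left.trans subset_union_left))).trans hc
  have hsub : P.sl (0, u) (k + P.l - ρ) (12 * P.l + 1 + P.T + ρ) (P.l + ρ) ⊆ P.Nar (0, u) 0 :=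
    slab_mono (by omega) (by omega) (by omega)
  have hnot : ∀ x ∈ P.Nar (0, u) 0, x ∉ P.Q 0 := fun x hx h =>
    P.Q_Cor h (P.Nar_sub_Cor _ le_rfl hx)
  have h3 := hS (P.cen 0) (P.ax u) u.2 (k + P.l) (12 * P.l + 1 + P.T) P.l (11 * P.l + 1 + P.T)
    (by omega) (by omega) le_rfl (by omega) (by omega) (P.Dn ∅ (0, u)) (P.base ∪ ∅) 0
    (by rw [union_empty, Dn, hW]; exact disjoint_sdiff)
    (by rw [union_empty]; exact Ein_sub_edgeSet _ _)
    (fun e he => Ein_sub_edgeSet _ _ (mem_sdiff.1 he).1)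
    (fun h => hnot _ (hsub h) P.zero_mem_Q0)
    (fun e he => by
      rw [Dn, hW]
      exact mem_sdiff.2 ⟨Ein_mono _ (hsub.trans subset_union_right) he,
        not_mem_Ein (fun x hx => hnot x (hsub hx)) he⟩)
    (hroom (by omega) (by omega) (by omega))
  have e : slab (P.cen 0) (P.ax u) u.2 (11 * P.l + 1 + P.T - 3 * P.l) (11 * P.l + 1 + P.T + 3 * P.l)
      (3 * P.l) = P.End (0, u) := by
    rw [End, sl]; congr 1 <;> ring
  rw [e] at h3
  have h4 : 1 - δ - θ ≤ hit (P.Dn ∅ (0, u)) p (P.base ∪ ∅) 0 (P.End (0, u)) :=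
    le_trans (sub_le_sub_right h2 θ) h3
  unfold Inv
  linarith

theorem two_steer {p θ : ℝ} (h0 : 0 ≤ p) (h1 : p ≤ 1) {ρ L : ℤ}
    (hS : SteerOK d p P.l ρ L θ) (hρ : ρ ≤ P.l) (hL : P.T + 16 * P.l ≤ L)
    {X : Finset CE} {ξ η : Finset (Sym2 (Fin d → ℤ))} {a : CE} (hξ : ξ ⊆ P.Rv X)
    (hu : Untouched X (a.1 + vec a.2)) {τ : ℤ} (hτ0 : 0 ≤ τ) (hτ : τ + 3 * P.l ≤ P.T)
    (hη : η ⊆ P.Dn X a \ Ein (lattice d) (P.Nar a τ)) {u : Bool × Bool}
    (hu' : Untouched (insert a X) (a.1 + vec a.2 + vec u)) :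
    hit (((P.Rv (insert a X) \ P.Rv X) \ (P.Dn X a \ Ein (lattice d) (P.Nar a τ))) ∪
        P.Dn (insert a X) (a.1 + vec a.2, u)) p (P.base ∪ ξ ∪ η) 0 (P.Nar a (τ + 3 * P.l)) - 2 * θ ≤
      hit (((P.Rv (insert a X) \ P.Rv X) \ (P.Dn X a \ Ein (lattice d) (P.Nar a τ))) ∪
        P.Dn (insert a X) (a.1 + vec a.2, u)) p (P.base ∪ ξ ∪ η) 0 (P.End (a.1 + vec a.2, u)) := by
  have hl0 := P.hl
  have hT := P.hT
  have hSS : P.S = 22 * P.l + 2 + P.T := rfl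
  set y := a.1 + vec a.2 with hy
  set X' := insert a X with hX'
  set H := P.Dn X a \ Ein (lattice d) (P.Nar a τ) with hH
  set D := ((P.Rv X' \ P.Rv X) \ H) ∪ P.Dn X' (y, u) with hD
  have hWW : P.W X ⊆ P.W X' := P.W_mono (subset_insert _ _)
  have hCW : P.Cor a ∪ P.Q y ⊆ P.W X' := P.sub_W_insert X a
  have hNW : P.W X ∪ P.Nar a 0 ⊆ P.W X' :=
    union_subset hWW ((P.Nar_sub_Cor a le_rfl).trans (subset_union_left.trans hCW))
  have hbξ : P.base ∪ ξ ⊆ Ein (lattice d) (P.W X) :=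
    union_subset (P.base_sub X) (hξ.trans sdiff_subset)
  have hηW : η ⊆ Ein (lattice d) (P.W X') :=
    hη.trans (sdiff_subset.trans (sdiff_subset.trans (Ein_mono _ hNW)))
  have hdis : Disjoint (P.base ∪ ξ ∪ η) D := by
    rw [disjoint_left]
    intro e he he'
    rcases mem_union.1 he' with h2 | h2
    · obtain ⟨h3, h4⟩ := mem_sdiff.1 h2
      rcases mem_union.1 he with h5 | h5
      · exact (mem_sdiff.1 h3).2 (mem_sdiff.2 ⟨hbξ h5, (mem_sdiff.1 (mem_sdiff.1 h3).1).2⟩)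
      · exact h4 (hη h5)
    · refine (mem_sdiff.1 h2).2 ?_
      rcases mem_union.1 he with h5 | h5
      · exact Ein_mono _ hWW (hbξ h5)
      · exact hηW h5
  have hE1 : (↑(P.base ∪ ξ ∪ η) : Set (Sym2 (Fin d → ℤ))) ⊆ (lattice d).edgeSet := fun e he => by
    rcases mem_union.1 he with h5 | h5
    · exact Ein_sub_edgeSet _ _ (hbξ h5)
    · exact Ein_sub_edgeSet _ _ (hηW h5)
  have hE2 : (↑D : Set (Sym2 (Fin d → ℤ))) ⊆ (lattice d).edgeSet := fun e he => by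
    rcases mem_union.1 he with h5 | h5
    · exact Ein_sub_edgeSet _ _ (mem_sdiff.1 (mem_sdiff.1 (mem_sdiff.1 h5).1).1).1
    · exact Ein_sub_edgeSet _ _ (mem_sdiff.1 h5).1
  have hfresh : ∀ Z : Finset (Fin d → ℤ), Z ⊆ P.W X' ∪ P.Nar (y, u) 0 → (∀ x ∈ Z, x ∉ P.W X) →
      (∀ x ∈ Z, x ∈ P.Nar a 0 → x ∈ P.Nar a τ) → Ein (lattice d) Z ⊆ D := by
    intro Z h2 h3 h4 e he
    by_cases h5 : e ∈ Ein (lattice d) (P.W X')
    · have h6 := not_mem_Ein h3 he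
      refine mem_union_left _ (mem_sdiff.2 ⟨mem_sdiff.2 ⟨mem_sdiff.2 ⟨h5, fun h => h6
        (P.base_sub X h)⟩, fun h => h6 (mem_sdiff.1 h).1⟩, fun h => ?_⟩)
      refine (mem_sdiff.1 h).2 (mem_Ein.2 ⟨(mem_Ein.1 he).1, fun x hx => ?_⟩)
      have h7 := (mem_Ein.1 he).2 x hx
      exact h4 x h7 ((mem_union.1 ((mem_Ein.1 (mem_sdiff.1 (mem_sdiff.1 h).1).1).2 x hx)).resolve_left
        (h3 x h7))
    · exact mem_union_right _ (mem_sdiff.2 ⟨Ein_mono _ h2 he, h5⟩)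
  have h0W : (0 : Fin d → ℤ) ∈ P.W X := P.Q0_sub_W X P.zero_mem_Q0
  -- first steering
  have hZ1 : P.sl a (11 * P.l + 1 + τ - 2 * P.l) (P.S + P.l + 2 * P.l) (5 * P.l + 2 * P.l) ⊆
      P.Cor a ∪ P.Q y := by
    refine (slab_cut (14 * P.l + 1 + P.T)).trans (union_subset_union
      (slab_mono (by omega) le_rfl (by omega)) ?_)
    rw [Q, hy, box_tgt]
    exact slab_mono (by omega) (by omega) (by omega)
  have hZ1W : ∀ x ∈ P.sl a (11 * P.l + 1 + τ - 2 * P.l) (P.S + P.l + 2 * P.l) (5 * P.l + 2 * P.l),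
      x ∉ P.W X := fun x hx => by
    rcases mem_union.1 (hZ1 hx) with h | h
    · exact P.Cor_W hu h
    · exact P.Q_W hu h
  have hF1 := hfresh _ (hZ1.trans (hCW.trans subset_union_left)) hZ1W
    (fun x hx h => slab_mono (by omega) le_rfl le_rfl (slab_inter hx h))
  have hs1 : P.sl a (11 * P.l + 1 + τ - ρ) (P.S + P.l + ρ) (5 * P.l + ρ) ⊆
      P.sl a (11 * P.l + 1 + τ - 2 * P.l) (P.S + P.l + 2 * P.l) (5 * P.l + 2 * P.l) :=
    slab_mono (by omega) (by omega) (by omega)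
  have st1 := hS (P.cen a.1) (P.ax a.2) a.2.2 (11 * P.l + 1 + τ) (P.S + P.l) (5 * P.l) P.S
    (by omega) (by omega) (by omega) (by omega) (by omega) D _ 0 hdis hE1 hE2
    (fun h => hZ1W _ (hs1 h) h0W) ((Ein_mono _ hs1).trans hF1) (hF1.trans subset_union_left)
  -- second steering
  have hZ2 : P.sl (y, u) (-(3 * P.l) - 2 * P.l) (12 * P.l + 1 + P.T + 2 * P.l) (3 * P.l + 2 * P.l) ⊆
      P.Q y ∪ P.Nar (y, u) 0 := by
    refine (slab_cut (8 * P.l)).trans (union_subset_union ?_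
      (slab_mono (by omega) (by omega) (by omega)))
    rw [Q, P.box_src (y, u)]
    exact slab_mono (by omega) le_rfl (by omega)
  have hN' : ∀ x ∈ P.Nar (y, u) 0, x ∉ P.W X' := fun x hx =>
    P.Cor_W (a := (y, u)) hu' (P.Nar_sub_Cor _ le_rfl hx)
  have hZ2W : ∀ x ∈ P.sl (y, u) (-(3 * P.l) - 2 * P.l) (12 * P.l + 1 + P.T + 2 * P.l)
      (3 * P.l + 2 * P.l), x ∉ P.W X := fun x hx => by
    rcases mem_union.1 (hZ2 hx) with h | h
    · exact P.Q_W hu h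
    · exact fun h' => hN' x h (hWW h')
  have hF2 := hfresh _ (hZ2.trans (union_subset_union_left (subset_union_right.trans hCW))) hZ2W
    (fun x hx h => by
      rcases mem_union.1 (hZ2 hx) with h' | h'
      · exact (P.Q_Cor h' (P.Nar_sub_Cor _ le_rfl h)).elim
      · exact (hN' x h' (hNW (mem_union_right _ h))).elim)
  have hs2 : P.sl (y, u) (-(3 * P.l) - ρ) (12 * P.l + 1 + P.T + ρ) (3 * P.l + ρ) ⊆
      P.sl (y, u) (-(3 * P.l) - 2 * P.l) (12 * P.l + 1 + P.T + 2 * P.l) (3 * P.l + 2 * P.l) :=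
    slab_mono (by omega) (by omega) (by omega)
  have st2 := hS (P.cen y) (P.ax u) u.2 (-(3 * P.l)) (12 * P.l + 1 + P.T) (3 * P.l)
    (11 * P.l + 1 + P.T)
    (by omega) (by omega) (by omega) (by omega) (by omega) D _ 0 hdis hE1 hE2
    (fun h => hZ2W _ (hs2 h) h0W) ((Ein_mono _ hs2).trans hF2) (hF2.trans subset_union_left)
  have e : slab (P.cen y) (P.ax u) u.2 (11 * P.l + 1 + P.T - 3 * P.l) (11 * P.l + 1 + P.T + 3 * P.l)
      (3 * P.l) = P.End (y, u) := by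
    rw [End, sl]; congr 1 <;> ring
  rw [e] at st2
  have m1 : hit D p (P.base ∪ ξ ∪ η) 0 (P.Nar a (τ + 3 * P.l)) ≤ hit D p (P.base ∪ ξ ∪ η) 0
      (slab (P.cen a.1) (P.ax a.2) a.2.2 (11 * P.l + 1 + τ) (P.S + P.l) (5 * P.l)) :=
    hit_mono h0 h1 Subset.rfl subset_union_left _ (slab_mono (by omega) (by omega) le_rfl)
  have m2 : hit D p (P.base ∪ ξ ∪ η) 0 (slab (P.cen a.1) (P.ax a.2) a.2.2 (P.S - 3 * P.l)
      (P.S + 3 * P.l) (3 * P.l)) ≤ hit D p (P.base ∪ ξ ∪ η) 0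
      (slab (P.cen y) (P.ax u) u.2 (-(3 * P.l)) (12 * P.l + 1 + P.T) (3 * P.l)) := by
    refine hit_mono h0 h1 Subset.rfl subset_union_left _ ?_
    rw [← sl, ← box_tgt, P.box_src (y, u)]
    exact slab_mono le_rfl (by omega) le_rfl
  linarith

theorem inv_step {p δ1 δ2 θ : ℝ} (h0 : 0 ≤ p) (h1 : p ≤ 1) (hδ1 : 0 < δ1) (hδ2 : 0 < δ2)
    (hθ : 0 ≤ θ) {K : ℕ} (hK : 0 < K) (hTK : P.T = 3 * P.l * K) {ρ L : ℤ}
    (hS : SteerOK d p P.l ρ L θ) (hρ : ρ ≤ P.l) (hL : P.T + 16 * P.l ≤ L)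
    {X : Finset CE} {ξ : Finset (Sym2 (Fin d → ℤ))} {a : CE} (hξ : ξ ⊆ P.Rv X)
    (hu : Untouched X (a.1 + vec a.2)) (h : P.Inv p δ1 X ξ a) :
    Ex (P.Rv (insert a X) \ P.Rv X) (fun _ => p) (fun ω => ind (∃ u,
        Untouched (insert a X) (a.1 + vec a.2 + vec u) ∧
          ¬ P.Inv p δ1 (insert a X) (ξ ∪ ω) (a.1 + vec a.2, u))) ≤
      δ1 + 1 / (δ2 * K) + 4 * ((δ2 + 2 * θ) / δ1) := by
  have hl := P.hl
  have key := step_abs (lattice d) h0 h1 hδ1 hδ2 (θ := 2 * θ) (by positivity) hK (P.Dn X a)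
    (P.Rv (insert a X) \ P.Rv X) (P.base ∪ ξ) (fun u => P.Dn (insert a X) (a.1 + vec a.2, u))
    (fun u => Untouched (insert a X) (a.1 + vec a.2 + vec u)) 0 (fun j => P.Nar a (3 * P.l * j))
    (fun u => P.End (a.1 + vec a.2, u))
    (fun j j' hj => slab_mono (by
      have : (j : ℤ) ≤ j' := by exact_mod_cast hj
      nlinarith) le_rfl le_rfl)
    (fun e he => by
      obtain ⟨h2, h3⟩ := mem_sdiff.1 he
      refine mem_sdiff.2 ⟨mem_sdiff.2 ⟨Ein_mono _ ?_ h2, fun h => h3 (P.base_sub X h)⟩,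
        fun h => h3 (mem_sdiff.1 h).1⟩
      exact union_subset (P.W_mono (subset_insert _ _)) ((P.Nar_sub_Cor a le_rfl).trans
        (subset_union_left.trans (P.sub_W_insert X a))))
    (fun u => disjoint_of_subset_left (sdiff_subset.trans sdiff_subset) disjoint_sdiff)
    (le_trans h (hit_mono h0 h1 Subset.rfl subset_union_left _ (P.End_sub_Nar a hTK.ge)))
    (fun j hj η hη u hu' => by
      have h2 := P.two_steer h0 h1 hS hρ hL hξ hu (τ := 3 * P.l * j) (by positivity) (by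
        have : (j : ℤ) + 1 ≤ K := by exact_mod_cast hj
        nlinarith) hη hu'
      have e : 3 * P.l * ((j + 1 : ℕ) : ℤ) = 3 * P.l * j + 3 * P.l := by push_cast; ring
      simp only [e]
      exact h2)
  simpa only [Inv, union_assoc] using key

end Par

end Vale.Agent.P151.BlockAux
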