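import Mathlib
import Vale.Agent.P151.Conn

namespace Vale.Agent.P151

namespace PeierlsAux

open Finset

/-- sup-distance at most one -/
def Near (x y : ℤ × ℤ) : Prop := |x.1 - y.1| ≤ 1 ∧ |x.2 - y.2| ≤ 1

/-- outer neighbours -/
def Bd (C : Finset (ℤ × ℤ)) (y : ℤ × ℤ) : Prop := y ∉ C ∧ ∃ x ∈ C, ∃ u, y = x + vec u

/-- the graph on the outer neighbours -/
def HG (C : Finset (ℤ × ℤ)) : SimpleGraph (ℤ × ℤ) where
  Adj x y := x ≠ y ∧ Bd C x ∧ Bd C y ∧ Near x y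
  symm := ⟨fun x y h => ⟨h.1.symm, h.2.2.1, h.2.1, by
    have := h.2.2.2
    unfold Near at this ⊢
    rwa [abs_sub_comm y.1, abs_sub_comm y.2]⟩⟩
  loopless := ⟨fun x h => h.1 rfl⟩

open Classical in
/-- integer indicator -/
noncomputable def iz (P : Prop) : ℤ := if P then 1 else 0

theorem iz_pos {P : Prop} (h : P) : iz P = 1 := if_pos h
theorem iz_neg {P : Prop} (h : ¬ P) : iz P = 0 := if_neg h

/-- signed indicator of the edges from `C` to `T` -/
noncomputable def pe (C : Finset (ℤ × ℤ)) (T : ℤ × ℤ → Prop) (x y : ℤ × ℤ) : ℤ :=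
  iz (x ∈ C) * iz (T y) - iz (y ∈ C) * iz (T x)

theorem pe_zero {C : Finset (ℤ × ℤ)} {T : ℤ × ℤ → Prop} {x y : ℤ × ℤ} (hx : ¬ T x) (hy : ¬ T y) :
    pe C T x y = 0 := by
  rw [pe, iz_neg hx, iz_neg hy]; ring

theorem pe_eq {C : Finset (ℤ × ℤ)} {T : ℤ × ℤ → Prop} (hT : ∀ z, T z → z ∉ C) {x y : ℤ × ℤ}
    (hxy : ∃ u, y = x + vec u) (hyx : ∃ u, x = y + vec u) (hx : Bd C x → T x) (hy : Bd C y → T y) :
    pe C T x y = iz (x ∈ C) - iz (y ∈ C) := by
  unfold pe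
  by_cases h1 : x ∈ C <;> by_cases h2 : y ∈ C
  · rw [iz_pos h1, iz_pos h2, iz_neg fun h => hT y h h2, iz_neg fun h => hT x h h1]; ring
  · rw [iz_pos h1, iz_neg h2, iz_pos (hy ⟨h2, x, h1, hxy⟩)]; ring
  · rw [iz_neg h1, iz_pos h2, iz_pos (hx ⟨h1, y, h2, hyx⟩)]; ring
  · rw [iz_neg h1, iz_neg h2]; ring

theorem hor (i j : ℤ) : (∃ u, ((i + 1, j) : ℤ × ℤ) = (i, j) + vec u) ∧
    ∃ u, ((i, j) : ℤ × ℤ) = (i + 1, j) + vec u :=
  ⟨⟨(false, true), by simp [vec]⟩, ⟨(false, false), by simp [vec]⟩⟩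

theorem ver (i j : ℤ) : (∃ u, ((i, j + 1) : ℤ × ℤ) = (i, j) + vec u) ∧
    ∃ u, ((i, j) : ℤ × ℤ) = (i, j + 1) + vec u :=
  ⟨⟨(true, true), by simp [vec]⟩, ⟨(true, false), by simp [vec]⟩⟩

theorem square {C : Finset (ℤ × ℤ)} {T : ℤ × ℤ → Prop} (hT : ∀ z, T z → z ∉ C)
    (hcl : ∀ z w, T z → Bd C w → Near z w → T w) (i j : ℤ) :
    pe C T (i, j + 1) (i + 1, j + 1) - pe C T (i, j) (i + 1, j) =
      pe C T (i + 1, j) (i + 1, j + 1) - pe C T (i, j) (i, j + 1) := by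
  by_cases h : ∃ z : ℤ × ℤ, T z ∧ (z.1 = i ∨ z.1 = i + 1) ∧ (z.2 = j ∨ z.2 = j + 1)
  · obtain ⟨z, hz, h1, h2⟩ := h
    have key : ∀ a b : ℤ, (a = i ∨ a = i + 1) → (b = j ∨ b = j + 1) → Bd C (a, b) → T (a, b) := by
      intro a b ha hb hab
      refine hcl z _ hz hab ⟨?_, ?_⟩ <;> rw [abs_le] <;> simp only <;> omega
    have k1 := key i j (Or.inl rfl) (Or.inl rfl)
    have k2 := key (i + 1) j (Or.inr rfl) (Or.inl rfl)
    have k3 := key i (j + 1) (Or.inl rfl) (Or.inr rfl)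
    have k4 := key (i + 1) (j + 1) (Or.inr rfl) (Or.inr rfl)
    rw [pe_eq hT (hor i (j + 1)).1 (hor i (j + 1)).2 k3 k4, pe_eq hT (hor i j).1 (hor i j).2 k1 k2,
      pe_eq hT (ver (i + 1) j).1 (ver (i + 1) j).2 k2 k4, pe_eq hT (ver i j).1 (ver i j).2 k1 k3]
    ring
  · have k1 : ¬ T (i, j) := fun h' => h ⟨_, h', Or.inl rfl, Or.inl rfl⟩
    have k2 : ¬ T (i + 1, j) := fun h' => h ⟨_, h', Or.inr rfl, Or.inl rfl⟩
    have k3 : ¬ T (i, j + 1) := fun h' => h ⟨_, h', Or.inl rfl, Or.inr rfl⟩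
    have k4 : ¬ T (i + 1, j + 1) := fun h' => h ⟨_, h', Or.inr rfl, Or.inr rfl⟩
    rw [pe_zero k3 k4, pe_zero k1 k2, pe_zero k2 k4, pe_zero k1 k3]

/-- some outer neighbour on the positive axis is joined to the vertical axis -/
theorem cross {C : Finset (ℤ × ℤ)} {n : ℕ} (h0 : (0 : ℤ × ℤ) ∈ C) (hC : ∀ x ∈ C, InBox n x)
    (hB : ∀ x, Bd C x → InBox n x) :
    ∃ a : ℕ, Bd C ((a : ℤ), 0) ∧ ∃ j : ℤ, (HG C).Reachable ((a : ℤ), 0) (0, j) := by
  by_contra hcon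
  let T : ℤ × ℤ → Prop := fun z => Bd C z ∧ ¬ ∃ j : ℤ, (HG C).Reachable z (0, j)
  have hT : ∀ z, T z → z ∉ C := fun z hz => hz.1.1
  have hcl : ∀ z w, T z → Bd C w → Near z w → T w := by
    intro z w hz hw hn
    refine ⟨hw, fun ⟨j, hj⟩ => hz.2 ⟨j, ?_⟩⟩
    by_cases e : z = w
    · rw [e]; exact hj
    · exact (SimpleGraph.Adj.reachable (G := HG C) ⟨e, hz.1, hw, hn⟩).trans hj
  have hcol : ∀ j : ℤ, ¬ T (0, j) := fun j h => h.2 ⟨j, SimpleGraph.Reachable.refl _⟩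
  have hout1 : ∀ j : ℤ, ¬ T ((n : ℤ) + 1, j) := fun j h => by
    have := (hB _ h.1).1
    rw [abs_le] at this
    simp only at this
    omega
  have hout2 : ∀ i : ℤ, ¬ T (i, (n : ℤ) + 1) := fun i h => by
    have := (hB _ h.1).2
    rw [abs_le] at this
    simp only at this
    omega
  let H : ℤ → ℤ := fun j => ∑ i ∈ range (n + 1), pe C T ((i : ℤ), j) ((i : ℤ) + 1, j)
  have hstep : ∀ j : ℤ, H (j + 1) = H j := by
    intro j
    rw [← sub_eq_zero, ← sum_sub_distrib]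
    simp only [square hT hcl]
    have := sum_range_sub (fun i : ℕ => pe C T ((i : ℤ), j) ((i : ℤ), j + 1)) (n + 1)
    push_cast at this
    rw [this, pe_zero (hout1 _) (hout1 _), pe_zero (hcol _) (hcol _), sub_zero]
  have hall : ∀ m : ℕ, H m = H 0 := by
    intro m
    induction m with
    | zero => rfl
    | succ m ih => push_cast; rw [hstep, ih]
  have htop : H ((n + 1 : ℕ) : ℤ) = 0 := by
    push_cast
    exact sum_eq_zero fun i _ => pe_zero (hout2 _) (hout2 _)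
  have hray : ∀ a : ℕ, Bd C ((a : ℤ), 0) → T ((a : ℤ), 0) := fun a h =>
    ⟨h, fun h' => hcon ⟨a, h, h'⟩⟩
  have hbot : H 0 = 1 := by
    have e : ∀ i ∈ range (n + 1), pe C T ((i : ℤ), 0) ((i : ℤ) + 1, 0) =
        iz (((i : ℤ), (0 : ℤ)) ∈ C) - iz ((((i + 1 : ℕ) : ℤ), (0 : ℤ)) ∈ C) := by
      intro i _
      have := hray (i + 1)
      push_cast at this ⊢
      exact pe_eq hT (hor i 0).1 (hor i 0).2 (hray i) this
    simp only [H]
    rw [sum_congr rfl e, sum_range_sub' (fun i : ℕ => iz (((i : ℤ), (0 : ℤ)) ∈ C)) (n + 1),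
      iz_pos (by exact h0), iz_neg, sub_zero]
    intro h
    have := (hC _ h).1
    rw [abs_le] at this
    simp only at this
    omega
  rw [hall, hbot] at htop
  exact one_ne_zero htop

/-- self-avoiding sequences: visited set and current point -/
noncomputable def Fam (s : ℤ × ℤ) : ℕ → Finset (Finset (ℤ × ℤ) × (ℤ × ℤ))
  | 0 => {({s}, s)}
  | k + 1 => (Fam s k).biUnion fun a =>
      ((Icc (a.2.1 - 1) (a.2.1 + 1) ×ˢ Icc (a.2.2 - 1) (a.2.2 + 1)) \ a.1).image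
        fun y => (insert y a.1, y)

theorem Fam_card (s : ℤ × ℤ) (k : ℕ) : (Fam s k).card ≤ 9 ^ k := by
  induction k with
  | zero => simp [Fam]
  | succ k ih =>
    rw [Fam, pow_succ]
    refine (card_biUnion_le_card_mul _ _ 9 fun a _ => ?_).trans (Nat.mul_le_mul_right _ ih)
    refine card_image_le.trans ((card_le_card sdiff_subset).trans (le_of_eq ?_))
    rw [card_product, Int.card_Icc, Int.card_Icc, show a.2.1 + 1 + 1 - (a.2.1 - 1) = 3 by ring,
      show a.2.2 + 1 + 1 - (a.2.2 - 1) = 3 by ring]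
    rfl

theorem Fam_size (s : ℤ × ℤ) (k : ℕ) : ∀ a ∈ Fam s k, a.1.card = k + 1 := by
  induction k with
  | zero => intro a ha; rw [Fam, mem_singleton] at ha; simp [ha]
  | succ k ih =>
    intro a ha
    rw [Fam, mem_biUnion] at ha
    obtain ⟨b, hb, ha⟩ := ha
    obtain ⟨y, hy, rfl⟩ := mem_image.1 ha
    rw [card_insert_of_notMem (mem_sdiff.1 hy).2, ih b hb]

theorem Fam_mem (γ : ℕ → ℤ × ℤ) (k : ℕ) (hn : ∀ i < k, Near (γ i) (γ (i + 1)))
    (hi : ∀ i ≤ k, ∀ j ≤ k, γ i = γ j → i = j) :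
    ((range (k + 1)).image γ, γ k) ∈ Fam (γ 0) k := by
  induction k with
  | zero => simp [Fam]
  | succ k ih =>
    rw [Fam, mem_biUnion]
    refine ⟨_, ih (fun i h => hn i (by omega)) fun i h j h' => hi i (by omega) j (by omega), ?_⟩
    refine mem_image.2 ⟨γ (k + 1), mem_sdiff.2 ⟨?_, ?_⟩, by rw [range_add_one (n := k + 1), image_insert]⟩
    · obtain ⟨h1, h2⟩ := hn k (by omega)
      rw [abs_le] at h1 h2
      simp only [mem_product, mem_Icc]
      omega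
    · intro h
      obtain ⟨i, h1, h2⟩ := mem_image.1 h
      rw [mem_range] at h1
      have := hi i (by omega) (k + 1) le_rfl h2
      omega

theorem contour {C : Finset (ℤ × ℤ)} {n : ℕ} (h0 : (0 : ℤ × ℤ) ∈ C) (hC : ∀ x ∈ C, InBox n x)
    (hB : ∀ x, Bd C x → InBox n x) :
    ∃ a ∈ range (n + 1), ∃ b ∈ Fam ((a : ℤ), 0) a, ∀ x ∈ b.1, Bd C x := by
  obtain ⟨a, ha, j, hj⟩ := cross h0 hC hB
  obtain ⟨w, hw⟩ := hj.exists_isPath
  have hadj : ∀ i < w.length, (HG C).Adj (w.getVert i) (w.getVert (i + 1)) :=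
    fun i hi => w.adj_getVert_succ hi
  have hfst : ∀ i ≤ w.length, (a : ℤ) - i ≤ (w.getVert i).1 := by
    intro i hi
    induction i with
    | zero => simp
    | succ i ih =>
      have h1 := ih (by omega)
      have h2 := (hadj i (by omega)).2.2.2.1
      rw [abs_le] at h2
      push_cast
      omega
  have hlen : a ≤ w.length := by
    have := hfst w.length le_rfl
    rw [w.getVert_length] at this
    simp only at this
    omega
  have hmem := Fam_mem w.getVert a (fun i hi => (hadj i (by omega)).2.2.2)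
    fun i hi j hj h => hw.getVert_injOn (show i ≤ w.length by omega) (show j ≤ w.length by omega) h
  rw [w.getVert_zero] at hmem
  refine ⟨a, ?_, _, hmem, fun x hx => ?_⟩
  · have := (hB _ ha).1
    rw [abs_le] at this
    simp only at this
    rw [mem_range]
    omega
  · obtain ⟨i, h1, rfl⟩ := mem_image.1 hx
    rw [mem_range] at h1
    rcases i with _ | i
    · rw [w.getVert_zero]; exact ha
    · exact (hadj i (by omega)).2.2.1

theorem geo (m : ℕ) : ∑ a ∈ range m, (9 : ℝ) ^ a * (1 / 100) ^ (a + 1) ≤ 1 / 2 - 1 / 2 * (9 / 100) ^ m := by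
  induction m with
  | zero => simp
  | succ m ih =>
    rw [sum_range_succ]
    have e : (9 : ℝ) ^ m * (1 / 100) ^ (m + 1) = 1 / 100 * (9 / 100) ^ m := by
      rw [pow_succ, ← mul_assoc, ← mul_pow]; norm_num [mul_comm]
    have h : (0 : ℝ) ≤ (9 / 100) ^ m := by positivity
    rw [e, pow_succ]
    linarith

theorem indep_le {E α : Type} [DecidableEq E] [DecidableEq α] (F : Finset E) {p ε : ℝ}
    (h0 : 0 ≤ p) (h1 : p ≤ 1) (hε : 0 ≤ ε) (O : α → Finset E) (hO : ∀ y, O y ⊆ F)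
    (hd : ∀ y z, y ≠ z → Disjoint (O y) (O z)) (hp : ∀ y, 1 - p ^ (O y).card ≤ ε) (S : Finset α) :
    Ex F (fun _ => p) (fun ω => ind (∀ y ∈ S, ¬ O y ⊆ ω)) ≤ ε ^ S.card := by
  induction S using Finset.induction_on with
  | empty => simp [ind_pos]
  | insert y S hy ih =>
    have hS : ∀ ω : Finset E, (∀ z ∈ S, ¬ O z ⊆ ω ∩ (F \ O y)) ↔ ∀ z ∈ S, ¬ O z ⊆ ω := by
      intro ω
      refine forall₂_congr fun z hz => not_congr ?_
      rw [subset_inter_iff]
      exact and_iff_left (subset_sdiff.2 ⟨hO z, hd z y fun e => hy (e ▸ hz)⟩)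
    have e1 : Ex F (fun _ => p) (fun ω => ind (∀ z ∈ insert y S, ¬ O z ⊆ ω)) =
        Ex F (fun _ => p) (fun ω => ind (¬ O y ⊆ ω ∩ O y) *
          ind (∀ z ∈ S, ¬ O z ⊆ ω ∩ (F \ O y))) := by
      refine Ex_congr fun ω _ => ?_
      rw [← ind_and, hS]
      exact ind_congr (by simp [subset_inter_iff])
    have e2 := Ex_indep (hO y) (sdiff_subset (s := F) (t := O y)) disjoint_sdiff (fun _ => p)
      (fun ω => ind (¬ O y ⊆ ω)) (fun ω => ind (∀ z ∈ S, ¬ O z ⊆ ω))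
    have e3 := Ex_inter (sdiff_subset (s := F) (t := O y)) (fun _ => p)
      (fun ω => ind (∀ z ∈ S, ¬ O z ⊆ ω))
    simp only [hS] at e3
    have e4 : Ex (O y) (fun _ => p) (fun ω => ind (¬ O y ⊆ ω)) = 1 - p ^ (O y).card := by
      simp only [ind_not]
      rw [Ex_sub, Ex_const, Ex_all Subset.rfl, prod_const]
    rw [e1, e2, ← e3, e4, card_insert_of_notMem hy, pow_succ']
    exact mul_le_mul (hp y) ih (Ex_nonneg (adm_const h0 h1) fun _ _ => ind_nonneg _) hε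

end PeierlsAux

open PeierlsAux Finset

/-- Peierls estimate on the coarse lattice. -/
theorem peierls {E : Type} [DecidableEq E] (F : Finset E) {p : ℝ} (h0 : 0 ≤ p) (h1 : p ≤ 1) (n : ℕ)
    (Good Bad : Finset E → Finset (ℤ × ℤ))
    (hS : ∀ S : Finset (ℤ × ℤ), Ex F (fun _ => p) (fun ω => ind (S ⊆ Bad ω)) ≤ (1 / 100) ^ S.card)
    (hz : ∀ ω, ω ⊆ F → (0 : ℤ × ℤ) ∈ Good ω ∨ (0 : ℤ × ℤ) ∈ Bad ω)
    (hsub : ∀ ω, ω ⊆ F → ∀ x ∈ Good ω, InBox n x)
    (hcl : ∀ ω, ω ⊆ F → ∀ x ∈ Good ω, ∀ u, InBox n (x + vec u) →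
      x + vec u ∈ Good ω ∨ x + vec u ∈ Bad ω) :
    1 / 2 ≤ Ex F (fun _ => p) (fun ω => ind (∃ x ∈ Good ω, ∃ u, ¬ InBox n (x + vec u))) := by
  have key : ∀ ω, ω ⊆ F → 1 - ∑ a ∈ range (n + 1), ∑ b ∈ Fam ((a : ℤ), 0) a, ind (b.1 ⊆ Bad ω) ≤
      ind (∃ x ∈ Good ω, ∃ u, ¬ InBox n (x + vec u)) := by
    intro ω hω
    by_cases h : ∃ x ∈ Good ω, ∃ u, ¬ InBox n (x + vec u)
    · rw [ind_pos h]
      exact sub_le_self _ (sum_nonneg fun _ _ => sum_nonneg fun _ _ => ind_nonneg _)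
    · rw [ind_neg h, sub_nonpos]
      have h2 : ∃ a ∈ range (n + 1), ∃ b ∈ Fam ((a : ℤ), 0) a, b.1 ⊆ Bad ω := by
        push Not at h
        rcases hz ω hω with h3 | h3
        · obtain ⟨a, ha, b, hb, h4⟩ := contour h3 (hsub ω hω) (by
            rintro _ ⟨_, x, hx, u, rfl⟩; exact h x hx u)
          refine ⟨a, ha, b, hb, fun y hy => ?_⟩
          obtain ⟨h5, x, hx, u, rfl⟩ := h4 y hy
          exact (hcl ω hω x hx u (h x hx u)).resolve_left h5
        · exact ⟨0, by simp, ({0}, 0), by simp [Fam, Prod.ext_iff], singleton_subset_iff.2 h3⟩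
      calc (1 : ℝ) = ind (∃ a ∈ range (n + 1), ∃ b ∈ Fam ((a : ℤ), 0) a, b.1 ⊆ Bad ω) :=
            (ind_pos h2).symm
        _ ≤ _ := ind_exists_le _ _
        _ ≤ _ := sum_le_sum fun a _ => ind_exists_le _ _
  refine le_trans ?_ (Ex_mono (adm_const h0 h1) key)
  rw [Ex_sub, Ex_const, Ex_sum]
  have h2 : ∀ a ∈ range (n + 1), Ex F (fun _ => p)
      (fun ω => ∑ b ∈ Fam ((a : ℤ), 0) a, ind (b.1 ⊆ Bad ω)) ≤ 9 ^ a * (1 / 100) ^ (a + 1) := by
    intro a _
    rw [Ex_sum]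
    refine (sum_le_card_nsmul _ _ ((1 / 100 : ℝ) ^ (a + 1)) fun b hb => ?_).trans ?_
    · rw [← Fam_size _ _ b hb]; exact hS b.1
    · rw [nsmul_eq_mul]
      have : ((Fam ((a : ℤ), 0) a).card : ℝ) ≤ 9 ^ a := by exact_mod_cast Fam_card _ a
      gcongr
  have h3 := (sum_le_sum h2).trans (geo (n + 1))
  have h4 : (0 : ℝ) ≤ (9 / 100) ^ (n + 1) := by positivity
  linarith

/-- Percolation occurs for some `p < 1`. -/
theorem percFin_near_one (d : ℕ) (hd : 2 ≤ d) : ∃ p : ℝ, 0 ≤ p ∧ p < 1 ∧ PercFin d p 0 := by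
  classical
  refine ⟨999 / 1000, by norm_num, by norm_num, 1 / 2, by norm_num, fun n _ => ?_⟩
  let i0 : Fin d := ⟨0, by omega⟩
  let i1 : Fin d := ⟨1, by omega⟩
  have h01 : i0 ≠ i1 := by simp [i0, i1]
  let ι : ℤ × ℤ → Fin d → ℤ := fun y => Pi.single i0 y.1 + Pi.single i1 y.2
  have ι0 : ∀ y, ι y i0 = y.1 := fun y => by simp [ι, h01]
  have ι1 : ∀ y, ι y i1 = y.2 := fun y => by simp [ι, h01.symm]
  have hinj : ∀ y z, ι y = ι z → y = z := fun y z h =>
    Prod.ext (by rw [← ι0, h, ι0]) (by rw [← ι1, h, ι1])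
  have hι0 : ι 0 = 0 := by simp [ι]
  have hbox : ∀ y, InBox n y → ι y ∈ box 0 (n : ℤ) := by
    intro y hy
    rw [mem_box]
    intro j
    obtain ⟨h1, h2⟩ := hy
    rw [abs_le] at h1 h2
    by_cases e0 : j = i0
    · rw [e0, ι0]; simp only [Pi.zero_apply]; omega
    · by_cases e1 : j = i1
      · rw [e1, ι1]; simp only [Pi.zero_apply]; omega
      · simp [ι, e0, e1]
  have hadj0 : ∀ y, (lattice d).Adj (ι y) (ι (y + (1, 0))) := fun y =>
    lattice_adj.2 ⟨i0, Or.inl (by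
      simp only [ι, Prod.fst_add, Prod.snd_add, Pi.single_add, add_zero]
      abel)⟩
  have hadj1 : ∀ y, (lattice d).Adj (ι y) (ι (y + (0, 1))) := fun y =>
    lattice_adj.2 ⟨i1, Or.inl (by
      simp only [ι, Prod.fst_add, Prod.snd_add, Pi.single_add, add_zero]
      abel)⟩
  let F := Ein (lattice d) (box 0 (n : ℤ))
  let O : ℤ × ℤ → Finset (Sym2 (Fin d → ℤ)) := fun y =>
    ({s(ι y, ι (y + (1, 0))), s(ι y, ι (y + (0, 1)))} : Finset _) ∩ F
  have hO0 : ∀ y, InBox n y → InBox n (y + (1, 0)) → s(ι y, ι (y + (1, 0))) ∈ O y :=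
    fun y h h' => mem_inter.2 ⟨by simp, mk_mem_Ein.2 ⟨hbox _ h, hbox _ h', hadj0 y⟩⟩
  have hO1 : ∀ y, InBox n y → InBox n (y + (0, 1)) → s(ι y, ι (y + (0, 1))) ∈ O y :=
    fun y h h' => mem_inter.2 ⟨by simp, mk_mem_Ein.2 ⟨hbox _ h, hbox _ h', hadj1 y⟩⟩
  have hdis : ∀ y z, y ≠ z → Disjoint (O y) (O z) := by
    intro y z hyz
    refine Disjoint.mono inter_subset_left inter_subset_left ?_
    rw [disjoint_left]
    intro e h1 h2
    simp only [mem_insert, mem_singleton] at h1 h2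
    rcases h1 with rfl | rfl <;> rcases h2 with h2 | h2 <;>
      rcases Sym2.eq_iff.1 h2 with ⟨h3, h4⟩ | ⟨h3, h4⟩ <;>
      · have h5 := hinj _ _ h3
        have h6 := hinj _ _ h4
        apply hyz
        simp only [Prod.ext_iff, Prod.fst_add, Prod.snd_add] at h5 h6 ⊢
        omega
  have hp : ∀ y, 1 - (999 / 1000 : ℝ) ^ (O y).card ≤ 1 / 100 := by
    intro y
    have h1 : (O y).card ≤ 2 := (card_le_card inter_subset_left).trans card_le_two
    have h2 := pow_le_pow_of_le_one (show (0 : ℝ) ≤ 999 / 1000 by norm_num) (by norm_num) h1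
    norm_num at h2 ⊢
    linarith
  let B : Finset (ℤ × ℤ) := Icc (-(n : ℤ)) n ×ˢ Icc (-(n : ℤ)) n
  have hB : ∀ y, y ∈ B ↔ InBox n y := fun y => by
    simp only [B, mem_product, mem_Icc, InBox, abs_le]
  have h := peierls F (p := 999 / 1000) (by norm_num) (by norm_num) n
    (fun ω => B.filter fun y => O y ⊆ ω ∧ Conn ω 0 (ι y)) (fun ω => B.filter fun y => ¬ O y ⊆ ω)
    (fun S => le_trans (Ex_mono (adm_const (by norm_num) (by norm_num)) fun ω _ =>
        ind_mono fun h y hy => (mem_filter.1 (h hy)).2)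
      (indep_le F (by norm_num) (by norm_num) (by norm_num) O (fun _ => inter_subset_right) hdis
        hp S))
    (fun ω _ => by
      have h0 : (0 : ℤ × ℤ) ∈ B := (hB 0).2 ⟨by simp, by simp⟩
      by_cases h : O 0 ⊆ ω
      · exact Or.inl (mem_filter.2 ⟨h0, h, by rw [hι0]; exact Conn.refl _ _⟩)
      · exact Or.inr (mem_filter.2 ⟨h0, h⟩))
    (fun ω _ x hx => (hB x).1 (mem_filter.1 hx).1)
    (fun ω _ x hx u hu => by
      obtain ⟨hx1, hx2, hx3⟩ := mem_filter.1 hx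
      have hx0 := (hB x).1 hx1
      by_cases h : O (x + vec u) ⊆ ω
      · refine Or.inl (mem_filter.2 ⟨(hB _).2 hu, h, hx3.trans ?_⟩)
        rcases u with ⟨_ | _, _ | _⟩
        · have e : x + vec (false, false) + (1, 0) = x := by simp [vec, add_assoc]
          have := h (hO0 _ hu (by rw [e]; exact hx0))
          rw [e] at this
          exact (Conn.single this).symm
        · exact Conn.single (hx2 (hO0 x hx0 hu))
        · have e : x + vec (true, false) + (0, 1) = x := by simp [vec, add_assoc]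
          have := h (hO1 _ hu (by rw [e]; exact hx0))
          rw [e] at this
          exact (Conn.single this).symm
        · exact Conn.single (hx2 (hO1 x hx0 hu))
      · exact Or.inr (mem_filter.2 ⟨(hB _).2 hu, h⟩))
  refine h.trans (Ex_mono (adm_const (by norm_num) (by norm_num)) fun ω _ => ind_mono ?_)
  rintro ⟨x, hx, u, hu⟩
  obtain ⟨hx1, _, hx3⟩ := mem_filter.1 hx
  have hx0 := (hB x).1 hx1
  refine ⟨ι x, mem_filter.2 ⟨hbox x hx0, ?_⟩, by rwa [empty_union]⟩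
  obtain ⟨h1, h2⟩ := hx0
  by_contra hcon
  push Not at hcon
  have h3 := hcon i0
  have h4 := hcon i1
  rw [ι0] at h3
  rw [ι1] at h4
  apply hu
  have h5 := abs_lt.1 (lt_of_le_of_ne h1 h3)
  have h6 := abs_lt.1 (lt_of_le_of_ne h2 h4)
  rcases u with ⟨_ | _, _ | _⟩ <;> simp only [InBox, vec, Prod.fst_add, Prod.snd_add, abs_le] <;>
    omega

end Vale.Agent.P151
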