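import Mathlib
import Vale.Agent.P151.Peierls

namespace Vale.Agent.P151

open Finset

namespace ExploreAux

/-- oriented coarse edges -/
abbrev CE := (ℤ × ℤ) × (Bool × Bool)

/-- state of the exploration: examined coarse edges, good sites, bad sites -/
structure St where
  X : Finset CE
  G : Finset (ℤ × ℤ)
  B : Finset (ℤ × ℤ)

/-- an edge waiting to be examined -/
def Pend (n : ℕ) (s : St) (a : CE) : Prop :=
  a.1 ∈ s.G ∧ InBox n (a.1 + vec a.2) ∧ a.1 + vec a.2 ∉ s.G ∧ a.1 + vec a.2 ∉ s.B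

variable {E : Type} [DecidableEq E] (n : ℕ) (Rv : Finset CE → Finset E)
  (Inv : Finset CE → Finset E → CE → Prop)

/-- the new site is declared good -/
def Ok (X : Finset CE) (a : CE) (ξ : Finset E) : Prop :=
  ∀ u, Untouched (insert a X) (a.1 + vec a.2 + vec u) → Inv (insert a X) ξ (a.1 + vec a.2, u)

open Classical in
/-- examining the edge `a` -/
noncomputable def exam (s : St) (a : CE) (ξ : Finset E) : St :=
  if Ok Inv s.X a ξ then ⟨insert a s.X, insert (a.1 + vec a.2) s.G, s.B⟩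
  else ⟨insert a s.X, s.G, insert (a.1 + vec a.2) s.B⟩

open Classical in
/-- one step -/
noncomputable def step (s : St) (ω : Finset E) : St :=
  if h : ∃ a, Pend n s a then exam Inv s h.choose (ω ∩ Rv (insert h.choose s.X)) else s

open Classical in
/-- the initial state -/
noncomputable def init (ξ : Finset E) : St :=
  if ∀ u, Inv ∅ ξ (0, u) then ⟨∅, {0}, ∅⟩ else ⟨∅, ∅, {0}⟩

/-- the process -/
noncomputable def st (ω : Finset E) : ℕ → St
  | 0 => init Inv (ω ∩ Rv ∅)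
  | t + 1 => step n Rv Inv (st ω t) ω

variable {n Rv Inv}

omit [DecidableEq E] in
theorem exam_X (s : St) (a : CE) (ξ : Finset E) : (exam Inv s a ξ).X = insert a s.X := by
  unfold exam; split_ifs <;> rfl

omit [DecidableEq E] in
theorem init_X (ξ : Finset E) : (init Inv ξ).X = ∅ := by
  unfold init; split_ifs <;> rfl

theorem step_pos {s : St} (h : ∃ a, Pend n s a) (ω : Finset E) :
    step n Rv Inv s ω = exam Inv s h.choose (ω ∩ Rv (insert h.choose s.X)) := by
  unfold step; rw [dif_pos h]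

theorem step_neg {s : St} (h : ¬ ∃ a, Pend n s a) (ω : Finset E) : step n Rv Inv s ω = s := by
  unfold step; rw [dif_neg h]

theorem X_subset_step (s : St) (ω : Finset E) : s.X ⊆ (step n Rv Inv s ω).X := by
  by_cases h : ∃ a, Pend n s a
  · rw [step_pos h, exam_X]; exact subset_insert _ _
  · rw [step_neg h]

/-- the stopping property -/
theorem st_stop (hRv : ∀ X X', X ⊆ X' → Rv X ⊆ Rv X') (ω ω' : Finset E) (t : ℕ)
    (h : ω' ∩ Rv (st n Rv Inv ω t).X = ω ∩ Rv (st n Rv Inv ω t).X) :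
    st n Rv Inv ω' t = st n Rv Inv ω t := by
  induction t with
  | zero =>
    simp only [st, init_X] at h ⊢
    rw [h]
  | succ t ih =>
    simp only [st] at h ⊢
    have hsub := hRv _ _ (X_subset_step (n := n) (Rv := Rv) (Inv := Inv) (st n Rv Inv ω t) ω)
    have h1 : ω' ∩ Rv (st n Rv Inv ω t).X = ω ∩ Rv (st n Rv Inv ω t).X := by
      rw [← inter_eq_right.2 hsub, ← inter_assoc, ← inter_assoc, h]
    rw [ih h1]
    by_cases hp : ∃ a, Pend n (st n Rv Inv ω t) a
    · rw [step_pos hp, exam_X] at h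
      rw [step_pos hp, step_pos hp, h]
    · rw [step_neg hp, step_neg hp]

/-- the invariants -/
structure Good (n : ℕ) (Rv : Finset CE → Finset E) (Inv : Finset CE → Finset E → CE → Prop)
    (ω : Finset E) (s : St) : Prop where
  hX : ∀ b ∈ s.X, InBox n b.1 ∧ InBox n (b.1 + vec b.2)
  hU : ∀ z, Untouched s.X z ↔ z ∉ s.G ∧ z ∉ s.B
  hG : ∀ x ∈ s.G, InBox n x
  hB : ∀ x ∈ s.B, InBox n x
  hD : ∀ x ∈ s.G, x ∉ s.B
  hI : ∀ x ∈ s.G, ∀ u, Untouched s.X (x + vec u) → Inv s.X (ω ∩ Rv s.X) (x, u)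

theorem inBox_zero (n : ℕ) : InBox n 0 := by simp [InBox]

theorem untouched_insert {X : Finset CE} {a : CE} {z : ℤ × ℤ} :
    Untouched (insert a X) z ↔ Untouched X z ∧ a.1 ≠ z ∧ a.1 + vec a.2 ≠ z := by
  simp only [Untouched, mem_insert, forall_eq_or_imp]
  tauto

theorem good_init (ω : Finset E) : Good n Rv Inv ω (init Inv (ω ∩ Rv ∅)) := by
  unfold init
  split_ifs with h
  · exact ⟨by simp, by simp [Untouched], by simpa using inBox_zero n, by simp, by simp,
      fun x hx u _ => by rw [mem_singleton.1 hx]; exact h u⟩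
  · exact ⟨by simp, by simp [Untouched], by simp, by simpa using inBox_zero n, by simp, by simp⟩

theorem good_step (hRv : ∀ X X', X ⊆ X' → Rv X ⊆ Rv X')
    (hmono : ∀ X X' ξ ξ' a, X ⊆ X' → ξ ⊆ ξ' → Untouched X' (a.1 + vec a.2) →
      Inv X ξ a → Inv X' ξ' a) {ω : Finset E} {s : St} (hs : Good n Rv Inv ω s) :
    Good n Rv Inv ω (step n Rv Inv s ω) := by
  by_cases hp : ∃ a, Pend n s a
  swap
  · rw [step_neg hp]; exact hs
  rw [step_pos hp]
  obtain ⟨p1, p2, p3, p4⟩ := hp.choose_spec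
  generalize hp.choose = a at p1 p2 p3 p4
  have hX : ∀ b ∈ insert a s.X, InBox n b.1 ∧ InBox n (b.1 + vec b.2) := by
    intro b hb
    rcases mem_insert.1 hb with rfl | hb
    · exact ⟨hs.hG _ p1, p2⟩
    · exact hs.hX b hb
  have hU : ∀ z, Untouched (insert a s.X) z ↔ z ∉ s.G ∧ z ∉ s.B ∧ z ≠ a.1 + vec a.2 := by
    intro z
    rw [untouched_insert, hs.hU]
    constructor
    · rintro ⟨⟨h1, h2⟩, -, h3⟩; exact ⟨h1, h2, h3.symm⟩
    · rintro ⟨h1, h2, h3⟩; exact ⟨⟨h1, h2⟩, fun h => h1 (h ▸ p1), h3.symm⟩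
  have hI : ∀ x ∈ s.G, ∀ u, Untouched (insert a s.X) (x + vec u) →
      Inv (insert a s.X) (ω ∩ Rv (insert a s.X)) (x, u) := fun x hx u hu =>
    hmono s.X _ _ _ (x, u) (subset_insert _ _)
      (inter_subset_inter Subset.rfl (hRv _ _ (subset_insert _ _))) hu
      (hs.hI x hx u (untouched_insert.1 hu).1)
  unfold exam
  split_ifs with h
  · refine ⟨hX, fun z => ?_, fun x hx => ?_, hs.hB, fun x hx => ?_, fun x hx u hu => ?_⟩
    · rw [hU]; simp only [mem_insert, not_or]; tauto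
    · rcases mem_insert.1 hx with rfl | hx
      · exact p2
      · exact hs.hG x hx
    · rcases mem_insert.1 hx with rfl | hx
      · exact p4
      · exact hs.hD x hx
    · rcases mem_insert.1 hx with rfl | hx
      · exact h u hu
      · exact hI x hx u hu
  · refine ⟨hX, fun z => ?_, hs.hG, fun x hx => ?_, fun x hx hx' => ?_, hI⟩
    · rw [hU]; simp only [mem_insert, not_or]; tauto
    · rcases mem_insert.1 hx with rfl | hx
      · exact p2
      · exact hs.hB x hx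
    · rcases mem_insert.1 hx' with rfl | hx'
      · exact p3 hx
      · exact hs.hD x hx hx'

theorem good_st (hRv : ∀ X X', X ⊆ X' → Rv X ⊆ Rv X')
    (hmono : ∀ X X' ξ ξ' a, X ⊆ X' → ξ ⊆ ξ' → Untouched X' (a.1 + vec a.2) →
      Inv X ξ a → Inv X' ξ' a) (ω : Finset E) (t : ℕ) : Good n Rv Inv ω (st n Rv Inv ω t) := by
  induction t with
  | zero => exact good_init ω
  | succ t ih => exact good_step hRv hmono ih

theorem card_st (ω : Finset E) (t : ℕ) :
    t ≤ ((st n Rv Inv ω t).G ∪ (st n Rv Inv ω t).B).card ∨ ¬ ∃ a, Pend n (st n Rv Inv ω t) a := by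
  induction t with
  | zero => exact Or.inl (Nat.zero_le _)
  | succ t ih =>
    simp only [st]
    by_cases hp : ∃ a, Pend n (st n Rv Inv ω t) a
    · left
      have h1 := ih.resolve_right (not_not.2 hp)
      rw [step_pos hp]
      obtain ⟨p1, p2, p3, p4⟩ := hp.choose_spec
      generalize hp.choose = a at p1 p2 p3 p4
      have h2 : a.1 + vec a.2 ∉ (st n Rv Inv ω t).G ∪ (st n Rv Inv ω t).B := by
        simp [p3, p4]
      unfold exam
      split_ifs
      · simp only [insert_union]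
        rw [card_insert_of_notMem h2]; omega
      · simp only [union_insert]
        rw [card_insert_of_notMem h2]; omega
    · right; rw [step_neg hp]; exact hp

theorem card_le_box {ω : Finset E} {s : St} (hs : Good n Rv Inv ω s) :
    (s.G ∪ s.B).card ≤ (Icc (-(n : ℤ)) n ×ˢ Icc (-(n : ℤ)) n).card := by
  refine card_le_card (fun x hx => ?_)
  have : InBox n x := by
    rcases mem_union.1 hx with h | h
    · exact hs.hG x h
    · exact hs.hB x h
  simpa only [InBox, mem_product, mem_Icc, abs_le] using this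

open Classical in
/-- the supermartingale -/
noncomputable def Z (S : Finset (ℤ × ℤ)) (s : St) : ℝ :=
  if ∃ x ∈ S, x ∈ s.G then 0 else (1 / 100) ^ (S \ s.B).card

theorem Z_nonneg (S : Finset (ℤ × ℤ)) (s : St) : 0 ≤ Z S s := by
  unfold Z; split_ifs <;> positivity

omit [DecidableEq E] in
theorem Z_exam_out (S : Finset (ℤ × ℤ)) (s : St) (a : CE) (ξ : Finset E)
    (h : a.1 + vec a.2 ∉ S) : Z S (exam Inv s a ξ) = Z S s := by
  unfold exam
  split_ifs
  · unfold Z
    have : (∃ x ∈ S, x ∈ insert (a.1 + vec a.2) s.G) ↔ ∃ x ∈ S, x ∈ s.G := by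
      constructor
      · rintro ⟨x, hx, hx'⟩
        rcases mem_insert.1 hx' with rfl | hx'
        · exact absurd hx h
        · exact ⟨x, hx, hx'⟩
      · rintro ⟨x, hx, hx'⟩; exact ⟨x, hx, mem_insert_of_mem hx'⟩
    simp only [this]
  · unfold Z
    simp only [sdiff_insert_of_notMem h]

omit [DecidableEq E] in
theorem Z_exam_in (S : Finset (ℤ × ℤ)) (s : St) (a : CE) (ξ : Finset E)
    (h : a.1 + vec a.2 ∈ S) (hB : a.1 + vec a.2 ∉ s.B) :
    Z S (exam Inv s a ξ) ≤ 100 * Z S s * ind (¬ Ok Inv s.X a ξ) := by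
  unfold exam
  split_ifs with hO
  · rw [ind_neg (not_not.2 hO), mul_zero]
    unfold Z
    rw [if_pos ⟨_, h, mem_insert_self _ _⟩]
  · rw [ind_pos hO, mul_one]
    unfold Z
    dsimp only
    split_ifs
    · simp
    · have h1 : a.1 + vec a.2 ∈ S \ s.B := mem_sdiff.2 ⟨h, hB⟩
      rw [sdiff_insert, ← card_erase_add_one h1, pow_succ]
      exact le_of_eq (by ring)

omit [DecidableEq E] in
theorem Z_init (S : Finset (ℤ × ℤ)) (ξ : Finset E) :
    Z S (init Inv ξ) ≤ if (0 : ℤ × ℤ) ∈ S then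
      100 * (1 / 100) ^ S.card * ind (∃ u, ¬ Inv ∅ ξ (0, u)) else (1 / 100) ^ S.card := by
  unfold init
  by_cases h : ∀ u, Inv ∅ ξ (0, u)
  · rw [if_pos h]
    unfold Z
    by_cases h0 : (0 : ℤ × ℤ) ∈ S
    · rw [if_pos h0, if_pos ⟨0, h0, mem_singleton_self _⟩]
      exact mul_nonneg (by positivity) (ind_nonneg _)
    · rw [if_neg h0]
      split_ifs
      · positivity
      · simp
  · rw [if_neg h]
    unfold Z
    rw [if_neg (by simp)]
    dsimp only
    by_cases h0 : (0 : ℤ × ℤ) ∈ S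
    · rw [if_pos h0, ind_pos (not_forall.1 h), sdiff_singleton_eq_erase, ← card_erase_add_one h0,
        pow_succ]
      exact le_of_eq (by ring)
    · rw [if_neg h0, sdiff_singleton_eq_erase, erase_eq_of_notMem h0]

theorem hyb_inter_self (A η η' : Finset E) : hyb (fun e => e ∈ A) η η' ∩ A = η ∩ A := by
  ext e; simp only [mem_inter, mem_hyb]; tauto

theorem hyb_inter {A A' : Finset E} (h : A ⊆ A') (η η' : Finset E) :
    hyb (fun e => e ∈ A) η η' ∩ A' = (η ∩ A) ∪ (η' ∩ (A' \ A)) := by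
  ext e
  have := @h e
  simp only [mem_inter, mem_hyb, mem_union, mem_sdiff]; tauto

theorem Z_step {F : Finset E} {p : ℝ} (h0 : 0 ≤ p) (h1 : p ≤ 1)
    (hRv : ∀ X X', X ⊆ X' → Rv X ⊆ Rv X')
    (hF : ∀ X, (∀ a ∈ X, InBox n a.1 ∧ InBox n (a.1 + vec a.2)) → Rv X ⊆ F)
    (hstep : ∀ X ξ a, ξ ⊆ Rv X → Untouched X (a.1 + vec a.2) → Inv X ξ a →
      Ex (Rv (insert a X) \ Rv X) (fun _ => p) (fun ω => ind (∃ u,
        Untouched (insert a X) (a.1 + vec a.2 + vec u) ∧
          ¬ Inv (insert a X) (ξ ∪ ω) (a.1 + vec a.2, u))) ≤ 1 / 100)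
    (S : Finset (ℤ × ℤ)) {η : Finset E} {s : St} (hs : Good n Rv Inv η s) :
    Ex F (fun _ => p) (fun η' => Z S (step n Rv Inv s (hyb (fun e => e ∈ Rv s.X) η η')))
      ≤ Z S s := by
  have hq : Adm (fun _ : E => p) := adm_const h0 h1
  by_cases hp : ∃ a, Pend n s a
  swap
  · simp only [step_neg hp, Ex_const, le_refl]
  simp only [step_pos hp]
  obtain ⟨p1, p2, p3, p4⟩ := hp.choose_spec
  generalize hp.choose = a at p1 p2 p3 p4
  by_cases hy : a.1 + vec a.2 ∈ S
  swap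
  · simp only [Z_exam_out S s a _ hy, Ex_const, le_refl]
  have hX : ∀ b ∈ insert a s.X, InBox n b.1 ∧ InBox n (b.1 + vec b.2) := by
    intro b hb
    rcases mem_insert.1 hb with rfl | hb
    · exact ⟨hs.hG _ p1, p2⟩
    · exact hs.hX b hb
  have hU : Untouched s.X (a.1 + vec a.2) := (hs.hU _).2 ⟨p3, p4⟩
  have h2 := hstep s.X (η ∩ Rv s.X) a inter_subset_right hU (hs.hI a.1 p1 a.2 hU)
  have h3 : Rv (insert a s.X) \ Rv s.X ⊆ F := sdiff_subset.trans (hF _ hX)
  rw [← Ex_inter h3] at h2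
  calc _ ≤ Ex F (fun _ => p) (fun η' => 100 * Z S s * ind (∃ u,
        Untouched (insert a s.X) (a.1 + vec a.2 + vec u) ∧
          ¬ Inv (insert a s.X) (η ∩ Rv s.X ∪ η' ∩ (Rv (insert a s.X) \ Rv s.X))
            (a.1 + vec a.2, u))) := by
        refine Ex_mono hq (fun η' _ => le_trans (Z_exam_in S s a _ hy p4) (le_of_eq ?_))
        rw [hyb_inter (hRv _ _ (subset_insert _ _))]
        congr 1
        refine ind_congr ?_
        simp only [Ok, not_forall, exists_prop]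
    _ ≤ 100 * Z S s * (1 / 100) := by
        rw [Ex_mul_left]
        exact mul_le_mul_of_nonneg_left h2 (mul_nonneg (by norm_num) (Z_nonneg S s))
    _ = _ := by ring

theorem Ex_Z {F : Finset E} {p : ℝ} (h0 : 0 ≤ p) (h1 : p ≤ 1)
    (hRv : ∀ X X', X ⊆ X' → Rv X ⊆ Rv X')
    (hF : ∀ X, (∀ a ∈ X, InBox n a.1 ∧ InBox n (a.1 + vec a.2)) → Rv X ⊆ F)
    (hmono : ∀ X X' ξ ξ' a, X ⊆ X' → ξ ⊆ ξ' → Untouched X' (a.1 + vec a.2) →
      Inv X ξ a → Inv X' ξ' a)
    (hinit : Ex (Rv ∅) (fun _ => p) (fun ω => ind (∃ u, ¬ Inv ∅ ω (0, u))) ≤ 1 / 100)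
    (hstep : ∀ X ξ a, ξ ⊆ Rv X → Untouched X (a.1 + vec a.2) → Inv X ξ a →
      Ex (Rv (insert a X) \ Rv X) (fun _ => p) (fun ω => ind (∃ u,
        Untouched (insert a X) (a.1 + vec a.2 + vec u) ∧
          ¬ Inv (insert a X) (ξ ∪ ω) (a.1 + vec a.2, u))) ≤ 1 / 100)
    (S : Finset (ℤ × ℤ)) (t : ℕ) :
    Ex F (fun _ => p) (fun ω => Z S (st n Rv Inv ω t)) ≤ (1 / 100) ^ S.card := by
  have hq : Adm (fun _ : E => p) := adm_const h0 h1
  induction t with
  | zero =>
    simp only [st]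
    rw [Ex_inter (hF ∅ (by simp)) _ (fun ξ => Z S (init Inv ξ))]
    refine le_trans (Ex_mono hq (fun ξ _ => Z_init S ξ)) ?_
    split_ifs
    · rw [Ex_mul_left]
      calc _ ≤ 100 * (1 / 100 : ℝ) ^ S.card * (1 / 100) :=
            mul_le_mul_of_nonneg_left hinit (by positivity)
        _ = _ := by ring
    · simp
  | succ t ih =>
    have hst : ∀ η η', st n Rv Inv (hyb (fun e => e ∈ Rv (st n Rv Inv η t).X) η η') t
        = st n Rv Inv η t := fun η η' => st_stop hRv _ _ t (hyb_inter_self _ _ _)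
    rw [Ex_stop F _ (fun η e => e ∈ Rv (st n Rv Inv η t).X) (fun η η' _ _ => by rw [hst])]
    refine le_trans (Ex_mono hq (fun η _ => ?_)) ih
    simp only [st, hst]
    exact Z_step h0 h1 hRv hF hstep S (good_st hRv hmono η t)

theorem ind_le_Z {ω : Finset E} {s : St} (hs : Good n Rv Inv ω s) (S : Finset (ℤ × ℤ)) :
    ind (S ⊆ s.B) ≤ Z S s := by
  by_cases h : S ⊆ s.B
  · rw [ind_pos h]
    unfold Z
    rw [if_neg (fun ⟨x, hx, hx'⟩ => hs.hD x hx' (h hx)), sdiff_eq_empty_iff_subset.2 h]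
    simp
  · rw [ind_neg h]; exact Z_nonneg S s

end ExploreAux

open ExploreAux in
/-- Dynamic renormalisation on the coarse lattice. -/
theorem explore {E : Type} [DecidableEq E] (F : Finset E) {p : ℝ} (h0 : 0 ≤ p) (h1 : p ≤ 1) (n : ℕ)
    (Rv : Finset ((ℤ × ℤ) × (Bool × Bool)) → Finset E)
    (Inv : Finset ((ℤ × ℤ) × (Bool × Bool)) → Finset E → (ℤ × ℤ) × (Bool × Bool) → Prop)
    (hRv : ∀ X X', X ⊆ X' → Rv X ⊆ Rv X')
    (hF : ∀ X, (∀ a ∈ X, InBox n a.1 ∧ InBox n (a.1 + vec a.2)) → Rv X ⊆ F)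
    (hmono : ∀ X X' ξ ξ' a, X ⊆ X' → ξ ⊆ ξ' → Untouched X' (a.1 + vec a.2) →
      Inv X ξ a → Inv X' ξ' a)
    (hinit : Ex (Rv ∅) (fun _ => p) (fun ω => ind (∃ u, ¬ Inv ∅ ω (0, u))) ≤ 1 / 100)
    (hstep : ∀ X ξ a, ξ ⊆ Rv X → Untouched X (a.1 + vec a.2) → Inv X ξ a →
      Ex (Rv (insert a X) \ Rv X) (fun _ => p) (fun ω => ind (∃ u,
        Untouched (insert a X) (a.1 + vec a.2 + vec u) ∧
          ¬ Inv (insert a X) (ξ ∪ ω) (a.1 + vec a.2, u))) ≤ 1 / 100) :
    1 / 2 ≤ Ex F (fun _ => p) (fun ω => ind (∃ X a, InBox n a.1 ∧ ¬ InBox n (a.1 + vec a.2) ∧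
      (∀ b ∈ X, InBox n b.1 ∧ InBox n (b.1 + vec b.2)) ∧ Inv X (ω ∩ Rv X) a)) := by
  have hq : Adm (fun _ : E => p) := adm_const h0 h1
  obtain ⟨T, hT⟩ : ∃ T : ℕ, (Icc (-(n : ℤ)) n ×ˢ Icc (-(n : ℤ)) n).card < T := ⟨_, Nat.lt_succ_self _⟩
  have hg : ∀ ω, Good n Rv Inv ω (st n Rv Inv ω T) := fun ω => good_st hRv hmono ω T
  have hP := peierls F h0 h1 n (fun ω => (st n Rv Inv ω T).G) (fun ω => (st n Rv Inv ω T).B)
    (fun S => le_trans (Ex_mono hq (fun ω _ => ind_le_Z (hg ω) S))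
      (Ex_Z h0 h1 hRv hF hmono hinit hstep S T))
    (fun ω _ => by
      by_contra hc
      rw [not_or] at hc
      exact (((hg ω).hU 0).2 hc).1 rfl)
    (fun ω _ => (hg ω).hG)
    (fun ω _ x hx u hu => by
      by_contra hc
      rw [not_or] at hc
      rcases card_st (n := n) (Rv := Rv) (Inv := Inv) ω T with h | h
      · have := card_le_box (hg ω); omega
      · exact h ⟨(x, u), hx, hu, hc.1, hc.2⟩)
  refine le_trans hP (Ex_mono hq (fun ω _ => ind_mono ?_))
  rintro ⟨x, hx, u, hu⟩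
  exact ⟨(st n Rv Inv ω T).X, (x, u), (hg ω).hG x hx, hu, (hg ω).hX, (hg ω).hI x hx u
    (((hg ω).hU _).2 ⟨fun h => hu ((hg ω).hG _ h), fun h => hu ((hg ω).hB _ h)⟩)⟩

end Vale.Agent.P151
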