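import Mathlib
import Vale.Agent.P151.Conn

namespace Vale.Agent.P151

namespace SteerAux

open Finset

variable {d : ℕ}

/-- the potential -/
def Phi (c : Fin d → ℤ) (l : ℤ) (x : Fin d → ℤ) : ℤ := ∑ j, max |x j - c j| l

/-- the intermediate targets -/
noncomputable def Bt (lo hi c : Fin d → ℤ) (l R K : ℤ) (t : ℕ) : Finset (Fin d → ℤ) :=
  (boxI (fun j => lo j - t * R) (fun j => hi j + t * R)).filter
    (fun x => 2 * Phi c l x ≤ K - t * l ∨ x ∈ box c (2 * l + t * R))

theorem mem_Bt {lo hi c x : Fin d → ℤ} {l R K : ℤ} {t : ℕ} : x ∈ Bt lo hi c l R K t ↔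
    (∀ j, lo j - t * R ≤ x j ∧ x j ≤ hi j + t * R) ∧
      (2 * Phi c l x ≤ K - t * l ∨ ∀ j, c j - (2 * l + t * R) ≤ x j ∧ x j ≤ c j + (2 * l + t * R)) := by
  rw [Bt, mem_filter, mem_boxI, mem_box]

theorem mem_face {v x : Fin d → ℤ} {r : ℤ} {i : Fin d} {s : Fin d → Bool}
    (h : x ∈ face v r i s) (hr : 0 ≤ r) :
    (∀ j, (s j = true → v j ≤ x j ∧ x j ≤ v j + r) ∧ (s j = false → v j - r ≤ x j ∧ x j ≤ v j)) ∧
      (s i = true → x i = v i + r) ∧ (s i = false → x i = v i - r) := by
  rw [face, mem_boxI] at h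
  refine ⟨fun j => ?_, ?_⟩
  · have := h j
    by_cases hj : j = i <;> cases hs : s j <;> simp [hj, hs] at this ⊢ <;>
      first | omega | (subst hj; simp [hs] at this; omega)
  · have := h i
    cases hs : s i <;> simp [hs] at this ⊢ <;> omega

theorem face_sub (hd : 0 < d) {lo hi c v b : Fin d → ℤ} {l R K : ℤ} {t : ℕ} (hl : 0 ≤ l)
    (hR0 : 0 ≤ R) (hR : 2 * d * R ≤ l) (hlo : ∀ j, lo j ≤ c j - l) (hhi : ∀ j, c j + l ≤ hi j)
    (hb : b ∈ Bt lo hi c l R K t) (hv : ∀ j, |v j - b j| ≤ R) :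
    ∃ i s, face v l i s ⊆ Bt lo hi c l R K (t + 1) := by
  have : Nonempty (Fin d) := ⟨⟨0, hd⟩⟩
  obtain ⟨i, -, hi⟩ := exists_max_image univ (fun j => |v j - c j|) univ_nonempty
  refine ⟨i, fun j => decide (v j ≤ c j), fun x hx => ?_⟩
  obtain ⟨h1, h2, h3⟩ := mem_face hx hl
  simp only [decide_eq_true_eq, decide_eq_false_iff_not, not_le] at h1 h2 h3
  rw [mem_Bt] at hb ⊢
  obtain ⟨b1, b2⟩ := hb
  have ht : 0 ≤ (t : ℤ) * R := by positivity
  have e1 : ((t + 1 : ℕ) : ℤ) * R = t * R + R := by push_cast; ring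
  have e2 : ((t + 1 : ℕ) : ℤ) * l = t * l + l := by push_cast; ring
  rw [e1, e2]
  generalize (t : ℤ) * R = a at *
  generalize (t : ℤ) * l = a' at *
  refine ⟨fun j => ?_, ?_⟩
  · have c1 := h1 j
    have c2 := b1 j
    have c3 := abs_le.1 (hv j)
    have c4 := hlo j
    have c5 := hhi j
    omega
  rcases b2 with b2 | b2
  · by_cases hbig : 2 * l ≤ |v i - c i|
    · left
      have k1 : ∀ j, max |x j - c j| l ≤ max |b j - c j| l + R - (if j = i then l else 0) := by
        intro j
        have c1 := h1 j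
        have c3 := abs_le.1 (hv j)
        split_ifs with hj
        · subst hj
          simp only [abs_eq_max_neg] at hbig ⊢
          omega
        · simp only [abs_eq_max_neg]
          omega
      have k2 : Phi c l x ≤ Phi c l b + d * R - l := by
        unfold Phi
        refine le_trans (sum_le_sum fun j _ => k1 j) (le_of_eq ?_)
        rw [sum_sub_distrib, sum_add_distrib]
        simp
      have e3 : 2 * (d : ℤ) * R = 2 * (d * R) := by ring
      omega
    · right
      intro j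
      have c1 := h1 j
      have c2 := hi j (mem_univ _)
      simp only [abs_eq_max_neg] at hbig c2
      omega
  · right
    intro j
    have c1 := h1 j
    have c2 := b2 j
    have c3 := abs_le.1 (hv j)
    omega

end SteerAux

open SteerAux in
/-- Steering from a box to the cube of radius `3 l` around a chosen point `c`. -/
theorem steer {d : ℕ} (hd : 0 < d) {p δ ε : ℝ} (h0 : 0 ≤ p) (h1 : p ≤ 1) (hε : 0 ≤ ε)
    {m l R M : ℕ} {ρ : ℤ}
    (hT : TargetOK (lattice d) p m R δ ε) (hH : HitAt d p m l δ)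
    (hρ : ((2 * d * M + 1) * R : ℤ) ≤ ρ) (hρl : ρ ≤ l) (hR : 2 * d * R ≤ l) (hl : 0 < l)
    (lo hi c : Fin d → ℤ) (hlo : ∀ j, lo j ≤ c j - l) (hhi : ∀ j, c j + l ≤ hi j)
    (hM : ∀ j, hi j - lo j ≤ M * l)
    (D ξ : Finset (Sym2 (Fin d → ℤ))) (o : Fin d → ℤ) (hdis : Disjoint ξ D)
    (hξ : (↑ξ : Set (Sym2 (Fin d → ℤ))) ⊆ (lattice d).edgeSet)
    (hD : (↑D : Set (Sym2 (Fin d → ℤ))) ⊆ (lattice d).edgeSet)
    (ho : o ∉ boxI (fun j => lo j - ρ) (fun j => hi j + ρ))
    (hfresh : Ein (lattice d) (boxI (fun j => lo j - ρ) (fun j => hi j + ρ)) ⊆ D)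
    (hroom : Ein (lattice d) (boxI (fun j => lo j - 2 * l) (fun j => hi j + 2 * l)) ⊆ D ∪ ξ) :
    hit D p ξ o (boxI lo hi) - (2 * d * M : ℕ) * ε ≤ hit D p ξ o (box c (3 * l)) := by
  have _ := hε
  have hl0 : (0 : ℤ) < l := by exact_mod_cast hl
  have hR0 : (0 : ℤ) ≤ R := Int.natCast_nonneg _
  have hR' : 2 * (d : ℤ) * R ≤ l := by exact_mod_cast hR
  have hNR : ∀ t : ℕ, t ≤ 2 * d * M → (t : ℤ) * R + R ≤ ρ := by
    intro t ht
    have a1 : (t : ℤ) ≤ 2 * d * M := by exact_mod_cast ht
    have a2 := mul_le_mul_of_nonneg_right a1 hR0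
    linarith
  have key : ∀ t : ℕ, t ≤ 2 * d * M → hit D p ξ o (boxI lo hi) - t * ε
      ≤ hit D p ξ o (Bt lo hi c l R (2 * d * M * l) t) := by
    intro t
    induction t with
    | zero =>
      intro _
      rw [Nat.cast_zero, zero_mul, sub_zero]
      refine hit_mono h0 h1 Finset.Subset.rfl Finset.subset_union_left o (fun x hx => ?_)
      rw [mem_boxI] at hx
      rw [mem_Bt]
      refine ⟨by simpa using hx, Or.inl ?_⟩
      have k1 : Phi c l x ≤ ∑ _j : Fin d, (M : ℤ) * l := by
        refine Finset.sum_le_sum (fun j _ => ?_)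
        have c1 := hx j
        have c2 := hlo j
        have c3 := hhi j
        have c4 := hM j
        generalize (M : ℤ) * l = a at *
        simp only [abs_eq_max_neg]
        omega
      rw [Finset.sum_const, Finset.card_univ, Fintype.card_fin, nsmul_eq_mul] at k1
      push_cast
      linarith
    | succ t ih =>
      intro ht
      have a1 := ih (by omega)
      have a0 := hNR t (by omega)
      have hnb : ∀ v ∈ nbk (lattice d) R (Bt lo hi c l R (2 * d * M * l) t),
          ∃ b ∈ Bt lo hi c l R (2 * d * M * l) t, ∀ j, |v j - b j| ≤ R := by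
        intro v hv
        obtain ⟨b, hb, hvb⟩ := (mem_nbk_iff _ _ _ _).1 hv
        exact ⟨b, hb, abs_le_of_mem_nbk hvb⟩
      have hsub : nbk (lattice d) R (Bt lo hi c l R (2 * d * M * l) t)
          ⊆ boxI (fun j => lo j - ρ) (fun j => hi j + ρ) := by
        intro v hv
        obtain ⟨b, hb, hvb⟩ := hnb v hv
        rw [mem_boxI]
        intro j
        have c1 := (mem_Bt.1 hb).1 j
        have c2 := abs_le.1 (hvb j)
        constructor <;> linarith [c1.1, c1.2, c2.1, c2.2]
      have a2 := hT D ξ o (Bt lo hi c l R (2 * d * M * l) t)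
        (Bt lo hi c l R (2 * d * M * l) (t + 1)) hdis hξ hD (fun h => ho (hsub h))
        ((Ein_mono _ hsub).trans hfresh) (fun v hv => by
          obtain ⟨b, hb, hvb⟩ := hnb v hv
          obtain ⟨i, s, hs⟩ := face_sub hd hl0.le hR0 hR' hlo hhi hb hvb
          refine le_trans (hH v i s) (hitS_mono h0 h1 (Finset.empty_subset _)
            (Finset.Subset.trans (Ein_mono _ (fun x hx => ?_)) hroom) Finset.Subset.rfl hs)
          have c0 := mem_boxI.1 (hsub hv)
          rw [mem_box] at hx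
          rw [mem_boxI]
          intro j
          have c1 := c0 j
          have c2 := hx j
          constructor <;> linarith [c1.1, c1.2, c2.1, c2.2])
      push_cast
      linarith
  refine le_trans (key _ le_rfl)
    (hit_mono h0 h1 Finset.Subset.rfl Finset.subset_union_left o (fun x hx => ?_))
  obtain ⟨-, b2 | b2⟩ := mem_Bt.1 hx
  · exfalso
    have k1 : ∑ _j : Fin d, (l : ℤ) ≤ Phi c l x :=
      Finset.sum_le_sum (fun j _ => le_max_right _ _)
    rw [Finset.sum_const, Finset.card_univ, Fintype.card_fin, nsmul_eq_mul] at k1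
    have k2 : (0 : ℤ) < d * l := mul_pos (by exact_mod_cast hd) hl0
    push_cast at b2
    linarith
  · rw [mem_box]
    intro j
    have c1 := b2 j
    have c2 := hNR _ le_rfl
    constructor <;> linarith [c1.1, c1.2]

end Vale.Agent.P151
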