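import Mathlib
import Vale.Agent.P151.Conn

/-!
Clusters, the spatial Markov property and the monotone function `Psi`.
-/

namespace Vale.Agent.P151
namespace GlueAux

open Finset

set_option linter.unusedSectionVars false

variable {V : Type} [DecidableEq V]

/-- cluster of a set -/
def cl (ω : Finset (Sym2 V)) (A : Set V) : Set V := {v | ∃ a ∈ A, Conn ω a v}

/-- the edge has an endpoint in `K` -/
def touch (K : Set V) (e : Sym2 V) : Prop := ∃ v ∈ e, v ∈ K

open Classical in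
/-- remove the edges meeting `K` -/
noncomputable def cut (K : Set V) (ω : Finset (Sym2 V)) : Finset (Sym2 V) :=
  ω.filter fun e => ¬ touch K e

theorem mem_cut {K : Set V} {ω : Finset (Sym2 V)} {e : Sym2 V} :
    e ∈ cut K ω ↔ e ∈ ω ∧ ¬ touch K e := by simp [cut]

theorem touch_mk {K : Set V} {a b : V} : touch K s(a, b) ↔ a ∈ K ∨ b ∈ K := by simp [touch]

theorem touch_mono {K K' : Set V} (h : K ⊆ K') {e : Sym2 V} (he : touch K e) : touch K' e := by
  obtain ⟨v, hv, hK⟩ := he; exact ⟨v, hv, h hK⟩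

theorem cut_anti {K K' : Set V} (h : K ⊆ K') (ω : Finset (Sym2 V)) : cut K' ω ⊆ cut K ω :=
  fun _ he => mem_cut.2 ⟨(mem_cut.1 he).1, fun h' => (mem_cut.1 he).2 (touch_mono h h')⟩

theorem cut_subset (K : Set V) (ω : Finset (Sym2 V)) : cut K ω ⊆ ω := fun _ he => (mem_cut.1 he).1

theorem mem_cl_single {ω : Finset (Sym2 V)} {x v : V} : v ∈ cl ω {x} ↔ Conn ω x v := by simp [cl]

theorem subset_cl (ω : Finset (Sym2 V)) (A : Set V) : A ⊆ cl ω A :=
  fun a ha => ⟨a, ha, Conn.refl _ _⟩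

theorem cl_step {ω : Finset (Sym2 V)} {A : Set V} {a b : V} (ha : a ∈ cl ω A) (h : Conn ω a b) :
    b ∈ cl ω A := by
  obtain ⟨c, hc, h'⟩ := ha; exact ⟨c, hc, h'.trans h⟩

theorem cl_mono {ω ω' : Finset (Sym2 V)} {A A' : Set V} (h : ω ⊆ ω') (hA : A ⊆ A') :
    cl ω A ⊆ cl ω' A' := fun _ ⟨a, ha, hc⟩ => ⟨a, hA ha, hc.mono h⟩

theorem cl_empty (A : Set V) : cl (∅ : Finset (Sym2 V)) A = A := by
  refine Set.Subset.antisymm ?_ (subset_cl _ _)
  rintro v ⟨a, ha, hc⟩
  induction hc with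
  | refl => exact ha
  | tail _ h _ => simp at h

theorem cl_insert_set (ω : Finset (Sym2 V)) (t : V) (A : Set V) :
    cl ω (insert t A) = cl ω {t} ∪ cl ω A := by
  ext v; simp [cl]

theorem cl_subset_of_closed {ω : Finset (Sym2 V)} {A K : Set V} (hA : A ⊆ K)
    (hK : ∀ a b, a ∈ K → s(a, b) ∈ ω → b ∈ K) : cl ω A ⊆ K := by
  rintro v ⟨a, ha, hc⟩
  induction hc with
  | refl => exact hA ha
  | tail _ h ih => exact hK _ _ ih h

theorem cl_eq_of_agree {ω ω' : Finset (Sym2 V)} {A : Set V}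
    (h : ∀ e, touch (cl ω A) e → (e ∈ ω ↔ e ∈ ω')) : cl ω' A = cl ω A := by
  apply Set.Subset.antisymm
  · refine cl_subset_of_closed (subset_cl _ _) fun a b ha hab => ?_
    exact cl_step ha (Conn.single ((h _ (touch_mk.2 (Or.inl ha))).2 hab))
  · rintro v ⟨a, ha, hc⟩
    induction hc with
    | refl => exact subset_cl _ _ ha
    | @tail b c h1 h2 ih =>
      exact cl_step ih (Conn.single ((h _ (touch_mk.2 (Or.inl ⟨a, ha, h1⟩))).1 h2))

theorem cl_cut {ω : Finset (Sym2 V)} {A B : Set V} (h : ∀ b ∈ B, b ∉ cl ω A) :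
    cl (cut (cl ω A) ω) B = cl ω B := by
  refine cl_eq_of_agree fun e he => ?_
  rw [mem_cut]
  refine ⟨fun h1 => ⟨h1, fun h2 => ?_⟩, fun h1 => h1.1⟩
  induction e using Sym2.ind with
  | _ a b =>
    have hab : Conn ω a b := Conn.single h1
    have h3 : a ∈ cl ω B := by
      rcases touch_mk.1 he with h3 | h3
      · exact h3
      · exact cl_step h3 hab.symm
    have h4 : a ∈ cl ω A := by
      rcases touch_mk.1 h2 with h4 | h4
      · exact h4
      · exact cl_step h4 hab.symm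
    obtain ⟨c, hc, h5⟩ := h3
    exact h c hc (cl_step h4 h5.symm)

theorem cl_single_eq {ω : Finset (Sym2 V)} {u d : V} (h : u ∈ cl ω {d}) : cl ω {u} = cl ω {d} := by
  rw [mem_cl_single] at h
  ext v; simp only [mem_cl_single]
  exact ⟨fun h' => h.trans h', fun h' => h.symm.trans h'⟩

theorem not_mem_cl_iff {ω : Finset (Sym2 V)} {u : V} {S : Set V} :
    u ∉ cl ω S ↔ ∀ s ∈ S, s ∉ cl ω {u} := by
  simp only [cl, Set.mem_ofPred_eq, not_exists, not_and, Set.mem_singleton_iff, exists_eq_left]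
  exact ⟨fun h s hs hc => h s hs hc.symm, fun h s hs hc => h s hs hc.symm⟩

theorem cl_hyb (Z : Finset (Sym2 V)) (A : Set V) (η η' : Finset (Sym2 V)) :
    cl (hyb (touch (cl (η \ Z) A)) η η' \ Z) A = cl (η \ Z) A :=
  cl_eq_of_agree fun e he => by simp [mem_hyb, he]

theorem cut_hyb (K : Set V) (η η' : Finset (Sym2 V)) : cut K (hyb (touch K) η η') = cut K η' := by
  ext e; simp only [mem_cut, mem_hyb]; tauto

variable {F : Finset (Sym2 V)} {q : Sym2 V → ℝ}

theorem stop_cl (F : Finset (Sym2 V)) (q : Sym2 V → ℝ) (Z : Finset (Sym2 V)) (A : Set V)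
    (f : Finset (Sym2 V) → ℝ) :
    Ex F q f = Ex F q (fun η => Ex F q (fun η' => f (hyb (touch (cl (η \ Z) A)) η η'))) :=
  Ex_stop F q (fun η => touch (cl (η \ Z) A)) (fun η η' _ _ => by rw [cl_hyb]) f

/-- spatial Markov property -/
theorem markovZ (F : Finset (Sym2 V)) (q : Sym2 V → ℝ) (Z : Finset (Sym2 V)) (A : Set V)
    (Φ : Set V → Finset (Sym2 V) → ℝ) :
    Ex F q (fun η => Φ (cl (η \ Z) A) (cut (cl (η \ Z) A) η)) =
      Ex F q (fun η => Ex F q (fun η' => Φ (cl (η \ Z) A) (cut (cl (η \ Z) A) η'))) := by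
  rw [stop_cl F q Z A]
  simp only [cl_hyb, cut_hyb]

theorem markov (F : Finset (Sym2 V)) (q : Sym2 V → ℝ) (A : Set V)
    (Φ : Set V → Finset (Sym2 V) → ℝ) :
    Ex F q (fun η => Φ (cl η A) (cut (cl η A) η)) =
      Ex F q (fun η => Ex F q (fun η' => Φ (cl η A) (cut (cl η A) η'))) := by
  simpa using markovZ F q ∅ A Φ

/-- mean of `g` after removing `B` -/
noncomputable def gam (F : Finset (Sym2 V)) (q : Sym2 V → ℝ) (x : V) (g : Set V → ℝ) (B : Set V) :
    ℝ := Ex F q fun η => g (cl (cut B η) {x})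

theorem gam_anti (hq : Adm q) (x : V) {g : Set V → ℝ} (hg : Monotone g) :
    Antitone (gam F q x g) := fun _ _ h =>
  Ex_mono hq fun η _ => hg (cl_mono (cut_anti h η) subset_rfl)

/-- the integrand of `Psi` -/
noncomputable def Phi (F : Finset (Sym2 V)) (q : Sym2 V → ℝ) (x : V) (Y : Set V) (g : Set V → ℝ)
    (ω : Finset (Sym2 V)) : ℝ :=
  ind (x ∉ cl ω Y) * (gam F q x g (cl ω Y) - g (cl ω {x}))

/-- conditional mean given the cluster of `Y`, with closed set `Z` only used to find it -/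
theorem gam_markov (F : Finset (Sym2 V)) (q : Sym2 V → ℝ) (x : V) (Y : Set V) (g : Set V → ℝ)
    (Z : Finset (Sym2 V)) (φ : Set V → ℝ) :
    Ex F q (fun η => φ (cl (η \ Z) Y) * g (cl (cut (cl (η \ Z) Y) η) {x})) =
      Ex F q (fun η => φ (cl (η \ Z) Y) * gam F q x g (cl (η \ Z) Y)) := by
  rw [markovZ F q Z Y (fun B ζ => φ B * g (cl ζ {x}))]
  simp only [Ex_mul_left, gam]

theorem gam_markov0 (F : Finset (Sym2 V)) (q : Sym2 V → ℝ) (x : V) (Y : Set V) (g : Set V → ℝ)
    (φ : Set V → ℝ) :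
    Ex F q (fun η => ind (x ∉ cl η Y) * φ (cl η Y) * g (cl η {x})) =
      Ex F q (fun η => ind (x ∉ cl η Y) * φ (cl η Y) * gam F q x g (cl η Y)) := by
  have h := gam_markov F q x Y g ∅ (fun B => ind (x ∉ B) * φ B)
  simp only [sdiff_empty] at h
  rw [← h]
  refine Ex_congr fun η _ => ?_
  by_cases hx : x ∈ cl η Y
  · simp [ind_neg (not_not.2 hx)]
  · rw [cl_cut (by simpa using hx)]

/-- the term created by opening an edge from the cluster of `Y` to `t` -/
noncomputable def del (F : Finset (Sym2 V)) (q : Sym2 V → ℝ) (x : V) (Y : Set V) (g : Set V → ℝ)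
    (s t : V) (ω : Finset (Sym2 V)) : ℝ :=
  ind (s ∈ cl ω Y ∧ t ∉ cl ω Y ∧ x ∉ cl ω Y) *
    (ind (x ∉ cl ω {t}) * gam F q x g (cl ω (insert t Y)) + ind (x ∈ cl ω {t}) * g (cl ω {x})
      - gam F q x g (cl ω Y))

theorem del_nonpos (hq : Adm q) (x : V) (Y : Set V) {g : Set V → ℝ} (hg : Monotone g) (s t : V)
    (Z : Finset (Sym2 V)) : Ex F q (fun η => del F q x Y g s t (η \ Z)) ≤ 0 := by
  have h1 := gam_markov F q x Y g Z (fun B => ind (s ∈ B ∧ t ∉ B ∧ x ∉ B))
  have h2 := stop_cl F q Z (insert t Y) (fun η => ind (s ∈ cl (η \ Z) Y ∧ t ∉ cl (η \ Z) Y ∧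
    x ∉ cl (η \ Z) Y) * g (cl (cut (cl (η \ Z) Y) η) {x}))
  simp only [del, mul_sub]
  rw [Ex_sub, ← h1, h2, sub_nonpos]
  refine Ex_mono hq fun η _ => ?_
  have hY : ∀ η', cl (hyb (touch (cl (η \ Z) (insert t Y))) η η' \ Z) Y = cl (η \ Z) Y := by
    intro η'
    refine cl_eq_of_agree fun e he => ?_
    have : touch (cl (η \ Z) (insert t Y)) e :=
      touch_mono (cl_mono Subset.rfl (Set.subset_insert _ _)) he
    simp [mem_hyb, this]
  simp only [hY, Ex_mul_left]
  by_cases hc : s ∈ cl (η \ Z) Y ∧ t ∉ cl (η \ Z) Y ∧ x ∉ cl (η \ Z) Y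
  swap
  · simp [ind_neg hc]
  rw [ind_pos hc, one_mul, one_mul]
  by_cases hx : x ∈ cl (η \ Z) {t}
  · rw [ind_neg (not_not.2 hx), ind_pos hx, zero_mul, zero_add, one_mul]
    refine const_le_Ex hq fun η' _ => hg ?_
    rw [← cl_cut (A := Y) (B := {x}) (by simpa using hc.2.2)]
    rintro v ⟨a, ha, hv⟩
    rw [Set.mem_singleton_iff] at ha
    subst ha
    refine mem_cl_single.2 ?_
    induction hv with
    | refl => exact Conn.refl _ _
    | @tail b c h3 h4 ih =>
      refine ih.trans (Conn.single ?_)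
      rw [mem_cut] at h4 ⊢
      refine ⟨mem_hyb.2 (Or.inl ⟨(mem_sdiff.1 h4.1).1, touch_mk.2 (Or.inl ?_)⟩), h4.2⟩
      rw [cl_insert_set]
      exact Or.inl (cl_step hx (Conn.mono (cut_subset _ _) h3))
  · rw [ind_pos hx, ind_neg hx, zero_mul, add_zero, one_mul, gam]
    refine Ex_mono hq fun η' _ => hg (cl_mono ?_ subset_rfl)
    intro e he
    rw [mem_cut] at he ⊢
    exact ⟨mem_hyb.2 (Or.inr he),
      fun h => he.2 (touch_mono (cl_mono Subset.rfl (Set.subset_insert _ _)) h)⟩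

theorem cl_insert_edge_of_iff {ω : Finset (Sym2 V)} {A : Set V} {s t : V}
    (h : s ∈ cl ω A ↔ t ∈ cl ω A) : cl (insert s(s, t) ω) A = cl ω A := by
  refine Set.Subset.antisymm ?_ (cl_mono (subset_insert _ _) subset_rfl)
  refine cl_subset_of_closed (subset_cl _ _) fun a b ha hab => ?_
  rcases mem_insert.1 hab with h1 | h1
  · rcases Sym2.eq_iff.1 h1 with ⟨rfl, rfl⟩ | ⟨rfl, rfl⟩
    · exact h.1 ha
    · exact h.2 ha
  · exact cl_step ha (Conn.single h1)

theorem cl_insert_edge {ω : Finset (Sym2 V)} {A : Set V} {s t : V} (h : s ∈ cl ω A) :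
    cl (insert s(s, t) ω) A = cl ω (insert t A) := by
  apply Set.Subset.antisymm
  · refine cl_subset_of_closed ((Set.subset_insert _ _).trans (subset_cl _ _)) fun a b ha hab => ?_
    rcases mem_insert.1 hab with h1 | h1
    · rcases Sym2.eq_iff.1 h1 with ⟨rfl, rfl⟩ | ⟨rfl, rfl⟩
      · exact subset_cl _ _ (Set.mem_insert _ _)
      · exact cl_mono Subset.rfl (Set.subset_insert _ _) h
    · exact cl_step ha (Conn.single h1)
  · rintro v ⟨a, ha, hv⟩
    refine cl_step ?_ (hv.mono (subset_insert _ _))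
    rcases ha with rfl | ha
    · exact cl_step (cl_mono (subset_insert _ _) subset_rfl h) (Conn.single (mem_insert_self _ _))
    · exact subset_cl _ _ ha

theorem Phi_insert_one (x : V) (Y : Set V) (g : Set V → ℝ) (s t : V) (ω : Finset (Sym2 V))
    (hs : s ∈ cl ω Y) (ht : t ∉ cl ω Y) :
    Phi F q x Y g (insert s(s, t) ω) - Phi F q x Y g ω = del F q x Y g s t ω := by
  simp only [Phi, del]
  rw [cl_insert_edge hs]
  by_cases hx : x ∈ cl ω Y
  · have : x ∈ cl ω (insert t Y) := cl_mono Subset.rfl (Set.subset_insert _ _) hx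
    rw [ind_neg (not_not.2 hx), ind_neg (not_not.2 this), ind_neg (fun h => h.2.2 hx)]; ring
  · rw [ind_pos hx, ind_pos (show s ∈ cl ω Y ∧ t ∉ cl ω Y ∧ x ∉ cl ω Y from ⟨hs, ht, hx⟩)]
    by_cases hx' : x ∈ cl ω {t}
    · have : x ∈ cl ω (insert t Y) := by rw [cl_insert_set]; exact Or.inl hx'
      rw [ind_neg (not_not.2 this), ind_neg (not_not.2 hx'), ind_pos hx']; ring
    · have : x ∉ cl ω (insert t Y) := by rw [cl_insert_set]; exact fun h => h.elim hx' hx
      have h2 : cl (insert s(s, t) ω) {x} = cl ω {x} := by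
        refine cl_insert_edge_of_iff ⟨fun h => ?_, fun h => ?_⟩
        · exact (hx (cl_step hs (mem_cl_single.1 h).symm)).elim
        · exact (hx' (mem_cl_single.2 (mem_cl_single.1 h).symm)).elim
      rw [ind_pos this, ind_pos hx', ind_neg hx', h2]; ring

theorem Phi_insert_le (x : V) (Y : Set V) {g : Set V → ℝ} (hg : Monotone g) (s t : V)
    (ω : Finset (Sym2 V)) :
    Phi F q x Y g (insert s(s, t) ω) - Phi F q x Y g ω ≤
      del F q x Y g s t ω + del F q x Y g t s ω := by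
  by_cases hs : s ∈ cl ω Y <;> by_cases ht : t ∈ cl ω Y
  rotate_left
  · rw [Phi_insert_one x Y g s t ω hs ht]
    simp [del, ind_neg (fun h : t ∈ cl ω Y ∧ s ∉ cl ω Y ∧ x ∉ cl ω Y => ht h.1)]
  · rw [Sym2.eq_swap, Phi_insert_one x Y g t s ω ht hs]
    simp [del, ind_neg (fun h : s ∈ cl ω Y ∧ t ∉ cl ω Y ∧ x ∉ cl ω Y => hs h.1)]
  all_goals
    have e : cl (insert s(s, t) ω) Y = cl ω Y := cl_insert_edge_of_iff (by tauto)
    have h1 : del F q x Y g s t ω = 0 := by rw [del, ind_neg (by tauto), zero_mul]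
    have h2 : del F q x Y g t s ω = 0 := by rw [del, ind_neg (by tauto), zero_mul]
    have h3 : g (cl ω {x}) ≤ g (cl (insert s(s, t) ω) {x}) :=
      hg (cl_mono (subset_insert _ _) subset_rfl)
    rw [h1, h2, Phi, Phi, e]
    nlinarith [ind_nonneg (x ∉ cl ω Y)]

theorem PsiZ_insert (hq : Adm q) (x : V) (Y : Set V) {g : Set V → ℝ} (hg : Monotone g)
    (Z : Finset (Sym2 V)) (e : Sym2 V) :
    Ex F q (fun η => Phi F q x Y g (η \ Z)) ≤ Ex F q (fun η => Phi F q x Y g (η \ insert e Z)) := by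
  by_cases hZ : e ∈ Z
  · rw [insert_eq_of_mem hZ]
  by_cases hF : e ∈ F
  swap
  · refine le_of_eq (Ex_congr fun η hη => ?_)
    congr 1
    ext e'
    simp only [mem_sdiff, mem_insert, not_or]
    exact ⟨fun h => ⟨h.1, fun h' => hF (h' ▸ hη h.1), h.2⟩, fun h => ⟨h.1, h.2.2⟩⟩
  have key : ∀ f : Finset (Sym2 V) → ℝ, Ex F q (fun η => f (η \ insert e Z))
      = Ex (F.erase e) q (fun η => f (η \ Z)) := by
    intro f
    rw [← Ex_inter (erase_subset e F)]
    refine Ex_congr fun η hη => ?_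
    congr 1
    ext e'
    simp only [mem_sdiff, mem_insert, not_or, mem_inter, mem_erase]
    exact ⟨fun h => ⟨⟨h.1, h.2.1, hη h.1⟩, h.2.2⟩, fun h => ⟨h.1.1, h.1.2.1, h.2⟩⟩
  have h1 : Ex F q (fun η => Phi F q x Y g (η \ Z))
      = q e * Ex F q (fun η => Phi F q x Y g (insert e (η \ insert e Z)))
        + (1 - q e) * Ex F q (fun η => Phi F q x Y g (η \ insert e Z)) := by
    rw [key (fun ω => Phi F q x Y g (insert e ω)), key (Phi F q x Y g)]
    have h := Ex_insert (notMem_erase e F) q (fun η => Phi F q x Y g (η \ Z))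
    rw [insert_erase hF] at h
    rw [h]
    simp only [insert_sdiff_of_notMem _ hZ]
  have h2 : Ex F q (fun η => Phi F q x Y g (insert e (η \ insert e Z)))
      ≤ Ex F q (fun η => Phi F q x Y g (η \ insert e Z)) := by
    induction e using Sym2.ind with
    | _ s t =>
      have h3 := Ex_mono (F := F) hq fun η _ => Phi_insert_le (F := F) (q := q) x Y hg s t
        (η \ insert s(s, t) Z)
      rw [Ex_sub, Ex_add] at h3
      linarith [del_nonpos (F := F) hq x Y hg s t (insert s(s, t) Z),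
        del_nonpos (F := F) hq x Y hg t s (insert s(s, t) Z)]
  rw [h1]
  nlinarith [(hq e).1]

theorem PsiZ_mono (hq : Adm q) (x : V) (Y : Set V) {g : Set V → ℝ} (hg : Monotone g)
    {Z Z' : Finset (Sym2 V)} (h : Z ⊆ Z') :
    Ex F q (fun η => Phi F q x Y g (η \ Z)) ≤ Ex F q (fun η => Phi F q x Y g (η \ Z')) := by
  rw [← union_sdiff_of_subset h]
  induction Z' \ Z using Finset.induction_on with
  | empty => simp
  | insert e W _ ih => rw [union_insert]; exact ih.trans (PsiZ_insert hq x Y hg _ e)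

/-- the increasing function of the explored cluster -/
noncomputable def Psi (F : Finset (Sym2 V)) (q : Sym2 V → ℝ) (x : V) (Y : Set V) (g : Set V → ℝ)
    (K : Set V) : ℝ := Ex F q fun η => Phi F q x Y g (cut K η)

open Classical in
theorem Psi_eq (x : V) (Y : Set V) (g : Set V → ℝ) (K : Set V) :
    Psi F q x Y g K = Ex F q (fun η => Phi F q x Y g (η \ F.filter (touch K))) := by
  refine Ex_congr fun η hη => ?_
  congr 1
  ext e
  simp only [mem_cut, mem_sdiff, mem_filter, not_and]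
  exact ⟨fun h => ⟨h.1, fun _ => h.2⟩, fun h => ⟨h.1, h.2 (hη h.1)⟩⟩

theorem Psi_mono (hq : Adm q) (x : V) (Y : Set V) {g : Set V → ℝ} (hg : Monotone g) :
    Monotone (Psi F q x Y g) := by
  classical
  intro K K' h
  rw [Psi_eq, Psi_eq]
  exact PsiZ_mono hq x Y hg fun e he =>
    mem_filter.2 ⟨(mem_filter.1 he).1, touch_mono h (mem_filter.1 he).2⟩

theorem Psi_nonneg (hq : Adm q) (x : V) (Y : Set V) {g : Set V → ℝ} (hg : Monotone g) (K : Set V) :
    0 ≤ Psi F q x Y g K := by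
  classical
  rw [Psi_eq]
  refine le_trans (le_of_eq ?_) (PsiZ_mono hq x Y hg (empty_subset _))
  have h := gam_markov0 F q x Y g (fun _ => 1)
  simp only [sdiff_empty, Phi, mul_sub, mul_one] at h ⊢
  rw [Ex_sub, h, sub_self]

end GlueAux
end Vale.Agent.P151
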