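import Mathlib
import Vale.Agent.P151.GlueA

/-!
The hierarchy of conditioned covariance inequalities and the gluing inequality.
-/

namespace Vale.Agent.P151
namespace GlueAux

open Finset

set_option linter.unusedSectionVars false

variable {V : Type} [DecidableEq V] {F : Finset (Sym2 V)} {q : Sym2 V → ℝ}

/-- probability that `x` avoids `Y` -/
noncomputable def Zp (F : Finset (Sym2 V)) (q : Sym2 V → ℝ) (x : V) (Y : Set V) : ℝ :=
  Ex F q fun ω => ind (x ∉ cl ω Y)

/-- conditional connection probability -/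
noncomputable def cc (F : Finset (Sym2 V)) (q : Sym2 V → ℝ) (x : V) (Y : Set V) (u : V) : ℝ :=
  Ex F q (fun ω => ind (x ∉ cl ω Y) * ind (u ∈ cl ω {x})) / Zp F q x Y

/-- unnormalised conditional covariance -/
noncomputable def cov (F : Finset (Sym2 V)) (q : Sym2 V → ℝ) (x : V) (Y : Set V) (g : Set V → ℝ)
    (u : V) : ℝ :=
  Ex F q (fun ω => ind (x ∉ cl ω Y) * ind (u ∈ cl ω {x}) * g (cl ω {x}))
    - cc F q x Y u * Ex F q (fun ω => ind (x ∉ cl ω Y) * g (cl ω {x}))

/-- successive elimination of the decoys -/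
noncomputable def Lam (F : Finset (Sym2 V)) (q : Sym2 V → ℝ) (o : V) :
    List V → Set V → (V → ℝ) → ℝ
  | [], _, f => f o
  | d :: D, S, f => Lam F q o D (insert d S) (fun u => f u - cc F q d S u * f d)

theorem Lam_lin (o : V) (D : List V) (S : Set V) (a b : ℝ) (f g : V → ℝ) :
    Lam F q o D S (fun u => a * f u + b * g u) = a * Lam F q o D S f + b * Lam F q o D S g := by
  induction D generalizing S f g with
  | nil => rfl
  | cons d D ih =>
    simp only [Lam]
    rw [← ih]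
    congr 1
    funext u; ring

theorem Lam_add (o : V) (D : List V) (S : Set V) (f g : V → ℝ) :
    Lam F q o D S (fun u => f u + g u) = Lam F q o D S f + Lam F q o D S g := by
  simpa using Lam_lin (F := F) (q := q) o D S 1 1 f g

theorem Lam_mul (o : V) (D : List V) (S : Set V) (a : ℝ) (f : V → ℝ) :
    Lam F q o D S (fun u => a * f u) = a * Lam F q o D S f := by
  simpa using Lam_lin (F := F) (q := q) o D S a 0 f f

theorem Lam_bound (o : V) (D : List V) (S : Set V) : ∃ C : ℝ, 0 ≤ C ∧ ∀ (f : V → ℝ) (M : ℝ),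
    (∀ u, |f u| ≤ M) → |Lam F q o D S f| ≤ C * M := by
  suffices h : ∃ C : ℝ, 0 ≤ C ∧ ∀ (f : V → ℝ) (M : ℝ),
      (∀ u, u = o ∨ u ∈ D → |f u| ≤ M) → |Lam F q o D S f| ≤ C * M by
    obtain ⟨C, h0, h⟩ := h
    exact ⟨C, h0, fun f M hf => h f M fun u _ => hf u⟩
  induction D generalizing S with
  | nil => exact ⟨1, zero_le_one, fun f M h => by simpa [Lam] using h o (Or.inl rfl)⟩
  | cons d D ih =>
    obtain ⟨C, h0, h⟩ := ih (insert d S)
    set B : ℝ := |cc F q d S o| + (D.map fun u => |cc F q d S u|).sum with hB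
    have hs : 0 ≤ (D.map fun u => |cc F q d S u|).sum :=
      List.sum_nonneg (by simp only [List.mem_map]; rintro _ ⟨u, _, rfl⟩; exact abs_nonneg _)
    have hBu : ∀ u, u = o ∨ u ∈ D → |cc F q d S u| ≤ B := by
      rintro u (rfl | hu)
      · linarith
      · have := List.single_le_sum (l := D.map fun u => |cc F q d S u|)
          (by simp only [List.mem_map]; rintro _ ⟨u, _, rfl⟩; exact abs_nonneg _)
          _ (List.mem_map.2 ⟨u, hu, rfl⟩)
        linarith [abs_nonneg (cc F q d S o)]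
    have hB0 : 0 ≤ B := (abs_nonneg _).trans (hBu o (Or.inl rfl))
    refine ⟨C * (1 + B), by positivity, fun f M hf => ?_⟩
    rw [mul_assoc]
    refine h _ _ fun u hu => ?_
    have h1 := hf u (hu.imp id (List.mem_cons_of_mem _))
    have h2 := hf d (Or.inr List.mem_cons_self)
    calc |f u - cc F q d S u * f d| ≤ |f u| + |cc F q d S u| * |f d| := by
          rw [← abs_mul]; exact abs_sub _ _
      _ ≤ M + B * M := add_le_add h1 (mul_le_mul (hBu u hu) h2 (abs_nonneg _) hB0)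
      _ = (1 + B) * M := by ring

theorem Lam_congr (o : V) (D : List V) (S : Set V) {f g : V → ℝ}
    (h : ∀ u, u = o ∨ u ∈ D → f u = g u) : Lam F q o D S f = Lam F q o D S g := by
  induction D generalizing S f g with
  | nil => exact h o (Or.inl rfl)
  | cons d D ih =>
    refine ih _ fun u hu => ?_
    rw [h u (hu.imp id (List.mem_cons_of_mem _)), h d (Or.inr List.mem_cons_self)]

theorem cc_of_mem {d u : V} {S : Set V} (h : u ∈ S) : cc F q d S u = 0 := by
  have : Ex F q (fun ω => ind (d ∉ cl ω S) * ind (u ∈ cl ω {d})) = Ex F q (fun _ => 0) := by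
    refine Ex_congr fun ω _ => ?_
    rw [← ind_and, ind_neg]
    exact fun h' => not_mem_cl_iff.1 h'.1 u h h'.2
  rw [cc, this]; simp

theorem Lam_of_mem (o : V) (D : List V) (S : Set V) (ho : o ∈ S) (f : V → ℝ) :
    Lam F q o D S f = f o := by
  induction D generalizing S f with
  | nil => rfl
  | cons d D ih => rw [Lam, ih _ (Set.mem_insert_of_mem _ ho), cc_of_mem ho]; ring

theorem wt_empty_pos (hq1 : ∀ e ∈ F, q e < 1) : 0 < wt F q ∅ :=
  prod_pos fun e he => by simpa using hq1 e he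

theorem wt_empty_le_one (hq : Adm q) : wt F q ∅ ≤ 1 := by
  have := wt_mul_le_Ex (F := F) (f := fun _ => 1) hq (fun _ _ => zero_le_one) (empty_subset _)
  simpa using this

theorem Zp_pos (hq : Adm q) (hq1 : ∀ e ∈ F, q e < 1) {x : V} {Y : Set V} (h : x ∉ Y) :
    0 < Zp F q x Y := by
  have := wt_mul_le_Ex (F := F) (f := fun ω => ind (x ∉ cl ω Y)) hq (fun _ _ => ind_nonneg _)
    (empty_subset _)
  rw [cl_empty, ind_pos h, mul_one] at this
  exact (wt_empty_pos hq1).trans_le this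

theorem cc_mul_Zp (hq : Adm q) (hq1 : ∀ e ∈ F, q e < 1) {x : V} {Y : Set V} (h : x ∉ Y) (u : V) :
    cc F q x Y u * Zp F q x Y = Ex F q (fun ω => ind (x ∉ cl ω Y) * ind (u ∈ cl ω {x})) :=
  div_mul_cancel₀ _ (Zp_pos hq hq1 h).ne'

/-- the statement of the hierarchy for a list of decoys -/
def CSH (F : Finset (Sym2 V)) (q : Sym2 V → ℝ) (D : List V) : Prop :=
  ∀ (x : V) (Y : Set V) (g : Set V → ℝ) (o : V), x ∉ Y → Monotone g → D.Nodup →
    (∀ d ∈ D, d ∉ insert x Y) → 0 ≤ Lam F q o D (insert x Y) (cov F q x Y g)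

theorem split_avoid (Ψ : Set V → ℝ) (d u : V) (S : Set V) :
    Ex F q (fun ω => ind (u ∉ cl ω S) * Ψ (cl ω {u})) =
      Ex F q (fun ω => ind (u ∉ cl ω (insert d S)) * Ψ (cl ω {u}))
        + Ex F q (fun ω => ind (d ∉ cl ω S) * ind (u ∈ cl ω {d}) * Ψ (cl ω {d})) := by
  rw [← Ex_add]
  refine Ex_congr fun ω _ => ?_
  rw [cl_insert_set]
  by_cases h : u ∈ cl ω {d}
  · have h1 : u ∈ cl ω S ↔ d ∈ cl ω S :=
      ⟨fun h' => cl_step h' (mem_cl_single.1 h).symm, fun h' => cl_step h' (mem_cl_single.1 h)⟩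
    rw [ind_neg (P := u ∉ cl ω {d} ∪ cl ω S) (not_not.2 (Or.inl h)), ind_pos h, cl_single_eq h,
      ind_congr (not_congr h1)]
    ring
  · rw [ind_neg h, ind_congr (P := u ∉ cl ω {d} ∪ cl ω S) (Q := u ∉ cl ω S) (by simp [h])]
    ring

theorem unfold_nonneg (hq : Adm q) (n : ℕ) (ih : ∀ D : List V, D.length < n → CSH F q D)
    {Ψ : Set V → ℝ} (hΨ : Monotone Ψ) (h0 : ∀ K, 0 ≤ Ψ K) (o : V) (D : List V)
    (hn : D.length ≤ n) (S : Set V) (hD : D.Nodup) (hS : ∀ d ∈ D, d ∉ S) :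
    0 ≤ Lam F q o D S (fun u => Ex F q (fun ω => ind (u ∉ cl ω S) * Ψ (cl ω {u}))) := by
  induction D generalizing S with
  | nil => exact Ex_nonneg hq fun _ _ => mul_nonneg (ind_nonneg _) (h0 _)
  | cons d D ihD =>
    have hD' := List.nodup_cons.1 hD
    have hS' : ∀ d' ∈ D, d' ∉ insert d S := fun d' hd' h => by
      rcases h with rfl | h
      · exact hD'.1 hd'
      · exact hS d' (List.mem_cons_of_mem _ hd') h
    have e : (fun u => Ex F q (fun ω => ind (u ∉ cl ω S) * Ψ (cl ω {u}))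
        - cc F q d S u * Ex F q (fun ω => ind (d ∉ cl ω S) * Ψ (cl ω {d})))
        = fun u => Ex F q (fun ω => ind (u ∉ cl ω (insert d S)) * Ψ (cl ω {u}))
          + cov F q d S Ψ u := by
      funext u
      rw [split_avoid Ψ d u S, cov]; ring
    rw [Lam, e, Lam_add]
    exact add_nonneg (ihD (by simp at hn; omega) _ hD'.2 hS')
      (ih D (by simp at hn; omega) d S Ψ o (hS d List.mem_cons_self) hΨ hD'.2 hS')

/-- one step of the two-block Gibbs sampler -/
noncomputable def Tg (F : Finset (Sym2 V)) (q : Sym2 V → ℝ) (x : V) (Y : Set V) (g : Set V → ℝ)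
    (K : Set V) : ℝ := Ex F q fun η => gam F q x g (cl (cut K η) Y)

theorem Tg_mono (hq : Adm q) (x : V) (Y : Set V) {g : Set V → ℝ} (hg : Monotone g) :
    Monotone (Tg F q x Y g) := fun _ _ h =>
  Ex_mono hq fun η _ => gam_anti hq x hg (cl_mono (cut_anti h η) subset_rfl)

theorem Tg_markov (x : V) (Y : Set V) (g : Set V → ℝ) (φ : Set V → ℝ) :
    Ex F q (fun η => ind (x ∉ cl η Y) * φ (cl η {x}) * gam F q x g (cl η Y)) =
      Ex F q (fun η => ind (x ∉ cl η Y) * φ (cl η {x}) * Tg F q x Y g (cl η {x})) := by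
  have h := markov F q {x} (fun K ζ => ind (∀ s ∈ Y, s ∉ K) * φ K * gam F q x g (cl ζ Y))
  simp only [Ex_mul_left] at h
  simp only [ind_congr not_mem_cl_iff, Tg]
  rw [← h]
  refine Ex_congr fun η _ => ?_
  by_cases hx : ∀ s ∈ Y, s ∉ cl η {x}
  · rw [cl_cut hx]
  · simp [ind_neg hx]

theorem within_eq (x : V) (Y : Set V) (g : Set V → ℝ) (u : V) :
    Ex F q (fun ω => ind (x ∉ cl ω Y) * ind (u ∈ cl ω {x}) * g (cl ω {x}))
      - Ex F q (fun ω => ind (x ∉ cl ω Y) * ind (u ∈ cl ω {x}) * gam F q x g (cl ω Y))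
      = Ex F q (fun ω => ind (u ∉ cl ω (insert x Y)) * Psi F q x Y g (cl ω {u})) := by
  have h1 := gam_markov0 F q x Y g (fun B => ind (u ∉ B))
  have h2 := markov F q {u} (fun K ζ => ind (∀ s ∈ insert x Y, s ∉ K) * Phi F q x Y g ζ)
  simp only [Ex_mul_left] at h2
  have h3 : Ex F q (fun ω => ind (u ∉ cl ω (insert x Y)) * Psi F q x Y g (cl ω {u}))
      = Ex F q (fun ω => ind (u ∉ cl ω (insert x Y)) * Phi F q x Y g ω) := by
    simp only [ind_congr (not_mem_cl_iff (S := insert x Y)), Psi]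
    rw [← h2]
    refine Ex_congr fun η _ => ?_
    by_cases hx : ∀ s ∈ insert x Y, s ∉ cl η {u}
    · rw [Phi, Phi, cl_cut fun b hb => hx b (Set.mem_insert_of_mem _ hb),
        cl_cut (B := {x}) fun b hb => hx b (hb ▸ Set.mem_insert _ _)]
    · rw [ind_neg hx, zero_mul, zero_mul]
  rw [h3, ← sub_eq_zero, ← sub_eq_zero.2 h1, ← Ex_sub, ← Ex_sub, ← Ex_sub]
  refine Ex_congr fun ω _ => ?_
  rw [Phi, cl_insert_set]
  by_cases hx : x ∈ cl ω Y
  · simp [ind_neg (not_not.2 hx)]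
  · by_cases h4 : u ∈ cl ω {x}
    · have h5 : u ∉ cl ω Y := fun h => hx (cl_step h (mem_cl_single.1 h4).symm)
      rw [ind_pos h4, ind_pos h5, ind_neg (P := u ∉ cl ω {x} ∪ cl ω Y) (not_not.2 (Or.inl h4))]
      ring
    · rw [ind_neg h4, ind_congr (P := u ∉ cl ω {x} ∪ cl ω Y) (Q := u ∉ cl ω Y) (by simp [h4])]
      ring

theorem cov_step (x : V) (Y : Set V) (g : Set V → ℝ) (u : V) :
    cov F q x Y g u = Ex F q (fun ω => ind (u ∉ cl ω (insert x Y)) * Psi F q x Y g (cl ω {u}))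
      + cov F q x Y (Tg F q x Y g) u := by
  have h1 := gam_markov0 F q x Y g (fun _ => 1)
  have h2 := Tg_markov (F := F) (q := q) x Y g (fun _ => 1)
  have h3 := Tg_markov (F := F) (q := q) x Y g (fun K => ind (u ∈ K))
  simp only [mul_one] at h1 h2
  rw [← within_eq, cov, cov, h1, h2, h3]; ring

theorem Tg_osc (hq : Adm q) (x : V) (Y : Set V) {g : Set V → ℝ} {a M : ℝ}
    (h : ∀ K, a ≤ g K ∧ g K ≤ a + M) :
    ∃ a' : ℝ, ∀ K, a' ≤ Tg F q x Y g K ∧ Tg F q x Y g K ≤ a' + (1 - wt F q ∅) * M := by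
  have hγ : ∀ B, a ≤ gam F q x g B ∧ gam F q x g B ≤ a + M := fun B =>
    ⟨const_le_Ex hq fun _ _ => (h _).1, Ex_le_const hq fun _ _ => (h _).2⟩
  have hc : ∀ K : Set V, cl (cut K ∅) Y = Y := fun K => by
    rw [show cut K (∅ : Finset (Sym2 V)) = ∅ by simp [cut], cl_empty]
  refine ⟨a + wt F q ∅ * (gam F q x g Y - a), fun K => ⟨?_, ?_⟩⟩
  · have := wt_mul_le_Ex (F := F) (f := fun η => gam F q x g (cl (cut K η) Y) - a) hq
      (fun _ _ => sub_nonneg.2 (hγ _).1) (empty_subset _)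
    rw [Ex_sub, Ex_const, hc] at this
    rw [Tg]; linarith
  · have := wt_mul_le_Ex (F := F) (f := fun η => a + M - gam F q x g (cl (cut K η) Y)) hq
      (fun _ _ => sub_nonneg.2 (hγ _).2) (empty_subset _)
    rw [Ex_sub, Ex_const, hc] at this
    rw [Tg]; linarith

theorem cov_abs_le (hq : Adm q) (hq1 : ∀ e ∈ F, q e < 1) {x : V} {Y : Set V} (hx : x ∉ Y)
    {g : Set V → ℝ} {a M : ℝ} (h : ∀ K, a ≤ g K ∧ g K ≤ a + M) (u : V) :
    |cov F q x Y g u| ≤ M := by
  have hM : 0 ≤ M := by linarith [(h ∅).1, (h ∅).2]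
  have hZ := Zp_pos hq hq1 hx
  have hc := cc_mul_Zp hq hq1 hx u
  set A := Ex F q (fun ω => ind (x ∉ cl ω Y) * ind (u ∈ cl ω {x})) with hA
  have hA0 : 0 ≤ A := Ex_nonneg hq fun _ _ => mul_nonneg (ind_nonneg _) (ind_nonneg _)
  have hA1 : A ≤ 1 := Ex_le_const hq fun _ _ =>
    mul_le_one₀ (ind_le_one _) (ind_nonneg _) (ind_le_one _)
  have hc0 : 0 ≤ cc F q x Y u := div_nonneg hA0 hZ.le
  have h1 : A * a ≤ Ex F q (fun ω => ind (x ∉ cl ω Y) * ind (u ∈ cl ω {x}) * g (cl ω {x})) := by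
    rw [hA, ← Ex_mul_right]
    exact Ex_mono hq fun _ _ =>
      mul_le_mul_of_nonneg_left (h _).1 (mul_nonneg (ind_nonneg _) (ind_nonneg _))
  have h2 : Ex F q (fun ω => ind (x ∉ cl ω Y) * ind (u ∈ cl ω {x}) * g (cl ω {x}))
      ≤ A * (a + M) := by
    rw [hA, ← Ex_mul_right]
    exact Ex_mono hq fun _ _ =>
      mul_le_mul_of_nonneg_left (h _).2 (mul_nonneg (ind_nonneg _) (ind_nonneg _))
  have h3 : Zp F q x Y * a ≤ Ex F q (fun ω => ind (x ∉ cl ω Y) * g (cl ω {x})) := by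
    rw [Zp, ← Ex_mul_right]
    exact Ex_mono hq fun _ _ => mul_le_mul_of_nonneg_left (h _).1 (ind_nonneg _)
  have h4 : Ex F q (fun ω => ind (x ∉ cl ω Y) * g (cl ω {x})) ≤ Zp F q x Y * (a + M) := by
    rw [Zp, ← Ex_mul_right]
    exact Ex_mono hq fun _ _ => mul_le_mul_of_nonneg_left (h _).2 (ind_nonneg _)
  have h5 := mul_le_mul_of_nonneg_left h3 hc0
  have h6 := mul_le_mul_of_nonneg_left h4 hc0
  rw [← mul_assoc, hc] at h5 h6
  rw [cov, abs_le]
  constructor <;> nlinarith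

theorem csh (hq : Adm q) (hq1 : ∀ e ∈ F, q e < 1) (D : List V) : CSH F q D := by
  induction hn : D.length using Nat.strong_induction_on generalizing D with
  | _ n ih =>
  intro x Y g o hx hg hD hS
  have hstep : ∀ g : Set V → ℝ, Monotone g →
      Lam F q o D (insert x Y) (cov F q x Y (Tg F q x Y g))
        ≤ Lam F q o D (insert x Y) (cov F q x Y g) := by
    intro g hg
    rw [show cov F q x Y g = _ from funext (cov_step x Y g), Lam_add]
    have := unfold_nonneg hq n (fun D' h => ih _ h D' rfl) (Psi_mono (F := F) hq x Y hg)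
      (Psi_nonneg hq x Y hg) o D hn.le _ hD hS
    linarith
  obtain ⟨C, hC, hb⟩ := Lam_bound (F := F) (q := q) o D (insert x Y)
  have key : ∀ (k : ℕ) (g : Set V → ℝ) (a M : ℝ), Monotone g → (∀ K, a ≤ g K ∧ g K ≤ a + M) →
      -(C * M * (1 - wt F q ∅) ^ k) ≤ Lam F q o D (insert x Y) (cov F q x Y g) := by
    intro k
    induction k with
    | zero =>
      intro g a M _ h
      have := hb _ M (cov_abs_le hq hq1 hx h)
      rw [abs_le] at this
      simpa using this.1
    | succ k ihk =>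
      intro g a M hg h
      obtain ⟨a', h'⟩ := Tg_osc (F := F) hq x Y h
      have := ihk _ a' _ (Tg_mono hq x Y hg) h'
      refine le_trans (le_of_eq ?_) (this.trans (hstep g hg))
      ring
  have hlim : Filter.Tendsto (fun k : ℕ => -(C * (g Set.univ - g ∅) * (1 - wt F q ∅) ^ k))
      Filter.atTop (nhds (-(C * (g Set.univ - g ∅) * 0))) :=
    ((tendsto_pow_atTop_nhds_zero_of_lt_one (by linarith [wt_empty_le_one (F := F) hq])
      (by linarith [wt_empty_pos hq1])).const_mul _).neg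
  have := le_of_tendsto' hlim fun k => key k g (g ∅) (g Set.univ - g ∅) hg fun K =>
    ⟨hg (Set.empty_subset _), by linarith [hg (Set.subset_univ K)]⟩
  simpa using this

theorem Lam_cc_nonneg (hq : Adm q) (hq1 : ∀ e ∈ F, q e < 1) {k : V} {L : Set V} (hk : k ∉ L)
    (o : V) (D : List V) (hD : D.Nodup) (hS : ∀ d ∈ D, d ∉ insert k L) :
    0 ≤ Lam F q o D (insert k L) (cc F q k L) := by
  have hZ := Zp_pos hq hq1 hk
  by_cases ho : o = k
  · rw [Lam_of_mem _ _ _ (ho ▸ Set.mem_insert _ _)]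
    exact div_nonneg (Ex_nonneg hq fun _ _ => mul_nonneg (ind_nonneg _) (ind_nonneg _)) hZ.le
  have hg : Monotone (fun K : Set V => ind (∃ v ∈ K, v ≠ k)) := fun _ _ h =>
    ind_mono fun ⟨v, hv, hvk⟩ => ⟨v, h hv, hvk⟩
  have h1 := csh hq hq1 D k L _ o hk hg hD hS
  set W := Zp F q k L - Ex F q (fun ω => ind (k ∉ cl ω L) * ind (∃ v ∈ cl ω {k}, v ≠ k)) with hW
  have hW0 : 0 < W := by
    have := wt_mul_le_Ex (F := F)
      (f := fun ω => ind (k ∉ cl ω L) - ind (k ∉ cl ω L) * ind (∃ v ∈ cl ω {k}, v ≠ k)) hq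
      (fun ω _ => by nlinarith [ind_nonneg (k ∉ cl ω L), ind_le_one (∃ v ∈ cl ω {k}, v ≠ k)])
      (empty_subset _)
    rw [Ex_sub, cl_empty, cl_empty, ind_pos hk, ind_neg (by simp)] at this
    have h2 := wt_empty_pos (q := q) hq1
    rw [hW, Zp]; linarith
  have h2 : Lam F q o D (insert k L) (cov F q k L fun K => ind (∃ v ∈ K, v ≠ k))
      = W * Lam F q o D (insert k L) (cc F q k L) := by
    rw [← Lam_mul]
    refine Lam_congr _ _ _ fun u hu => ?_
    have huk : u ≠ k := by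
      rcases hu with rfl | hu
      · exact ho
      · exact fun h => hS u hu (h ▸ Set.mem_insert _ _)
    have h3 : Ex F q (fun ω => ind (k ∉ cl ω L) * ind (u ∈ cl ω {k}) * ind (∃ v ∈ cl ω {k}, v ≠ k))
        = Ex F q (fun ω => ind (k ∉ cl ω L) * ind (u ∈ cl ω {k})) := by
      refine Ex_congr fun ω _ => ?_
      by_cases h : u ∈ cl ω {k}
      · rw [ind_pos (P := ∃ v ∈ cl ω {k}, v ≠ k) ⟨u, h, huk⟩, mul_one]
      · rw [ind_neg h]; ring
    rw [cov, h3, ← cc_mul_Zp hq hq1 hk u, hW]; ring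
  rw [h2] at h1
  exact nonneg_of_mul_nonneg_right h1 hW0 |> fun h => by
    by_contra hneg
    push Not at hneg
    nlinarith

/-- the first-relay sum -/
noncomputable def relay (F : Finset (Sym2 V)) (q : Sym2 V → ℝ) (m : V → ℝ) (u : V) : List V → ℝ
  | [] => 0
  | k :: L => m k * Ex F q (fun ω => ind (k ∉ cl ω {v | v ∈ L}) * ind (u ∈ cl ω {k}))
      + relay F q m u L

/-- the surplus -/
noncomputable def Sur (F : Finset (Sym2 V)) (q : Sym2 V → ℝ) (g : Set V → ℝ) (L : List V) (u : V) :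
    ℝ := Ex F q (fun ω => ind (u ∈ cl ω {v | v ∈ L}) * g (cl ω {u}))
      - relay F q (fun k => Ex F q fun ω => g (cl ω {k})) u L

theorem setOf_cons (k : V) (L : List V) : {v | v ∈ k :: L} = insert k {v | v ∈ L} := by
  ext v; simp

theorem split_hit (Ψ : Set V → ℝ) (d u : V) (S : Set V) :
    Ex F q (fun ω => ind (u ∈ cl ω (insert d S)) * Ψ (cl ω {u})) =
      Ex F q (fun ω => ind (u ∈ cl ω S) * Ψ (cl ω {u}))
        + Ex F q (fun ω => ind (d ∉ cl ω S) * ind (u ∈ cl ω {d}) * Ψ (cl ω {d})) := by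
  have h := split_avoid (F := F) (q := q) Ψ d u S
  simp only [ind_not (u ∈ _), sub_mul, one_mul, Ex_sub] at h
  linarith

theorem relay_le (hq : Adm q) (m : V → ℝ) (u : V) (c : ℝ) (L : List V) (h : ∀ k ∈ L, m k ≤ c) :
    relay F q m u L ≤ c * Ex F q (fun ω => ind (u ∈ cl ω {v | v ∈ L})) := by
  induction L with
  | nil => simp [relay, cl, ind]
  | cons k L ih =>
    have h1 := split_hit (F := F) (q := q) (fun _ => 1) k u {v | v ∈ L}
    simp only [mul_one] at h1
    rw [relay, setOf_cons, h1]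
    have h2 := ih fun k' hk' => h k' (List.mem_cons_of_mem _ hk')
    have h3 : 0 ≤ Ex F q (fun ω => ind (k ∉ cl ω {v | v ∈ L}) * ind (u ∈ cl ω {k})) :=
      Ex_nonneg hq fun _ _ => mul_nonneg (ind_nonneg _) (ind_nonneg _)
    nlinarith [h k List.mem_cons_self]

theorem le_relay (hq : Adm q) (m : V → ℝ) (u : V) (c : ℝ) (L : List V) (h : ∀ k ∈ L, c ≤ m k) :
    c * Ex F q (fun ω => ind (u ∈ cl ω {v | v ∈ L})) ≤ relay F q m u L := by
  induction L with
  | nil => simp [relay, cl, ind]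
  | cons k L ih =>
    have h1 := split_hit (F := F) (q := q) (fun _ => 1) k u {v | v ∈ L}
    simp only [mul_one] at h1
    rw [relay, setOf_cons, h1]
    have h2 := ih fun k' hk' => h k' (List.mem_cons_of_mem _ hk')
    have h3 : 0 ≤ Ex F q (fun ω => ind (k ∉ cl ω {v | v ∈ L}) * ind (u ∈ cl ω {k})) :=
      Ex_nonneg hq fun _ _ => mul_nonneg (ind_nonneg _) (ind_nonneg _)
    nlinarith [h k List.mem_cons_self]

theorem sur_nonneg (hq : Adm q) (hq1 : ∀ e ∈ F, q e < 1) {g : Set V → ℝ} (hg : Monotone g)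
    (o : V) (L : List V) (hL : L.Nodup)
    (hs : L.Pairwise fun a b => Ex F q (fun ω => g (cl ω {b})) ≤ Ex F q (fun ω => g (cl ω {a})))
    (D : List V) (hD : D.Nodup) (hS : ∀ d ∈ D, d ∉ L) :
    0 ≤ Lam F q o D {v | v ∈ L} (Sur F q g L) := by
  induction L generalizing D with
  | nil =>
    have : Sur F q g [] = fun _ => 0 * 0 := by funext u; simp [Sur, relay, cl, ind]
    rw [this, Lam_mul]; simp
  | cons k L ih =>
    have hL' := List.nodup_cons.1 hL
    have hs' := List.pairwise_cons.1 hs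
    have hk : k ∉ {v | v ∈ L} := hL'.1
    have hS' : ∀ d ∈ D, d ∉ insert k {v | v ∈ L} := fun d hd h => hS d hd (by simpa using h)
    have h1 := ih hL'.2 hs'.2 (k :: D)
      (List.nodup_cons.2 ⟨fun h => hS k h List.mem_cons_self, hD⟩)
      (fun d hd => by
        rcases List.mem_cons.1 hd with rfl | hd
        · exact hL'.1
        · exact fun h => hS d hd (List.mem_cons_of_mem _ h))
    rw [Lam] at h1
    set mk := Ex F q (fun ω => g (cl ω {k})) with hmk
    set κ := mk * Zp F q k {v | v ∈ L}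
      - Ex F q (fun ω => ind (k ∉ cl ω {v | v ∈ L}) * g (cl ω {k})) with hκ
    have hκ2 : κ ≤ Sur F q g L k := by
      have h2 := relay_le (F := F) hq (fun k => Ex F q fun ω => g (cl ω {k})) k mk L hs'.1
      simp only [hκ, Sur, Zp, ind_not (k ∈ _), sub_mul, one_mul, Ex_sub, Ex_const]
      rw [← hmk]
      linarith
    have e : Sur F q g (k :: L) = fun u =>
        (Sur F q g L u - cc F q k {v | v ∈ L} u * Sur F q g L k)
          + ((Sur F q g L k - κ) * cc F q k {v | v ∈ L} u + cov F q k {v | v ∈ L} g u) := by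
      funext u
      rw [Sur, setOf_cons, split_hit, relay, cov, ← cc_mul_Zp hq hq1 hk u, hκ, ← hmk]
      simp only [Sur]
      ring
    rw [e, setOf_cons, Lam_add, Lam_add, Lam_mul]
    exact add_nonneg h1 (add_nonneg
      (mul_nonneg (sub_nonneg.2 hκ2) (Lam_cc_nonneg hq hq1 hk o D hD hS'))
      (csh hq hq1 D k _ g o hk hg hD hS'))

theorem glue_lt (hq : Adm q) (hq1 : ∀ e ∈ F, q e < 1) (o : V) (A T : Finset V) (c : ℝ)
    (h : ∀ a ∈ A, c ≤ Ex F q fun ω => ind (ConnTo ω a T)) :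
    c * Ex F q (fun ω => ind (ConnTo ω o A)) ≤ Ex F q fun ω => ind (ConnTo ω o T) := by
  have hg : Monotone (fun K : Set V => ind (∃ t ∈ T, t ∈ K)) := fun _ _ h =>
    ind_mono fun ⟨v, hv, hvk⟩ => ⟨v, hv, h hvk⟩
  have e : ∀ u ω, ind (∃ t ∈ T, t ∈ cl ω {u}) = ind (ConnTo ω u T) := fun u ω =>
    ind_congr (by simp [ConnTo, mem_cl_single])
  set m : V → ℝ := fun a => Ex F q fun ω => ind (ConnTo ω a T) with hm
  classical
  set L := A.toList.mergeSort (fun a b => decide (m b ≤ m a)) with hL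
  have hp : L.Perm A.toList := List.mergeSort_perm _ _
  have hmem : ∀ v, v ∈ L ↔ v ∈ A := fun v => by rw [hp.mem_iff, mem_toList]
  have hs : L.Pairwise fun a b => m b ≤ m a := by
    have := List.pairwise_mergeSort (le := fun a b => decide (m b ≤ m a))
      (fun a b c h1 h2 => by simp only [decide_eq_true_eq] at *; exact h2.trans h1)
      (fun a b => by simpa using le_total (m b) (m a)) A.toList
    simpa using this
  have h1 := sur_nonneg hq hq1 hg o L (hp.nodup_iff.2 (nodup_toList A)) (by simpa only [e] using hs)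
    [] List.nodup_nil (by simp)
  have h2 := le_relay (F := F) hq m o c L fun k hk => h k ((hmem k).1 hk)
  simp only [Lam, Sur, e] at h1
  have h3 : ∀ ω, ind (o ∈ cl ω {v | v ∈ L}) = ind (ConnTo ω o A) := fun ω =>
    ind_congr ⟨fun ⟨a, ha, hc⟩ => ⟨a, (hmem a).1 ha, hc.symm⟩,
      fun ⟨a, ha, hc⟩ => ⟨a, (hmem a).2 ha, hc.symm⟩⟩
  simp only [h3] at h1 h2
  have h4 : Ex F q (fun ω => ind (ConnTo ω o A) * ind (ConnTo ω o T))
      ≤ Ex F q fun ω => ind (ConnTo ω o T) :=
    Ex_mono hq fun ω _ => by nlinarith [ind_le_one (ConnTo ω o A), ind_nonneg (ConnTo ω o T)]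
  rw [← hm] at h1
  linarith

theorem glue_le (hq : Adm q) (o : V) (A T : Finset V) (c : ℝ)
    (h : ∀ a ∈ A, c ≤ Ex F q fun ω => ind (ConnTo ω a T)) :
    c * Ex F q (fun ω => ind (ConnTo ω o A)) ≤ Ex F q fun ω => ind (ConnTo ω o T) := by
  have hc : ∀ f : Finset (Sym2 V) → ℝ, Filter.Tendsto (fun t : ℝ => Ex F (fun e => t * q e) f)
      (nhdsWithin 1 (Set.Ico 0 1)) (nhds (Ex F q f)) := by
    intro f
    have := (continuous_Ex F (fun t e => t * q e) (fun e => by fun_prop) f).tendsto 1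
    simp only [one_mul] at this
    exact this.mono_left nhdsWithin_le_nhds
  have hne : (nhdsWithin (1 : ℝ) (Set.Ico 0 1)).NeBot := by
    rw [← mem_closure_iff_nhdsWithin_neBot, closure_Ico zero_ne_one]
    exact ⟨zero_le_one, le_rfl⟩
  refine le_of_forall_lt_imp_le_of_dense fun b hb => ?_
  obtain ⟨c', hc', hb'⟩ : ∃ c', c' < c ∧ b ≤ c' * Ex F q (fun ω => ind (ConnTo ω o A)) := by
    have ht : Filter.Tendsto (fun c' : ℝ => c' * Ex F q (fun ω => ind (ConnTo ω o A)))
        (nhdsWithin c (Set.Iio c)) (nhds (c * Ex F q (fun ω => ind (ConnTo ω o A)))) :=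
      ((continuous_id.mul continuous_const).tendsto c).mono_left nhdsWithin_le_nhds
    obtain ⟨c', h1, h2⟩ := ((ht.eventually (lt_mem_nhds hb)).and self_mem_nhdsWithin).exists
    exact ⟨c', h2, h1.le⟩
  refine hb'.trans (le_of_tendsto_of_tendsto ((hc _).const_mul c') (hc _) ?_)
  have h1 : ∀ᶠ t in nhdsWithin (1 : ℝ) (Set.Ico 0 1), ∀ a ∈ A,
      c' ≤ Ex F (fun e => t * q e) fun ω => ind (ConnTo ω a T) := by
    rw [Filter.eventually_all_finset]
    intro a ha
    exact ((hc _).eventually (lt_mem_nhds (hc'.trans_le (h a ha)))).mono fun _ h => h.le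
  filter_upwards [h1, self_mem_nhdsWithin] with t h2 ht
  refine glue_lt (fun e => ⟨mul_nonneg ht.1 (hq e).1, ?_⟩) (fun e _ => ?_) o A T c' h2
  · exact mul_le_one₀ ht.2.le (hq e).1 (hq e).2
  · nlinarith [(hq e).1, (hq e).2, ht.1, ht.2]

theorem Ex_base {E : Type} [DecidableEq E] (D ξ : Finset E) (p : ℝ) (f : Finset E → ℝ) :
    Ex D (fun _ => p) (fun ω => f (ξ ∪ ω)) = Ex (ξ ∪ D) (fun e => if e ∈ ξ then 1 else p) f := by
  have h1 : ∀ (q : E → ℝ) (ξ : Finset E), (∀ e ∈ ξ, q e = 1) → ∀ g : Finset E → ℝ,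
      Ex ξ q g = g ξ := by
    intro q ξ
    induction ξ using Finset.induction_on with
    | empty => simp
    | insert e ξ he ih =>
      intro h g
      rw [Ex_insert he, h e (mem_insert_self _ _), ih (fun e' h' => h e' (mem_insert_of_mem h'))]
      ring
  rw [← union_sdiff_self_eq_union, Ex_union disjoint_sdiff, h1 _ _ (fun e he => if_pos he),
    Ex_congr_q (q' := fun _ => p) (fun e he => if_neg (mem_sdiff.1 he).2),
    ← Ex_inter (F := D) sdiff_subset]
  refine Ex_congr fun ω hω => ?_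
  congr 1
  ext e
  simp only [mem_union, mem_inter, mem_sdiff]
  have := @hω e
  tauto

end GlueAux

/-- The gluing inequality. -/
theorem glue {V : Type} [DecidableEq V] (D ξ : Finset (Sym2 V)) {p : ℝ} (h0 : 0 ≤ p) (h1 : p ≤ 1)
    (o : V) (A T : Finset V) (γ : ℝ) (h : ∀ a ∈ A, 1 - γ ≤ hit D p ξ a T) :
    (1 - γ) * hit D p ξ o A ≤ hit D p ξ o T := by
  have e : ∀ u S, hit D p ξ u S = Ex (ξ ∪ D) (fun e => if e ∈ ξ then 1 else p)
      (fun ω => ind (ConnTo ω u S)) := fun u S =>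
    GlueAux.Ex_base D ξ p (fun ω => ind (ConnTo ω u S))
  simp only [e] at h ⊢
  refine GlueAux.glue_le (fun e => ?_) o A T _ h
  split_ifs
  · exact ⟨zero_le_one, le_rfl⟩
  · exact ⟨h0, h1⟩

end Vale.Agent.P151
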