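import Mathlib
import Vale.Agent.P151.Glue

namespace Vale.Agent.P151

open Finset

namespace TargetAux

set_option linter.unusedSectionVars false

variable {V : Type} [DecidableEq V] {G : SimpleGraph V}

section Balls

variable [G.LocallyFinite]

theorem card_nb {Δ : ℕ} (hΔ : ∀ v, G.degree v ≤ Δ) (B : Finset V) :
    (nb G B).card ≤ (Δ + 1) * B.card := by
  have h1 : (B.biUnion fun v => G.neighborFinset v).card ≤ B.card * Δ :=
    card_biUnion_le_card_mul _ _ _ fun v _ => hΔ v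
  have h2 := card_union_le B (B.biUnion fun v => G.neighborFinset v)
  unfold nb
  nlinarith

theorem card_nbk {Δ : ℕ} (hΔ : ∀ v, G.degree v ≤ Δ) (k : ℕ) (v : V) :
    (nbk G k {v}).card ≤ (Δ + 1) ^ k := by
  induction k with
  | zero => simp [nbk_zero]
  | succ k ih =>
    rw [nbk_succ, pow_succ']
    exact (card_nb hΔ _).trans (Nat.mul_le_mul_left _ ih)

theorem nbk_trans {k l : ℕ} {x y z : V} (h1 : x ∈ nbk G k {y}) (h2 : y ∈ nbk G l {z}) :
    x ∈ nbk G (k + l) {z} := by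
  rw [nbk_add]
  exact nbk_mono G k (singleton_subset_iff.2 h2) h1

theorem nbk_symm {k : ℕ} {x y : V} (h : x ∈ nbk G k {y}) : y ∈ nbk G k {x} := by
  induction k generalizing x with
  | zero =>
    rw [nbk_zero, mem_singleton] at h ⊢
    exact h.symm
  | succ k ih =>
    rw [nbk_succ, mem_nb] at h
    rcases h with h | ⟨b, hb, h⟩
    · exact nbk_mono_left G (Nat.le_succ k) _ (ih h)
    · refine nbk_trans (ih hb) (l := 1) ?_
      rw [nbk_succ, nbk_zero, mem_nb]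
      exact Or.inr ⟨x, mem_singleton_self x, h.symm⟩

theorem self_mem_nbk (k : ℕ) (x : V) : x ∈ nbk G k {x} :=
  nbk_mono_left G (Nat.zero_le k) _ (mem_singleton_self x)

end Balls

theorem card_Ein (W : Finset V) {n : ℕ} (h : W.card ≤ n) :
    (Ein G W).card ≤ (n + 1).choose 2 := by
  have h1 : Ein G W ⊆ W.sym2 := fun e he => mem_sym2_iff.2 (mem_Ein.1 he).2
  calc (Ein G W).card ≤ W.sym2.card := card_le_card h1
    _ = (W.card + 1).choose 2 := card_sym2 W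
    _ ≤ _ := Nat.choose_le_choose 2 (by omega)

theorem disjoint_Ein {W W' : Finset V} (h : Disjoint W W') : Disjoint (Ein G W) (Ein G W') := by
  rw [disjoint_left]
  intro e he he'
  induction e using Sym2.ind with
  | h x y => exact disjoint_left.1 h (mk_mem_Ein.1 he).1 (mk_mem_Ein.1 he').1

/-- greedy choice of a separated family -/
theorem greedy (X : Finset V) (N : V → Finset V) (K : ℕ) (hK : 0 < K) (hN : ∀ x, (N x).card ≤ K)
    (hself : ∀ x, x ∈ N x) (hsymm : ∀ x y, x ∈ N y → y ∈ N x) (k : ℕ) (hk : k * K ≤ X.card) :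
    ∃ S, S ⊆ X ∧ S.card = k ∧ ∀ x ∈ S, ∀ y ∈ S, x ≠ y → x ∉ N y := by
  induction k with
  | zero => exact ⟨∅, empty_subset _, rfl, by simp⟩
  | succ k ih =>
    obtain ⟨S, hSX, hS, hsep⟩ := ih (le_trans (Nat.mul_le_mul_right K (Nat.le_succ k)) hk)
    have h1 : (S.biUnion N).card ≤ k * K := hS ▸ card_biUnion_le_card_mul _ _ _ fun x _ => hN x
    by_cases hX : X ⊆ S.biUnion N
    · have h2 := card_le_card hX
      nlinarith
    · obtain ⟨x, hx, hx'⟩ := not_subset.1 hX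
      have hxN : ∀ y ∈ S, x ∉ N y := fun y hy h => hx' (mem_biUnion.2 ⟨y, hy, h⟩)
      have hxS : x ∉ S := fun h => hxN x h (hself x)
      refine ⟨insert x S, insert_subset hx hSX, by rw [card_insert_of_notMem hxS, hS], ?_⟩
      intro a ha b hb hab
      rcases mem_insert.1 ha with rfl | ha' <;> rcases mem_insert.1 hb with rfl | hb'
      · exact absurd rfl hab
      · exact hxN b hb'
      · exact fun h => hxN a ha' (hsymm _ _ h)
      · exact hsep a ha' b hb' hab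

/-- a subfamily with prescribed total weight -/
theorem sub_weight (S : Finset V) (w : V → ℝ) (hw : ∀ x, w x ≤ 1) {C : ℝ} (hC : 0 ≤ C)
    (h : C ≤ ∑ x ∈ S, w x) : ∃ S', S' ⊆ S ∧ C ≤ ∑ x ∈ S', w x ∧ ∑ x ∈ S', w x ≤ C + 1 := by
  induction S using Finset.induction_on with
  | empty => exact ⟨∅, Subset.rfl, h, by simp; linarith⟩
  | insert x S hx ih =>
    by_cases h1 : C ≤ ∑ x ∈ S, w x
    · obtain ⟨S', h2, h3⟩ := ih h1
      exact ⟨S', h2.trans (subset_insert _ _), h3⟩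
    · refine ⟨insert x S, Subset.rfl, h, ?_⟩
      rw [sum_insert hx]
      linarith [hw x, not_le.1 h1]

/-- no block of a disjoint family is fully open -/
theorem Ex_no_block {E : Type} [DecidableEq E] (p : ℝ) (σ : V → Finset E) (S : Finset V)
    (F : Finset E) (hF : ∀ x ∈ S, σ x ⊆ F)
    (hd : ∀ x ∈ S, ∀ y ∈ S, x ≠ y → Disjoint (σ x) (σ y)) :
    Ex F (fun _ => p) (fun ω => ind (∀ x ∈ S, ¬ σ x ⊆ ω)) = ∏ x ∈ S, (1 - p ^ (σ x).card) := by
  induction S using Finset.induction_on generalizing F with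
  | empty => simp [ind_pos]
  | insert x S hx ih =>
    have hxF : σ x ⊆ F := hF x (mem_insert_self _ _)
    have hS : ∀ y ∈ S, σ y ⊆ F \ σ x := fun y hy =>
      subset_sdiff.2 ⟨hF y (mem_insert_of_mem hy),
        hd y (mem_insert_of_mem hy) x (mem_insert_self _ _) fun h => hx (h ▸ hy)⟩
    have h1 := Ex_indep hxF (sdiff_subset (t := σ x)) disjoint_sdiff (fun _ => p)
      (fun ω => ind (¬ σ x ⊆ ω)) (fun ω => ind (∀ y ∈ S, ¬ σ y ⊆ ω))
    have h2 : Ex (σ x) (fun _ => p) (fun ω => ind (¬ σ x ⊆ ω)) = 1 - p ^ (σ x).card := by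
      simp only [ind_not]
      rw [Ex_sub, Ex_const, Ex_all Subset.rfl, prod_const]
    rw [prod_insert hx, ← ih (F \ σ x) hS
      (fun a ha b hb => hd a (mem_insert_of_mem ha) b (mem_insert_of_mem hb)), ← h2, ← h1]
    refine Ex_congr fun ω _ => ?_
    rw [← ind_and]
    refine ind_congr ?_
    rw [forall_mem_insert]
    refine and_congr (by simp [subset_inter_iff]) (forall₂_congr fun y hy => ?_)
    simp [subset_inter_iff, hS y hy]

theorem prod_le_inv (S : Finset V) (w : V → ℝ) (hw : ∀ x, w x ≤ 1) {C : ℝ} (hC : 0 < C)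
    (h : C ≤ ∑ x ∈ S, w x) : ∏ x ∈ S, (1 - w x) ≤ 1 / C := by
  calc ∏ x ∈ S, (1 - w x) ≤ ∏ x ∈ S, Real.exp (-w x) :=
        prod_le_prod (fun x _ => sub_nonneg.2 (hw x)) fun x _ => Real.one_sub_le_exp_neg _
    _ = Real.exp (-∑ x ∈ S, w x) := by rw [← Real.exp_sum, sum_neg_distrib]
    _ ≤ Real.exp (-C) := Real.exp_le_exp.2 (by linarith)
    _ ≤ 1 / C := by
      rw [Real.exp_neg, one_div]
      exact inv_anti₀ hC (by linarith [Real.add_one_le_exp C])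

open Classical in
/-- the contact points -/
noncomputable def Cnt (ξ : Finset (Sym2 V)) (o : V) (U : Finset V) (ω : Finset (Sym2 V)) :
    Finset V := U.filter fun x => Conn (ξ ∪ ω) o x

theorem mem_Cnt {ξ ω : Finset (Sym2 V)} {o x : V} {U : Finset V} :
    x ∈ Cnt ξ o U ω ↔ x ∈ U ∧ Conn (ξ ∪ ω) o x := by simp [Cnt]

theorem Ex_out_in {E : Type} [DecidableEq E] {D I : Finset E} (h : I ⊆ D) (q : E → ℝ)
    (f : Finset E → ℝ) :
    Ex D q f = Ex (D \ I) q (fun ωo => Ex I q (fun ωi => f (ωi ∪ ωo))) := by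
  rw [Ex_split h, Ex_comm]

theorem sub_out (ξ ωi ωo : Finset (Sym2 V)) : ξ ∪ ωo ⊆ ξ ∪ (ωi ∪ ωo) :=
  union_subset_union Subset.rfl subset_union_right

theorem hit_eq_Cnt {D ξ : Finset (Sym2 V)} {U : Finset V} (h : Ein G U ⊆ D) (p : ℝ) (o : V) :
    hit D p ξ o U = Ex (D \ Ein G U) (fun _ => p) (fun ω => ind (Cnt ξ o U ω).Nonempty) := by
  rw [hit, Ex_out_in h]
  refine Ex_congr fun ωo _ => ?_
  rw [← Ex_const (Ein G U) (fun _ => p) (ind (Cnt ξ o U ωo).Nonempty)]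
  refine Ex_congr fun ωi hi => ind_congr ⟨fun hc => ?_, fun ⟨x, hx⟩ => ?_⟩
  · obtain ⟨x, hx, hc'⟩ := connTo_sdiff (G := G) hc
    refine ⟨x, mem_Cnt.2 ⟨hx, hc'.mono fun e he => ?_⟩⟩
    have h1 := mem_sdiff.1 he
    rcases mem_union.1 h1.1 with h2 | h2
    · exact mem_union_left _ h2
    · rcases mem_union.1 h2 with h3 | h3
      · exact absurd (hi h3) h1.2
      · exact mem_union_right _ h3
  · exact ⟨x, (mem_Cnt.1 hx).1, (mem_Cnt.1 hx).2.mono (sub_out _ _ _)⟩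

variable [G.LocallyFinite]

/-- few contacts are killed with positive probability -/
theorem step_one {Δ k : ℕ} (hΔ : ∀ v, G.degree v ≤ Δ) {p η : ℝ} (h0 : 0 ≤ p) (h1 : p ≤ 1)
    (hη : η ≤ (1 - p) ^ (Δ * k)) {D ξ : Finset (Sym2 V)} {o : V} {U' U : Finset V}
    (hdis : Disjoint ξ D) (hξ : (↑ξ : Set (Sym2 V)) ⊆ G.edgeSet)
    (hD : (↑D : Set (Sym2 V)) ⊆ G.edgeSet) (hU : nb G U' ⊆ U) (ho : o ∉ U')
    (hI : Ein G U ⊆ D) :
    hit D p ξ o U' + η * Ex (D \ Ein G U) (fun _ => p)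
      (fun ω => ind ((Cnt ξ o U ω).Nonempty ∧ (Cnt ξ o U ω).card < k)) ≤ hit D p ξ o U := by
  have hq : Adm (fun _ : Sym2 V => p) := adm_const h0 h1
  have hU' : U' ⊆ U := subset_union_left.trans hU
  rw [hit, hit, Ex_out_in hI, Ex_out_in hI, ← Ex_mul_left, ← Ex_add]
  refine Ex_mono hq fun ωo ho' => ?_
  by_cases hc : (Cnt ξ o U ωo).Nonempty ∧ (Cnt ξ o U ωo).card < k
  swap
  · rw [ind_neg hc, mul_zero, add_zero]
    exact Ex_mono hq fun ωi _ => ind_mono (ConnTo.mono Subset.rfl hU')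
  set Z := ((Cnt ξ o U ωo).biUnion fun c => G.incidenceFinset c) ∩ Ein G U with hZ
  have hZc : Z.card ≤ Δ * k := by
    calc Z.card ≤ ((Cnt ξ o U ωo).biUnion fun c => G.incidenceFinset c).card :=
          card_le_card inter_subset_left
      _ ≤ (Cnt ξ o U ωo).card * Δ := card_biUnion_le_card_mul _ _ _ fun c _ => by
          rw [SimpleGraph.card_incidenceFinset_eq_degree]; exact hΔ c
      _ ≤ Δ * k := by rw [mul_comm]; exact Nat.mul_le_mul_left _ hc.2.le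
  have hZp : η ≤ Ex (Ein G U) (fun _ => p) (fun ω => ind (Disjoint ω Z)) := by
    rw [Ex_none inter_subset_right, prod_const]
    exact hη.trans (pow_le_pow_of_le_one (by linarith) (by linarith) hZc)
  rw [ind_pos hc, mul_one]
  refine le_trans (add_le_add_right hZp _) ?_
  rw [← Ex_add]
  refine Ex_mono hq fun ωi hi => ?_
  obtain ⟨c, hcc⟩ := hc.1
  rw [ind_pos (P := ConnTo (ξ ∪ (ωi ∪ ωo)) o U)
    ⟨c, (mem_Cnt.1 hcc).1, (mem_Cnt.1 hcc).2.mono (sub_out _ _ _)⟩]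
  by_cases hd : Disjoint ωi Z
  swap
  · rw [ind_neg hd, add_zero]
    exact ind_le_one _
  rw [ind_pos hd, ind_neg, zero_add]
  rintro ⟨y, hy, hcy⟩
  have key : ∀ z, Conn (ξ ∪ (ωi ∪ ωo)) o z → Conn (ξ ∪ ωo) o z := by
    intro z hz
    induction hz with
    | refl => exact Conn.refl _ _
    | @tail b c' _ h2 ih =>
      refine Conn.trans ih (Conn.single ?_)
      rcases mem_union.1 h2 with h3 | h3
      · exact mem_union_left _ h3
      · rcases mem_union.1 h3 with h4 | h4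
        · exfalso
          have h5 := mk_mem_Ein.1 (hi h4)
          refine disjoint_left.1 hd h4 (mem_inter.2 ⟨mem_biUnion.2 ⟨b, mem_Cnt.2 ⟨h5.1, ih⟩, ?_⟩,
            hi h4⟩)
          rw [SimpleGraph.mem_incidenceFinset]
          exact ⟨h5.2.2, Sym2.mem_mk_left _ _⟩
        · exact mem_union_right _ h4
  rcases Relation.ReflTransGen.cases_tail (key y hcy) with h2 | ⟨x, _, h2⟩
  · exact ho (h2 ▸ hy)
  · have hadj : G.Adj x y := by
      rcases mem_union.1 h2 with h3 | h3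
      · exact hξ h3
      · exact hD (mem_sdiff.1 (ho' h3)).1
    have hx : x ∈ U := hU (mem_nb.2 (Or.inr ⟨y, hy, hadj.symm⟩))
    have he : s(x, y) ∈ Ein G U := mk_mem_Ein.2 ⟨hx, hU' hy, hadj⟩
    rcases mem_union.1 h2 with h3 | h3
    · exact disjoint_left.1 hdis h3 (hI he)
    · exact (mem_sdiff.1 (ho' h3)).2 he

omit [G.LocallyFinite] in
theorem hitS_split {D I ξ : Finset (Sym2 V)} (h : I ⊆ D) (p : ℝ) (A T : Finset V) :
    hitS D p ξ A T = Ex I (fun _ => p) (fun ω => hitS (D \ I) p (ξ ∪ ω) A T) := by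
  rw [hitS, Ex_split h]
  simp only [hitS, union_assoc]

omit [G.LocallyFinite] in
theorem hit_split {D I ξ : Finset (Sym2 V)} (h : I ⊆ D) (p : ℝ) (o : V) (T : Finset V) :
    hit D p ξ o T = Ex I (fun _ => p) (fun ω => hit (D \ I) p (ξ ∪ ω) o T) := by
  rw [hit, Ex_split h]
  simp only [hit, union_assoc]

/-- many contacts contain a good seed -/
theorem step_three {Δ m k' : ℕ} (hΔ : ∀ v, G.degree v ≤ Δ) {p q0 C γ δ : ℝ} (h0 : 0 ≤ p)
    (h1 : p ≤ 1) (hq0 : q0 ≤ p ^ (((Δ + 1) ^ m + 1).choose 2)) (hC : 0 < C) (hk' : C ≤ k' * q0)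
    (hγ : 0 < γ) (hδ : 0 ≤ δ) (I : Finset (Sym2 V)) (v : V → V) (X : Finset V)
    (hX : ∀ x ∈ X, x ∈ nbk G m {v x} ∧ Ein G (nbk G m {v x}) ⊆ I)
    (hcard : k' * (Δ + 1) ^ (4 * m) ≤ X.card) (Y : V → Finset (Sym2 V) → ℝ)
    (hY0 : ∀ x ω, 0 ≤ Y x ω) (hYa : ∀ x, Antitone (Y x))
    (hY : ∀ x ∈ X, Ex I (fun _ => p) (Y x) ≤ δ) :
    1 - 1 / C - (C + 1) * (δ / γ) ≤
      Ex I (fun _ => p) (fun ω => ind (∃ x ∈ X, Ein G (nbk G m {v x}) ⊆ ω ∧ Y x ω ≤ γ)) := by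
  have hq : Adm (fun _ : Sym2 V => p) := adm_const h0 h1
  obtain ⟨S₀, hS₀X, hS₀, hsep⟩ := greedy X (fun x => nbk G (4 * m) {x}) ((Δ + 1) ^ (4 * m))
    (by positivity) (fun x => card_nbk hΔ _ x) (fun x => self_mem_nbk _ x)
    (fun x y h => nbk_symm h) k' hcard
  set w : V → ℝ := fun x => p ^ (Ein G (nbk G m {v x})).card with hw
  have hw1 : ∀ x, w x ≤ 1 := fun x => pow_le_one₀ h0 h1
  have hw0 : ∀ x, q0 ≤ w x := fun x =>
    hq0.trans (pow_le_pow_of_le_one h0 h1 (card_Ein _ (card_nbk hΔ m _)))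
  have hsum : C ≤ ∑ x ∈ S₀, w x := by
    have := card_nsmul_le_sum S₀ w q0 fun x _ => hw0 x
    rw [hS₀, nsmul_eq_mul] at this
    linarith
  obtain ⟨S, hSS, hS1, hS2⟩ := sub_weight S₀ w hw1 hC.le hsum
  have hSX : S ⊆ X := hSS.trans hS₀X
  have hd : ∀ x ∈ S, ∀ y ∈ S, x ≠ y →
      Disjoint (Ein G (nbk G m {v x})) (Ein G (nbk G m {v y})) := by
    intro x hx y hy hxy
    refine disjoint_Ein (disjoint_left.2 fun z hz hz' => hsep x (hSS hx) y (hSS hy) hxy ?_)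
    have h2 := nbk_trans (nbk_trans (nbk_trans (hX x (hSX hx)).1 (nbk_symm hz)) hz')
      (nbk_symm (hX y (hSX hy)).1)
    rwa [show m + m + m + m = 4 * m by ring] at h2
  have hA := Ex_no_block p (fun x => Ein G (nbk G m {v x})) S I (fun x hx => (hX x (hSX hx)).2) hd
  have hB := prod_le_inv S w hw1 hC hS1
  have hE : ∀ x ∈ S, Ex I (fun _ => p)
      (fun ω => ind (Ein G (nbk G m {v x}) ⊆ ω) * ind (γ < Y x ω)) ≤ w x * (δ / γ) := by
    intro x hx
    refine le_trans (harris_anti hq I (fun a b hab => ind_mono fun h => h.trans hab)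
      (fun a b hab => ind_mono fun h => h.trans_le (hYa x hab))) ?_
    rw [Ex_all (hX x (hSX hx)).2, prod_const]
    refine mul_le_mul_of_nonneg_left ?_ (pow_nonneg h0 _)
    exact (Ex_ind_le_div hq hγ fun ω _ => hY0 x ω).trans
      (div_le_div_of_nonneg_right (hY x (hSX hx)) hγ.le)
  have hF := sum_le_sum hE
  rw [← Ex_sum, ← sum_mul] at hF
  have hG : (∑ x ∈ S, w x) * (δ / γ) ≤ (C + 1) * (δ / γ) :=
    mul_le_mul_of_nonneg_right hS2 (by positivity)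
  have hH : Ex I (fun _ => p) (fun ω => 1 - ind (∀ x ∈ S, ¬ Ein G (nbk G m {v x}) ⊆ ω) -
      ∑ x ∈ S, ind (Ein G (nbk G m {v x}) ⊆ ω) * ind (γ < Y x ω)) ≤
      Ex I (fun _ => p) (fun ω => ind (∃ x ∈ X, Ein G (nbk G m {v x}) ⊆ ω ∧ Y x ω ≤ γ)) := by
    refine Ex_mono hq fun ω _ => ?_
    have hnn : 0 ≤ ∑ x ∈ S, ind (Ein G (nbk G m {v x}) ⊆ ω) * ind (γ < Y x ω) :=
      sum_nonneg fun x _ => mul_nonneg (ind_nonneg _) (ind_nonneg _)
    by_cases h2 : ∃ x ∈ X, Ein G (nbk G m {v x}) ⊆ ω ∧ Y x ω ≤ γ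
    · rw [ind_pos h2]
      linarith [ind_nonneg (∀ x ∈ S, ¬ Ein G (nbk G m {v x}) ⊆ ω)]
    rw [ind_neg h2]
    by_cases h3 : ∀ x ∈ S, ¬ Ein G (nbk G m {v x}) ⊆ ω
    · rw [ind_pos h3]
      linarith
    rw [ind_neg h3]
    push Not at h2 h3
    obtain ⟨x, hx, h4⟩ := h3
    have h5 := single_le_sum
      (f := fun x => ind (Ein G (nbk G m {v x}) ⊆ ω) * ind (γ < Y x ω))
      (fun x _ => mul_nonneg (ind_nonneg _) (ind_nonneg _)) hx
    simp only [ind_pos h4, ind_pos (h2 x (hSX hx) h4)] at h5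
    linarith
  rw [Ex_sub, Ex_sub, Ex_const, hA] at hH
  linarith

/-- gluing to the good seeds -/
theorem step_two {m k : ℕ} {p γ θ : ℝ} (h0 : 0 ≤ p) (h1 : p ≤ 1) (hγ : γ ≤ 1)
    {D ξ : Finset (Sym2 V)} {o : V} {U T : Finset V} (hI : Ein G U ⊆ D) (v : V → V)
    (hv : ∀ x ∈ U, x ∈ nbk G m {v x})
    (h3 : ∀ X, X ⊆ U → k ≤ X.card → θ ≤ Ex (Ein G U) (fun _ => p) (fun ω => ind (∃ x ∈ X,
      Ein G (nbk G m {v x}) ⊆ ω ∧ 1 - hitS (D \ Ein G U) p (ξ ∪ ω) (nbk G m {v x}) T ≤ γ))) :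
    (1 - γ) * (θ * Ex (D \ Ein G U) (fun _ => p) (fun ω => ind (k ≤ (Cnt ξ o U ω).card))) ≤
      hit D p ξ o T := by
  classical
  have hq : Adm (fun _ : Sym2 V => p) := adm_const h0 h1
  set A : Finset (Sym2 V) → Finset V := fun ω => U.filter fun x =>
    Ein G (nbk G m {v x}) ⊆ ω ∧ 1 - hitS (D \ Ein G U) p (ξ ∪ ω) (nbk G m {v x}) T ≤ γ with hA
  have hglue : ∀ ω, (1 - γ) * hit (D \ Ein G U) p (ξ ∪ ω) o (A ω) ≤
      hit (D \ Ein G U) p (ξ ∪ ω) o T := by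
    intro ω
    refine glue _ _ h0 h1 o _ T γ fun x hx => ?_
    obtain ⟨hxU, hx1, hx2⟩ := mem_filter.1 hx
    refine le_trans (by linarith) (?_ : hitS (D \ Ein G U) p (ξ ∪ ω) (nbk G m {v x}) T ≤ _)
    refine Ex_mono hq fun ω' _ => ind_mono ?_
    rintro ⟨u, hu, t, ht, hc⟩
    have hs : Ein G (nbk G m {v x}) ⊆ ξ ∪ ω ∪ ω' :=
      hx1.trans (subset_union_right.trans subset_union_left)
    exact ⟨t, ht, (((conn_of_mem_nbk G m _ x (hv x hxU)).mono hs).symm.trans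
      ((conn_of_mem_nbk G m _ u hu).mono hs)).trans hc⟩
  rw [hit_split hI]
  refine le_trans ?_ (Ex_mono hq fun ω _ => hglue ω)
  rw [Ex_mul_left]
  refine mul_le_mul_of_nonneg_left ?_ (by linarith)
  simp only [hit]
  rw [Ex_comm, ← Ex_mul_left]
  refine Ex_mono hq fun ωo _ => ?_
  by_cases hk : k ≤ (Cnt ξ o U ωo).card
  · rw [ind_pos hk, mul_one]
    refine (h3 _ (fun x hx => (mem_Cnt.1 hx).1) hk).trans (Ex_mono hq fun ωi _ => ind_mono ?_)
    rintro ⟨x, hx, hx'⟩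
    refine ⟨x, mem_filter.2 ⟨(mem_Cnt.1 hx).1, hx'⟩, (mem_Cnt.1 hx).2.mono ?_⟩
    exact union_subset_union subset_union_left Subset.rfl
  · rw [ind_neg hk, mul_zero]
    exact Ex_nonneg hq fun _ _ => ind_nonneg _

/-- some layer has many contacts -/
theorem exists_layer {Δ k m J : ℕ} (hΔ : ∀ v, G.degree v ≤ Δ) {p η ε : ℝ} (h0 : 0 ≤ p)
    (h1 : p ≤ 1) (hη0 : 0 ≤ η) (hη : η ≤ (1 - p) ^ (Δ * k)) (hJ : 1 < J * (η * ε))
    {D ξ : Finset (Sym2 V)} {o : V} {B : Finset V}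
    (hdis : Disjoint ξ D) (hξ : (↑ξ : Set (Sym2 V)) ⊆ G.edgeSet)
    (hD : (↑D : Set (Sym2 V)) ⊆ G.edgeSet) (ho : o ∉ nbk G (m + J) B)
    (hI : Ein G (nbk G (m + J) B) ⊆ D) :
    ∃ j ≤ J, hit D p ξ o B - ε ≤ Ex (D \ Ein G (nbk G (m + j) B)) (fun _ => p)
      (fun ω => ind (k ≤ (Cnt ξ o (nbk G (m + j) B) ω).card)) := by
  have hq : Adm (fun _ : Sym2 V => p) := adm_const h0 h1
  have hsub : ∀ j ≤ J, nbk G (m + j) B ⊆ nbk G (m + J) B := fun j hj =>
    nbk_mono_left G (by omega) B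
  by_contra hcon
  push Not at hcon
  have key : ∀ j ≤ J, j * (η * ε) ≤ hit D p ξ o (nbk G (m + j) B) := by
    intro j hj
    induction j with
    | zero => simpa using hit_nonneg h0 h1 o _
    | succ j ih =>
      have hIj : Ein G (nbk G (m + (j + 1)) B) ⊆ D := (Ein_mono G (hsub _ hj)).trans hI
      have h2 := step_one hΔ h0 h1 hη (U' := nbk G (m + j) B) (U := nbk G (m + (j + 1)) B)
        hdis hξ hD (by rw [← add_assoc, nbk_succ]) (fun h => ho (hsub j (by omega) h)) hIj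
      have h3 := hcon _ hj
      have h4 := hit_eq_Cnt (ξ := ξ) hIj p o
      have h5 : hit D p ξ o B ≤ hit D p ξ o (nbk G (m + (j + 1)) B) :=
        hit_mono h0 h1 Subset.rfl subset_union_left o (nbk_mono_left G (Nat.zero_le _) B)
      have h6 : Ex (D \ Ein G (nbk G (m + (j + 1)) B)) (fun _ => p)
          (fun ω => ind (Cnt ξ o (nbk G (m + (j + 1)) B) ω).Nonempty) ≤
          Ex (D \ Ein G (nbk G (m + (j + 1)) B)) (fun _ => p)
            (fun ω => ind (k ≤ (Cnt ξ o (nbk G (m + (j + 1)) B) ω).card)) +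
          Ex (D \ Ein G (nbk G (m + (j + 1)) B)) (fun _ => p)
            (fun ω => ind ((Cnt ξ o (nbk G (m + (j + 1)) B) ω).Nonempty ∧
              (Cnt ξ o (nbk G (m + (j + 1)) B) ω).card < k)) := by
        rw [← Ex_add]
        refine Ex_mono hq fun ω _ => le_trans (ind_mono fun h => ?_) (ind_or_le _ _)
        rcases le_or_gt k (Cnt ξ o (nbk G (m + (j + 1)) B) ω).card with h7 | h7
        · exact Or.inl h7
        · exact Or.inr ⟨h, h7⟩
      have h7 := ih (by omega)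
      have h8 : η * ε ≤ η * Ex (D \ Ein G (nbk G (m + (j + 1)) B)) (fun _ => p)
          (fun ω => ind ((Cnt ξ o (nbk G (m + (j + 1)) B) ω).Nonempty ∧
            (Cnt ξ o (nbk G (m + (j + 1)) B) ω).card < k)) :=
        mul_le_mul_of_nonneg_left (by linarith) hη0
      push_cast
      linarith
  have h2 := key J le_rfl
  have h3 := hit_le_one (D := D) (ξ := ξ) h0 h1 o (nbk G (m + J) B)
  linarith

end TargetAux

open TargetAux in
theorem target_aux (ε : ℝ) (hε : 0 < ε) (hε1 : ε ≤ 1) : ∃ δ : ℝ, 0 < δ ∧ ∀ (Δ m : ℕ) (a b : ℝ),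
    0 < a → b < 1 →
    ∃ R : ℕ, ∀ (V : Type) [DecidableEq V] (G : SimpleGraph V) [G.LocallyFinite],
      (∀ v, G.degree v ≤ Δ) → ∀ p : ℝ, a ≤ p → p ≤ b → TargetOK G p m R δ ε := by
  obtain ⟨C, hCdef⟩ : ∃ C : ℝ, C = 4 / ε := ⟨_, rfl⟩
  have hC : 0 < C := by rw [hCdef]; positivity
  have hC' : 1 / C = ε / 4 := by rw [hCdef, one_div, inv_div]
  refine ⟨ε / 4 / (C + 1) * (ε / 4), by positivity, fun Δ m a b ha hb => ?_⟩
  obtain ⟨q0, hq0def⟩ : ∃ q0 : ℝ, q0 = a ^ (((Δ + 1) ^ m + 1).choose 2) := ⟨_, rfl⟩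
  have hq0 : 0 < q0 := by rw [hq0def]; positivity
  obtain ⟨k', hk'⟩ := exists_nat_ge (C / q0)
  rw [div_le_iff₀ hq0] at hk'
  obtain ⟨k, hk⟩ : ∃ k : ℕ, k = k' * (Δ + 1) ^ (4 * m) := ⟨_, rfl⟩
  obtain ⟨η, hηdef⟩ : ∃ η : ℝ, η = (1 - b) ^ (Δ * k) := ⟨_, rfl⟩
  have hη : 0 < η := by rw [hηdef]; exact pow_pos (by linarith) _
  obtain ⟨J, hJ⟩ := exists_nat_gt (1 / (η * (ε / 4)))
  rw [div_lt_iff₀ (by positivity)] at hJ
  refine ⟨m + J, fun V _ G _ hΔ p hap hpb D ξ o B T hdis hξ hD ho hI hT => ?_⟩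
  have h0 : 0 ≤ p := by linarith
  have h1 : p ≤ 1 := by linarith
  have hq : Adm (fun _ : Sym2 V => p) := adm_const h0 h1
  obtain ⟨j, hj, hP⟩ := exists_layer (k := k) hΔ h0 h1 hη.le
    (hηdef ▸ pow_le_pow_left₀ (by linarith) (by linarith) _) hJ hdis hξ hD ho hI
  have hIj : Ein G (nbk G (m + j) B) ⊆ D :=
    (Ein_mono G (nbk_mono_left G (by omega) B)).trans hI
  have hex : ∀ x : V, ∃ v : V, x ∈ nbk G (m + j) B → v ∈ nbk G j B ∧ x ∈ nbk G m {v} := by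
    intro x
    by_cases hx : x ∈ nbk G (m + j) B
    · rw [nbk_add, mem_nbk_iff] at hx
      obtain ⟨v, hv⟩ := hx
      exact ⟨v, fun _ => hv⟩
    · exact ⟨x, fun h => absurd h hx⟩
  choose v hv using hex
  have h2 := step_two (m := m) (k := k) (γ := ε / 4) (θ := 1 - ε / 2) (ξ := ξ) (o := o) (T := T)
    h0 h1 (by linarith) hIj v (fun x hx => (hv x hx).2) (by
      intro X hXU hX
      have h3 := step_three (m := m) (k' := k') (γ := ε / 4) (δ := ε / 4 / (C + 1) * (ε / 4))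
        hΔ h0 h1 (hq0def ▸ pow_le_pow_left₀ ha.le hap _) hC hk' (by positivity) (by positivity)
        (Ein G (nbk G (m + j) B)) v X
        (fun x hx => ⟨(hv x (hXU hx)).2, Ein_mono G (by
          rw [nbk_add]
          exact nbk_mono G m (singleton_subset_iff.2 (hv x (hXU hx)).1))⟩)
        (hk ▸ hX)
        (fun x ω => 1 - hitS (D \ Ein G (nbk G (m + j) B)) p (ξ ∪ ω) (nbk G m {v x}) T)
        (fun x ω => sub_nonneg.2 (Ex_le_const hq fun _ _ => ind_le_one _))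
        (fun x ω ω' h => sub_le_sub_left (hitS_mono h0 h1 (union_subset_union Subset.rfl h)
          subset_union_left Subset.rfl Subset.rfl) 1)
        (fun x hx => by
          rw [Ex_sub, Ex_const, ← hitS_split hIj]
          have := hT (v x) (nbk_mono_left G (by omega) B (hv x (hXU hx)).1)
          linarith)
      have h4 : (C + 1) * (ε / 4 / (C + 1) * (ε / 4) / (ε / 4)) = ε / 4 := by
        field_simp
      rw [h4, hC'] at h3
      linarith)
  have h5 : Ex (D \ Ein G (nbk G (m + j) B)) (fun _ => p)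
      (fun ω => ind (k ≤ (Cnt ξ o (nbk G (m + j) B) ω).card)) ≤ 1 :=
    Ex_le_const hq fun _ _ => ind_le_one _
  have h6 : 0 ≤ Ex (D \ Ein G (nbk G (m + j) B)) (fun _ => p)
      (fun ω => ind (k ≤ (Cnt ξ o (nbk G (m + j) B) ω).card)) :=
    Ex_nonneg hq fun _ _ => ind_nonneg _
  nlinarith [mul_nonneg hε.le (sub_nonneg.2 h5), mul_nonneg (mul_nonneg hε.le hε.le) h6]

/-- The target lemma. -/
theorem target (ε : ℝ) (hε : 0 < ε) : ∃ δ : ℝ, 0 < δ ∧ ∀ (Δ m : ℕ) (a b : ℝ), 0 < a → b < 1 →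
    ∃ R : ℕ, ∀ (V : Type) [DecidableEq V] (G : SimpleGraph V) [G.LocallyFinite],
      (∀ v, G.degree v ≤ Δ) → ∀ p : ℝ, a ≤ p → p ≤ b → TargetOK G p m R δ ε := by
  obtain ⟨δ, hδ, h⟩ := target_aux (min ε 1) (lt_min hε one_pos) (min_le_right _ _)
  refine ⟨δ, hδ, fun Δ m a b ha hb => ?_⟩
  obtain ⟨R, hR⟩ := h Δ m a b ha hb
  refine ⟨R, fun V _ G _ hΔ p hap hpb D ξ o B T hdis hξ hD ho hI hT => ?_⟩
  have := hR V G hΔ p hap hpb D ξ o B T hdis hξ hD ho hI hT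
  linarith [min_le_left ε 1]

end Vale.Agent.P151
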