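import Mathlib
import Vale.Agent.P151.Target
import Vale.Agent.P151.Steer
import Vale.Agent.P151.Explore
import Vale.Agent.P151.BlockC

namespace Vale.Agent.P151

open Finset

namespace BlockAux

theorem steerOK {d : ℕ} (hd : 0 < d) {p δ ε : ℝ} (h0 : 0 ≤ p) (h1 : p ≤ 1) (hε : 0 ≤ ε)
    {m l R M : ℕ} {ρ : ℤ}
    (hT : TargetOK (lattice d) p m R δ ε) (hH : HitAt d p m l δ)
    (hρ : ((2 * d * M + 1) * R : ℤ) ≤ ρ) (hρl : ρ ≤ l) (hR : 2 * d * R ≤ l) (hl : 0 < l) :
    SteerOK d p l ρ (M * l) ((2 * d * M : ℕ) * ε) := by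
  intro c i b α β w γ ha hb hw hL hL' D ξ o hdis hξ hD ho hf hr
  have key := steer hd h0 h1 hε hT hH hρ hρl hR hl (slo c i b α β w) (shi c i b α β w)
    (c + Pi.single i (sg b * γ))
    (fun j => by
      by_cases hj : j = i
      · subst hj
        cases b <;> simp [slo, sg] <;> omega
      · simp [slo, hj]; omega)
    (fun j => by
      by_cases hj : j = i
      · subst hj
        cases b <;> simp [shi, sg] <;> omega
      · simp [shi, hj]; omega)
    (fun j => by
      simp only [slo, shi]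
      split_ifs <;> omega)
    D ξ o hdis hξ hD (by rwa [slab_ext]) (by rwa [slab_ext]) (by rwa [slab_ext])
  rw [box_eq_slab _ i b, slab_shift] at key
  have e1 : -(3 * (l : ℤ)) + γ = γ - 3 * l := by ring
  have e2 : 3 * (l : ℤ) + γ = γ + 3 * l := by ring
  rw [e1, e2] at key
  exact key

open Classical in
/-- all coarse edges inside the coarse box -/
noncomputable def allE (n : ℕ) : Finset CE :=
  ((Icc (-(n : ℤ)) n ×ˢ Icc (-(n : ℤ)) n) ×ˢ univ).filter fun a => InBox n (a.1 + vec a.2)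

theorem sub_allE {n : ℕ} {X : Finset CE} (h : ∀ a ∈ X, InBox n a.1 ∧ InBox n (a.1 + vec a.2)) :
    X ⊆ allE n := fun a ha => by
  obtain ⟨⟨h1, h2⟩, h3⟩ := h a ha
  rw [abs_le] at h1 h2
  simp only [allE, mem_filter, mem_product, mem_Icc, mem_univ, and_true]
  exact ⟨⟨h1, h2⟩, h3⟩

theorem percFin_of_par {d : ℕ} (P : Par d) {p δ : ℝ} (h0 : 0 < p) (h1 : p ≤ 1) {m l K : ℕ}
    {ρ L : ℤ} (hl : P.l = l) (hK : 216000000 ≤ K) (hTK : P.T = 3 * P.l * K)
    (hH : HitAt d p m l δ) (hS : SteerOK d p P.l ρ L (1 / 1440000)) (hρ0 : 0 ≤ ρ)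
    (hρ : ρ + m + 1 ≤ P.l) (hL : P.T + 16 * P.l ≤ L) (hδ : δ ≤ 1 / 600) : PercFin d p 0 := by
  have hq : Adm (fun _ : Sym2 (Fin d → ℤ) => p) := adm_const h0.le h1
  refine ⟨p ^ P.base.card * (1 / 2), by positivity, fun n _ => ?_⟩
  have key := explore (P.Rv (allE n)) h0.le h1 n P.Rv (P.Inv p (1 / 300))
    (fun _ _ h => P.Rv_mono h) (fun _ h => P.Rv_mono (sub_allE h))
    (fun _ _ _ _ _ hX hξ hu h => P.inv_mono h0.le h1 hX hξ hu h)
    (by
      refine Ex_le_const hq fun ω hω => ?_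
      rw [P.Rv_empty, subset_empty] at hω
      rw [hω, ind_neg]
      · norm_num
      · rintro ⟨u, hu⟩
        exact hu (P.inv_init h0.le h1 hl hH hS hρ0 hρ hL (by linarith) u))
    (fun X ξ a hξ hu h => by
      refine le_trans (P.inv_step h0.le h1 (by norm_num) (δ2 := 1 / 720000) (by norm_num)
        (by norm_num) (by omega) hTK hS (by omega) hL hξ hu h) ?_
      have hK' : (216000000 : ℝ) ≤ K := by exact_mod_cast hK
      have : 1 / (1 / 720000 * (K : ℝ)) ≤ 1 / 300 :=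
        one_div_le_one_div_of_le (by norm_num) (by linarith)
      linarith)
  have hdis : Disjoint P.base (P.Rv (allE n)) := disjoint_sdiff
  refine le_trans ?_ (far_le_hit (U := P.base ∪ P.Rv (allE n)) (fun e he => ?_) h0.le h1 n)
  · rw [Ex_union hdis]
    refine le_trans ?_ (wt_mul_le_Ex hq (fun ω _ => Ex_nonneg hq fun _ _ => ind_nonneg _)
      Subset.rfl)
    have e : wt P.base (fun _ => p) P.base = p ^ P.base.card := by
      rw [wt, ← prod_const]
      exact prod_congr rfl fun e he => if_pos he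
    rw [e]
    refine mul_le_mul_of_nonneg_left (key.trans (Ex_mono hq fun ω _ => ind_mono ?_))
      (by positivity)
    rintro ⟨X, a, ha, ha', -, h⟩
    obtain ⟨z, hz, hi⟩ := P.inv_far (by norm_num) ha ha' h
    exact ⟨z, hz.mono (union_subset_union_right inter_subset_left), hi⟩
  · rcases mem_union.1 he with h | h
    · exact Ein_sub_edgeSet _ _ h
    · exact Ein_sub_edgeSet _ _ (mem_sdiff.1 h).1

end BlockAux

open BlockAux in
/-- The finite-size criterion. -/
theorem percFin_of_hit (d : ℕ) (hd : 2 ≤ d) : ∃ δ : ℝ, 0 < δ ∧ ∀ (m : ℕ) (a b : ℝ), 0 < a → b < 1 →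
    ∃ l0 : ℕ, ∀ l : ℕ, l0 ≤ l → ∀ p : ℝ, a ≤ p → p ≤ b → HitAt d p m l δ → PercFin d p 0 := by
  obtain ⟨K, hK⟩ : ∃ K : ℕ, 216000000 ≤ K := ⟨_, le_rfl⟩
  obtain ⟨M, hM⟩ : ∃ M : ℕ, M = 3 * K + 16 := ⟨_, rfl⟩
  have hN : (0 : ℝ) < (2 * d * M : ℕ) := by
    have : 0 < 2 * d * M := Nat.mul_pos (by omega) (by omega)
    exact_mod_cast this
  obtain ⟨δ, hδ, hT⟩ := target (1 / 1440000 / (2 * d * M : ℕ)) (by positivity)
  refine ⟨min δ (1 / 600), by positivity, fun m a b ha hb => ?_⟩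
  obtain ⟨R, hR⟩ := hT (2 * d) m a b ha hb
  refine ⟨(2 * d * M + 1) * R + m + 1 + 2 * d * R, fun l hl p hap hpb hH => ?_⟩
  have h0 : 0 < p := by linarith
  have h1 : p ≤ 1 := by linarith
  have hl0 : 0 < l := by omega
  have hl' : ((2 * d * M + 1) * R : ℤ) + m + 1 ≤ l := by
    have : (2 * d * M + 1) * R + m + 1 ≤ l := by omega
    exact_mod_cast this
  have hS := steerOK (by omega) h0.le h1 (by positivity)
    (hR _ (lattice d) lattice_degree_le p hap hpb)
    (fun v i s => le_trans (by linarith [min_le_left δ (1 / 600)]) (hH v i s))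
    (M := M) le_rfl (by omega) (by omega) hl0
  rw [mul_div_cancel₀ _ hN.ne'] at hS
  exact percFin_of_par ⟨⟨0, by omega⟩, ⟨1, by omega⟩, by simp, l, 3 * l * K,
    by exact_mod_cast hl0, by positivity⟩ h0 h1 rfl hK rfl hH hS (by positivity) hl'
    (by rw [hM]; push_cast; linarith) (min_le_right _ _)

end Vale.Agent.P151
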