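import Mathlib
import Vale.Agent.P151.Conn

open MeasureTheory ProbabilityTheory unitInterval

namespace Vale.Agent.P151

namespace BridgeAux

variable {E : Type} [DecidableEq E]

/-- cylinder event -/
def cyl (F ξ : Finset E) : Set (Set E) := {ω | ∀ e ∈ F, (e ∈ ω ↔ e ∈ ξ)}

omit [DecidableEq E] in
theorem meas_cyl (F ξ : Finset E) : MeasurableSet (cyl F ξ) := by
  have : cyl F ξ = ⋂ e ∈ F, {ω : Set E | e ∈ ω ↔ e ∈ ξ} := by
    ext ω
    simp [cyl]
  rw [this]
  refine Finset.measurableSet_biInter F fun e _ => ?_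
  by_cases h : e ∈ ξ
  · simp only [h, iff_true]
    exact measurableSet_mem e
  · simp only [h, iff_false]
    exact measurableSet_notMem e

open Classical in
theorem event_eq (F : Finset E) (A : Finset E → Prop) :
    {ω : Set E | A (F.filter (· ∈ ω))} = ⋃ ξ ∈ F.powerset.filter A, cyl F ξ := by
  ext ω
  simp only [Set.mem_ofPred_eq, Set.mem_iUnion, Finset.mem_filter, Finset.mem_powerset, cyl]
  constructor
  · intro h
    exact ⟨_, ⟨Finset.filter_subset _ _, h⟩, fun e he => by simp [he]⟩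
  · rintro ⟨ξ, ⟨h1, h2⟩, h3⟩
    have : F.filter (· ∈ ω) = ξ := by
      ext e
      rw [Finset.mem_filter]
      exact ⟨fun h => (h3 e h.1).1 h.2, fun h => ⟨h1 h, (h3 e (h1 h)).2 h⟩⟩
    rw [this]
    exact h2

open Classical in
theorem meas_event (F : Finset E) (A : Finset E → Prop) :
    MeasurableSet {ω : Set E | A (F.filter (· ∈ ω))} := by
  rw [event_eq]
  exact Finset.measurableSet_biUnion _ fun ξ _ => meas_cyl F ξ

theorem real_cyl (u : Set E) (p : I) (F ξ : Finset E) (hF : (↑F : Set E) ⊆ u) :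
    (setBernoulli u p).real (cyl F ξ) = wt F (fun _ => (p : ℝ)) ξ := by
  have e1 : (fun q : E → Prop => {i | q i}) ⁻¹' cyl F ξ =
      Set.pi (↑F) (fun e => {q : Prop | q ↔ e ∈ ξ}) := by
    ext q
    simp [cyl]
  rw [measureReal_def, setBernoulli_apply', e1,
    Measure.infinitePi_pi _ (fun _ _ => MeasurableSet.of_discrete), ENNReal.toReal_prod, wt]
  refine Finset.prod_congr rfl fun e he => ?_
  have hu : e ∈ u := hF he
  by_cases h : e ∈ ξ
  · simp [h, hu]
  · simp [h, hu]

end BridgeAux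

open BridgeAux

open Classical in
/-- events depending on finitely many edges -/
theorem perc_real_eq {V : Type} [DecidableEq V] (G : SimpleGraph V) (p : I)
    (F : Finset (Sym2 V)) (hF : (↑F : Set (Sym2 V)) ⊆ G.edgeSet) (A : Finset (Sym2 V) → Prop) :
    (perc G p).real {ω | A (F.filter (· ∈ ω))} = Ex F (fun _ => (p : ℝ)) (fun ω => ind (A ω)) := by
  rw [event_eq, perc, measureReal_biUnion_finset _ (fun ξ _ => meas_cyl F ξ), Ex,
    Finset.sum_filter]
  · refine Finset.sum_congr rfl fun ξ _ => ?_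
    rw [real_cyl _ p F ξ hF, ind]
    split_ifs <;> simp
  · intro ξ hξ ξ' hξ' hne
    refine Set.disjoint_left.2 fun ω h1 h2 => hne ?_
    have a1 := Finset.mem_powerset.1 (Finset.mem_filter.1 hξ).1
    have a2 := Finset.mem_powerset.1 (Finset.mem_filter.1 hξ').1
    ext e
    exact ⟨fun h => (h2 e (a1 h)).1 ((h1 e (a1 h)).2 h),
      fun h => (h1 e (a2 h)).1 ((h2 e (a2 h)).2 h)⟩

namespace BridgeAux

open Classical in
/-- connection to the boundary inside the cube -/
def ev (d : ℕ) (x : Fin d → ℤ) (n : ℕ) : Set (Set (Sym2 (Fin d → ℤ))) :=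
  {ω | ConnTo ((Ein (lattice d) (box 0 (n : ℤ))).filter (· ∈ ω)) x (bd d n)}

theorem meas_ev (d : ℕ) (x : Fin d → ℤ) (n : ℕ) : MeasurableSet (ev d x n) :=
  meas_event _ (fun ξ => ConnTo ξ x (bd d n))

theorem real_ev (d : ℕ) (p : I) (x : Fin d → ℤ) (n : ℕ) :
    (perc (lattice d) p).real (ev d x n) =
      hit (Ein (lattice d) (box 0 (n : ℤ))) p ∅ x (bd d n) := by
  rw [ev, perc_real_eq (lattice d) p _ (Ein_sub_edgeSet _ _) (fun ξ => ConnTo ξ x (bd d n)), hit]
  simp only [Finset.empty_union]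

theorem reach_of_conn {V : Type} {ω : Set (Sym2 V)} {ξ : Finset (Sym2 V)} (h : ∀ e ∈ ξ, e ∈ ω)
    {x y : V} (hc : Conn ξ x y) : (SimpleGraph.fromEdgeSet ω).Reachable x y := by
  induction hc with
  | refl => exact SimpleGraph.Reachable.refl _
  | @tail b c _ h2 ih =>
    by_cases hbc : b = c
    · rw [← hbc]
      exact ih
    · exact ih.trans (SimpleGraph.Adj.reachable
        ((SimpleGraph.fromEdgeSet_adj _).2 ⟨h _ h2, hbc⟩))

open Classical in
theorem inf_of_ev {d : ℕ} {x : Fin d → ℤ} {ω : Set (Sym2 (Fin d → ℤ))}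
    (h : ∀ n : ℕ, ∃ k, n ≤ k ∧ ω ∈ ev d x k) : ω ∈ infCluster (Fin d → ℤ) := by
  refine ⟨x, fun hfin => ?_⟩
  obtain ⟨B, hB⟩ := (hfin.image fun y => ∑ i, |y i|).bddAbove
  obtain ⟨k, hk, y, hy, hc⟩ := h (B.toNat + 1)
  have h1 : ∑ i, |y i| ≤ B :=
    hB ⟨y, reach_of_conn (fun e he => (Finset.mem_filter.1 he).2) hc, rfl⟩
  obtain ⟨i, hi⟩ := (Finset.mem_filter.1 hy).2
  have h2 : |y i| ≤ ∑ i, |y i| :=
    Finset.single_le_sum (f := fun i => |y i|) (fun _ _ => abs_nonneg _) (Finset.mem_univ i)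
  omega

open Classical in
theorem ev_of_inf {d : ℕ} {x : Fin d → ℤ} {ω : Set (Sym2 (Fin d → ℤ))}
    (hω : ω ⊆ (lattice d).edgeSet)
    (h : {y | (SimpleGraph.fromEdgeSet ω).Reachable x y}.Infinite) {n : ℕ}
    (hx : x ∈ box 0 (n : ℤ)) : ω ∈ ev d x n := by
  obtain ⟨y, hy, hyb⟩ := h.exists_notMem_finset (box 0 (n : ℤ))
  have key : ∀ z, Relation.ReflTransGen (SimpleGraph.fromEdgeSet ω).Adj x z → ω ∈ ev d x n ∨
      (z ∈ box 0 (n : ℤ) ∧
        Conn ((Ein (lattice d) (box 0 (n : ℤ))).filter (· ∈ ω)) x z) := by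
    intro z hz
    induction hz with
    | refl => exact Or.inr ⟨hx, Conn.refl _ _⟩
    | @tail b c _ h2 ih =>
      rcases ih with ih | ⟨hb, ih⟩
      · exact Or.inl ih
      · have h3 := ((SimpleGraph.fromEdgeSet_adj _).1 h2).1
        have h4 : (lattice d).Adj b c := hω h3
        by_cases hc : c ∈ box 0 (n : ℤ)
        · exact Or.inr ⟨hc, ih.trans (Conn.single
            (Finset.mem_filter.2 ⟨mk_mem_Ein.2 ⟨hb, hc, h4⟩, h3⟩))⟩
        · refine Or.inl ⟨b, Finset.mem_filter.2 ⟨hb, ?_⟩, ih⟩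
          rw [mem_box] at hb hc
          obtain ⟨j, hj⟩ := not_forall.1 hc
          have h5 := lattice_adj_abs h4 j
          have h6 := hb j
          simp only [Pi.zero_apply] at hj h6
          refine ⟨j, ?_⟩
          rw [abs_le] at h5
          rcases abs_cases (b j) with h7 | h7 <;> omega
  rcases key y ((SimpleGraph.reachable_iff_reflTransGen _ _).1 hy) with h | h
  · exact h
  · exact absurd h.1 hyb

end BridgeAux

theorem perc_pos_iff (d : ℕ) (p : I) :
    0 < perc (lattice d) p (infCluster (Fin d → ℤ)) ↔ ∃ x, PercFin d (p : ℝ) x := by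
  have : IsProbabilityMeasure (perc (lattice d) p) := by
    unfold perc
    infer_instance
  constructor
  · intro h
    have e1 : infCluster (Fin d → ℤ) =
        ⋃ x, {ω | {y | (SimpleGraph.fromEdgeSet ω).Reachable x y}.Infinite} := by
      ext ω
      simp [infCluster]
    rw [e1] at h
    obtain ⟨x, hx⟩ : ∃ x, perc (lattice d) p
        {ω | {y | (SimpleGraph.fromEdgeSet ω).Reachable x y}.Infinite} ≠ 0 := by
      by_contra hc
      exact h.ne' (measure_iUnion_null fun x => not_not.1 fun h' => hc ⟨x, h'⟩)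
    refine ⟨x, _, ENNReal.toReal_pos hx (measure_ne_top _ _), fun n hn => ?_⟩
    rw [← real_ev, measureReal_def]
    refine ENNReal.toReal_mono (measure_ne_top _ _) (measure_mono_ae ?_)
    have hae : ∀ᵐ ω ∂(perc (lattice d) p), ω ⊆ (lattice d).edgeSet := setBernoulli_ae_subset
    filter_upwards [hae] with ω hω h2
    exact ev_of_inf hω h2 hn
  · rintro ⟨x, c, hc, h⟩
    set Gn : ℕ → Set (Set (Sym2 (Fin d → ℤ))) := fun n => ⋃ k, ⋃ (_ : n ≤ k), ev d x k with hGn
    have hmeas : ∀ n, MeasurableSet (Gn n) := fun n =>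
      MeasurableSet.iUnion fun k => MeasurableSet.iUnion fun _ => meas_ev d x k
    have hanti : Antitone Gn := by
      intro n m hnm ω hω
      simp only [hGn, Set.mem_iUnion] at hω ⊢
      obtain ⟨k, hk, h1⟩ := hω
      exact ⟨k, hnm.trans hk, h1⟩
    have hlow : ∀ n, ENNReal.ofReal c ≤ perc (lattice d) p (Gn n) := by
      intro n
      set k := max n (∑ i, |x i|).toNat with hk
      have hxk : x ∈ box 0 (k : ℤ) := by
        rw [mem_box]
        intro j
        have h2 : |x j| ≤ ∑ i, |x i| :=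
          Finset.single_le_sum (f := fun i => |x i|) (fun _ _ => abs_nonneg _) (Finset.mem_univ j)
        simp only [Pi.zero_apply]
        rw [abs_le] at h2
        omega
      have h1 := h k hxk
      rw [← real_ev, measureReal_def] at h1
      refine (ENNReal.ofReal_le_of_le_toReal h1).trans (measure_mono fun ω hω => ?_)
      simp only [hGn, Set.mem_iUnion]
      exact ⟨k, le_max_left _ _, hω⟩
    have hlim := tendsto_measure_iInter_atTop (μ := perc (lattice d) p)
      (fun n => (hmeas n).nullMeasurableSet) hanti ⟨0, measure_ne_top _ _⟩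
    have h3 : ENNReal.ofReal c ≤ perc (lattice d) p (⋂ n, Gn n) := ge_of_tendsto' hlim hlow
    refine lt_of_lt_of_le (ENNReal.ofReal_pos.2 hc) (h3.trans (measure_mono fun ω hω => ?_))
    refine inf_of_ev (x := x) fun n => ?_
    have h4 := Set.mem_iInter.1 hω n
    simp only [hGn, Set.mem_iUnion] at h4
    obtain ⟨k, hk, h5⟩ := h4
    exact ⟨k, hk, h5⟩

end Vale.Agent.P151
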