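import Mathlib
import Vale.Agent.P151.BlockB

/-!
Definitions for graphs with an equivariant map to the plane lattice.
-/

namespace Vale.Agent.P151

open Finset BlockAux

variable {V : Type} [DecidableEq V]

/-- finite-volume form of percolation from `x` -/
def PercG (G : SimpleGraph V) [G.LocallyFinite] (p : ℝ) (x : V) : Prop :=
  ∃ c : ℝ, 0 < c ∧ ∀ n : ℕ,
    c ≤ hit (Ein G (nbk G (n + 1) {x})) p ∅ x (nbk G (n + 1) {x} \ nbk G n {x})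

/-- the ball of radius `m` is connected to all large spheres with probability at least `1 - δ` -/
def BallExit (G : SimpleGraph V) [G.LocallyFinite] (p : ℝ) (o : V) (m : ℕ) (δ : ℝ) : Prop :=
  ∀ n : ℕ, m ≤ n → 1 - δ ≤
    hitS (Ein G (nbk G (n + 1) {o})) p ∅ (nbk G m {o}) (nbk G (n + 1) {o} \ nbk G n {o})

/-- an equivariant map to the plane lattice -/
structure ZQ (G : SimpleGraph V) [G.LocallyFinite] where
  /-- the map -/
  π : V → Fin 2 → ℤ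
  /-- base point -/
  o : V
  /-- a constant -/
  κ : ℕ
  /-- degree bound -/
  Δ : ℕ
  hκ : 0 < κ
  zero : π o = 0
  deg : ∀ v, G.degree v ≤ Δ
  lip : ∀ x y, G.Adj x y → ∀ i, |π x i - π y i| ≤ κ
  reach : ∀ (v : V) (i : Fin 2) (j : ℤ), ∃ x ∈ nbk G (κ * j.natAbs) {v}, π x = π v + Pi.single i j
  homog : ∀ v, ∃ φ : G ≃g G, φ o ∈ nbk G κ {v} ∧ ∀ x, π (φ x) = π x + π (φ o)

/-- the two move vectors `(3 s, -s)` and `(-s, 3 s)` -/
def mv (s : ℤ) (i : Fin 2) : Fin 2 → ℤ := fun j => if j = i then 3 * s else -s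

/-- points of the ball of radius `L` around `v` whose displacement is within `r` of `z` -/
noncomputable def win (G : SimpleGraph V) [G.LocallyFinite] (ϖ : V → Fin 2 → ℤ) (v : V) (L : ℕ)
    (z : Fin 2 → ℤ) (r : ℤ) : Finset V :=
  (nbk G L {v}).filter fun x => ∀ j, |ϖ x j - ϖ v j - z j| ≤ r

theorem mem_win {G : SimpleGraph V} [G.LocallyFinite] {ϖ : V → Fin 2 → ℤ} {v x : V} {L : ℕ}
    {z : Fin 2 → ℤ} {r : ℤ} :
    x ∈ win G ϖ v L z r ↔ x ∈ nbk G L {v} ∧ ∀ j, |ϖ x j - ϖ v j - z j| ≤ r := mem_filter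

/-- both moves are likely from `v` -/
def MoveAt (G : SimpleGraph V) [G.LocallyFinite] (ϖ : V → Fin 2 → ℤ) (p : ℝ) (m L : ℕ)
    (s e c : ℤ) (δ : ℝ) (v : V) : Prop :=
  ∀ i : Fin 2, 1 - δ ≤
    hitS (Ein G (win G ϖ v L 0 c)) p ∅ (nbk G m {v}) (win G ϖ v L (mv s i) e)

/-- Lipschitz bound along edges -/
def LipG (G : SimpleGraph V) (ϖ : V → Fin 2 → ℤ) (k : ℤ) : Prop :=
  ∀ x y, G.Adj x y → ∀ j, |ϖ x j - ϖ y j| ≤ k

/-- preimage of a plane set inside a ball -/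
noncomputable def lift (G : SimpleGraph V) [G.LocallyFinite] (ϖ : V → Fin 2 → ℤ) (o : V)
    (Z : Finset (Fin 2 → ℤ)) (r : ℕ) : Finset V :=
  (nbk G r {o}).filter fun x => ϖ x ∈ Z

theorem mem_lift {G : SimpleGraph V} [G.LocallyFinite] {ϖ : V → Fin 2 → ℤ} {o x : V}
    {Z : Finset (Fin 2 → ℤ)} {r : ℕ} : x ∈ lift G ϖ o Z r ↔ x ∈ nbk G r {o} ∧ ϖ x ∈ Z :=
  mem_filter

omit [DecidableEq V] in
theorem abs_le_of_mem_nbkG [DecidableEq V] {G : SimpleGraph V} [G.LocallyFinite]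
    {ϖ : V → Fin 2 → ℤ} {k : ℤ} (hk : 0 ≤ k) (h : LipG G ϖ k) {n : ℕ} {v x : V}
    (hx : x ∈ nbk G n {v}) (j : Fin 2) : |ϖ x j - ϖ v j| ≤ n * k := by
  induction n generalizing x with
  | zero => rw [nbk_zero, mem_singleton] at hx; simp [hx]
  | succ n ih =>
    rw [nbk_succ, mem_nb] at hx
    have e : ((n + 1 : ℕ) : ℤ) * k = n * k + k := by push_cast; ring
    rw [e]
    rcases hx with hx | ⟨y, hy, hx⟩
    · have := ih hx; omega
    · have h1 := ih hy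
      have h2 := h _ _ hx j
      rw [abs_le] at h1 h2 ⊢
      omega

/-- oriented steering between slabs, with `l = 400 s` -/
def OSteerOK (G : SimpleGraph V) [G.LocallyFinite] (ϖ : V → Fin 2 → ℤ) (o : V) (p : ℝ)
    (l e M : ℤ) (Λ : ℕ) (θ : ℝ) : Prop :=
  ∀ (c : Fin 2 → ℤ) (i : Fin 2) (α β w γ σ : ℤ) (r : ℕ), α ≤ β → 3 * l ≤ w → w ≤ 5 * l →
    β + 3 * w ≤ γ + 7 * l → γ - α ≤ M * l → α - w ≤ σ → σ + 5 * l ≤ γ →
    ∀ (D ξ : Finset (Sym2 V)) (B : Finset V), Disjoint ξ D →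
    (↑ξ : Set (Sym2 V)) ⊆ G.edgeSet → (↑D : Set (Sym2 V)) ⊆ G.edgeSet →
    B ⊆ lift G ϖ o (slab c i true α β w) r →
    (∀ x ∈ B, σ ≤ (ϖ x 0 - c 0) + (ϖ x 1 - c 1)) →
    o ∉ (lift G ϖ o (slab c i true (α - 2 * l) (γ + 3 * l) (w + 2 * l)) (r + Λ)).filter
      (fun x => σ - 2 * e ≤ (ϖ x 0 - c 0) + (ϖ x 1 - c 1)) →
    Ein G ((lift G ϖ o (slab c i true (α - 2 * l) (γ + 3 * l) (w + 2 * l)) (r + Λ)).filter
      (fun x => σ - 2 * e ≤ (ϖ x 0 - c 0) + (ϖ x 1 - c 1))) ⊆ D →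
    Ein G (lift G ϖ o (slab c i true (α - 2 * l) (γ + 3 * l) (w + 2 * l)) (r + Λ)) ⊆ D ∪ ξ →
    hit D p ξ o B - θ ≤
      hit D p ξ o (lift G ϖ o (slab c i true (γ - 3 * l) (γ + 3 * l) (3 * l)) (r + Λ))

/-- the coarse quadrant box -/
def InQ (n : ℕ) (y : ℤ × ℤ) : Prop := 0 ≤ y.1 ∧ y.1 ≤ n ∧ 0 ≤ y.2 ∧ y.2 ≤ n

end Vale.Agent.P151
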