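import Mathlib
import Vale.Agent.P151.GDefs

namespace Vale.Agent.P151

open Finset

namespace GBallAux

variable {V : Type} [DecidableEq V] {G : SimpleGraph V} [G.LocallyFinite] {p : ℝ}

theorem exists_mem_nbk {u v : V} (h : G.Reachable u v) : ∃ a, v ∈ nbk G a {u} := by
  rw [SimpleGraph.reachable_iff_reflTransGen] at h
  induction h with
  | refl => exact ⟨0, mem_singleton_self _⟩
  | tail _ h2 ih =>
    obtain ⟨a, ha⟩ := ih
    exact ⟨a + 1, by rw [nbk_succ]; exact mem_nb.2 (.inr ⟨_, ha, h2⟩)⟩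

theorem first_visit {ω : Finset (Sym2 V)} (hω : (↑ω : Set (Sym2 V)) ⊆ G.edgeSet) {S : Finset V}
    {n : ℕ} {x z : V} (hx : x ∈ nbk G n S) (h : Conn ω x z) (hz : z ∉ nbk G n S) :
    ConnTo (ω ∩ Ein G (nbk G (n + 1) S)) x (nbk G (n + 1) S \ nbk G n S) := by
  have key : ∀ y, Conn ω x y →
      ConnTo (ω ∩ Ein G (nbk G (n + 1) S)) x (nbk G (n + 1) S \ nbk G n S) ∨
        (Conn (ω ∩ Ein G (nbk G (n + 1) S)) x y ∧ y ∈ nbk G n S) := by
    intro y hy
    induction hy with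
    | refl => exact .inr ⟨Conn.refl _ _, hx⟩
    | @tail b c _ h2 ih =>
      rcases ih with ih | ⟨ih, hb⟩
      · exact .inl ih
      · have hadj : G.Adj b c := hω h2
        have hc : c ∈ nbk G (n + 1) S := by rw [nbk_succ]; exact mem_nb.2 (.inr ⟨b, hb, hadj⟩)
        have h3 := ih.trans (Conn.single (mem_inter.2 ⟨h2,
          mk_mem_Ein.2 ⟨nbk_mono_left G n.le_succ _ hb, hc, hadj⟩⟩))
        by_cases h4 : c ∈ nbk G n S
        · exact .inr ⟨h3, h4⟩
        · exact .inl ⟨c, mem_sdiff.2 ⟨hc, h4⟩, h3⟩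
  exact (key z h).resolve_right fun h => hz h.2

theorem far_le {U : Finset (Sym2 V)} (hU : (↑U : Set (Sym2 V)) ⊆ G.edgeSet) (h0 : 0 ≤ p)
    (h1 : p ≤ 1) {S : Finset V} {n : ℕ} {x : V} (hx : x ∈ nbk G n S) :
    Ex U (fun _ => p) (fun ω => ind (∃ z, Conn ω x z ∧ z ∉ nbk G n S)) ≤
      hit (Ein G (nbk G (n + 1) S)) p ∅ x (nbk G (n + 1) S \ nbk G n S) := by
  set B := Ein G (nbk G (n + 1) S)
  calc _ ≤ Ex U (fun _ => p) (fun ω =>
        ind (ConnTo (∅ ∪ (ω ∩ (U ∩ B))) x (nbk G (n + 1) S \ nbk G n S))) := by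
        refine Ex_mono (adm_const h0 h1) fun ω hω => ind_mono fun ⟨z, hz, hi⟩ => ?_
        refine (first_visit (fun e he => hU (hω he)) hx hz hi).mono (fun e he => ?_) Subset.rfl
        rw [mem_inter] at he
        exact mem_union_right _ (mem_inter.2 ⟨he.1, mem_inter.2 ⟨hω he.1, he.2⟩⟩)
    _ = hit (U ∩ B) p ∅ x (nbk G (n + 1) S \ nbk G n S) :=
        Ex_inter inter_subset_left _ (fun ω => ind (ConnTo (∅ ∪ ω) x _))
    _ ≤ _ := hit_mono h0 h1 Subset.rfl (inter_subset_right.trans subset_union_left) _ Subset.rfl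

theorem annulus (h0 : 0 ≤ p) (h1 : p ≤ 1) {S : Finset V} {n l : ℕ} (hnl : n ≤ l) {x : V}
    (hx : x ∈ nbk G n S) :
    hit (Ein G (nbk G (l + 1) S)) p ∅ x (nbk G (l + 1) S \ nbk G l S) ≤
      hit (Ein G (nbk G (n + 1) S)) p ∅ x (nbk G (n + 1) S \ nbk G n S) *
        hitS (Ein G (nbk G (l + 1) S)) p ∅ (nbk G (n + 1) S) (nbk G (l + 1) S \ nbk G l S) := by
  have hs : Ein G (nbk G (n + 1) S) ⊆ Ein G (nbk G (l + 1) S) :=
    Ein_mono _ (nbk_mono_left G (Nat.succ_le_succ hnl) _)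
  refine le_trans ?_ (mul_le_mul_of_nonneg_left (hitS_mono h0 h1 Subset.rfl
    ((sdiff_subset (t := Ein G (nbk G (n + 1) S))).trans subset_union_left) Subset.rfl Subset.rfl)
    (hit_nonneg h0 h1 _ _))
  unfold hit hitS
  rw [← Ex_indep hs sdiff_subset disjoint_sdiff]
  refine Ex_mono (adm_const h0 h1) fun ω hω => ?_
  rw [← ind_and]
  refine ind_mono fun hc => ?_
  simp only [empty_union] at hc ⊢
  obtain ⟨t, ht, hc⟩ := hc
  refine ⟨first_visit (fun e he => Ein_sub_edgeSet G _ (hω he)) hx hc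
    fun h => (mem_sdiff.1 ht).2 (nbk_mono_left G hnl _ h), ?_⟩
  obtain ⟨u, hu, hc'⟩ := connTo_sdiff (G := G)
    (⟨x, nbk_mono_left G n.le_succ _ hx, hc.symm⟩ : ConnTo ω t (nbk G (n + 1) S))
  refine ⟨u, hu, t, ht, hc'.symm.mono fun e he => ?_⟩
  rw [mem_sdiff] at he
  exact mem_inter.2 ⟨he.1, mem_sdiff.2 ⟨hω he.1, he.2⟩⟩

end GBallAux

open GBallAux

/-- Percolation makes large balls connect to all spheres. -/
theorem ballExit_of_perc {V : Type} [DecidableEq V] (G : SimpleGraph V) [G.LocallyFinite]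
    (hc : G.Connected) {p : ℝ} (h0 : 0 ≤ p) (h1 : p ≤ 1) (x o : V) (h : PercG G p x)
    (δ : ℝ) (hδ : 0 < δ) : ∃ m : ℕ, BallExit G p o m δ := by
  by_contra hcon
  unfold BallExit at hcon
  push Not at hcon
  obtain ⟨c, c0, h⟩ := h
  have key : ∀ i : ℕ, ∃ n : ℕ, x ∈ nbk G n {o} ∧ hit (Ein G (nbk G (n + 1) {o})) p ∅ x
      (nbk G (n + 1) {o} \ nbk G n {o}) ≤ (1 - δ) ^ i := by
    intro i
    induction i with
    | zero =>
      obtain ⟨n, hn⟩ := exists_mem_nbk (hc o x)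
      exact ⟨n, hn, by simpa using hit_le_one h0 h1 _ _⟩
    | succ i ih =>
      obtain ⟨n, hx, hn⟩ := ih
      obtain ⟨l, hl, hlt⟩ := hcon (n + 1)
      refine ⟨l, nbk_mono_left G (by omega) _ hx, ?_⟩
      rw [pow_succ]
      exact (annulus h0 h1 (by omega) hx).trans (mul_le_mul hn hlt.le
        (Ex_nonneg (adm_const h0 h1) fun _ _ => ind_nonneg _) ((hit_nonneg h0 h1 _ _).trans hn))
  obtain ⟨i, hi⟩ := exists_pow_lt_of_lt_one c0 (show 1 - δ < 1 by linarith)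
  obtain ⟨n, hx, hn⟩ := key i
  obtain ⟨a, ha⟩ := exists_mem_nbk (hc x o)
  refine (hi.trans_le (h (n + a))).not_ge (le_trans ?_
    ((far_le (Ein_sub_edgeSet G (nbk G (n + a + 1) {x})) h0 h1 hx).trans hn))
  refine Ex_mono (adm_const h0 h1) fun ω _ => ind_mono fun ⟨t, ht, hc⟩ =>
    ⟨t, by rwa [empty_union] at hc, fun h => (mem_sdiff.1 ht).2 ?_⟩
  rw [nbk_add]
  exact nbk_mono G n (singleton_subset_iff.2 ha) h

theorem not_percG_zero {V : Type} [DecidableEq V] (G : SimpleGraph V) [G.LocallyFinite] (x : V) :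
    ¬ PercG G 0 x := by
  rintro ⟨c, hc, h⟩
  have h1 : ∀ (F : Finset (Sym2 V)) (f : Finset (Sym2 V) → ℝ), Ex F (fun _ => (0 : ℝ)) f = f ∅ := by
    intro F f
    induction F using Finset.induction_on with
    | empty => simp
    | insert e F he ih => rw [Ex_insert he, ih]; ring
  have h2 := h 0
  unfold hit at h2
  rw [h1, ind_neg] at h2
  · linarith
  · rintro ⟨t, ht, hc⟩
    have : t = x := by
      induction hc with
      | refl => rfl
      | tail _ h3 _ => simp at h3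
    exact (mem_sdiff.1 ht).2 (mem_singleton.2 this)

/-- first visit to a sphere -/
theorem far_le_hitG {V : Type} [DecidableEq V] (G : SimpleGraph V) [G.LocallyFinite]
    {U : Finset (Sym2 V)} (hU : (↑U : Set (Sym2 V)) ⊆ G.edgeSet) {p : ℝ} (h0 : 0 ≤ p) (h1 : p ≤ 1)
    (o : V) (n : ℕ) :
    Ex U (fun _ => p) (fun ω => ind (∃ z, Conn ω o z ∧ z ∉ nbk G n {o})) ≤
      hit (Ein G (nbk G (n + 1) {o})) p ∅ o (nbk G (n + 1) {o} \ nbk G n {o}) :=
  far_le hU h0 h1 (nbk_mono_left G (Nat.zero_le n) _ (mem_singleton_self o))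

end Vale.Agent.P151
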