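import Mathlib
import Vale.Agent.P151.GDefs
import Vale.Agent.P151.Bridge

open MeasureTheory ProbabilityTheory unitInterval

namespace Vale.Agent.P151

namespace GBridgeAux

open BridgeAux

variable {V : Type} [DecidableEq V] {G : SimpleGraph V} [G.LocallyFinite]

theorem exists_nbk {x y : V} (h : G.Reachable x y) : ∃ n, y ∈ nbk G n {x} := by
  rw [SimpleGraph.reachable_iff_reflTransGen] at h
  induction h with
  | refl => exact ⟨0, Finset.mem_singleton_self x⟩
  | tail _ h2 ih =>
    obtain ⟨n, hn⟩ := ih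
    exact ⟨n + 1, by rw [nbk_succ, mem_nb]; exact Or.inr ⟨_, hn, h2⟩⟩

theorem countable_of_conn (hc : G.Connected) : Countable V := by
  obtain ⟨x⟩ := hc.nonempty
  rw [← Set.countable_univ_iff]
  refine (Set.countable_iUnion fun n : ℕ => (nbk G n {x}).countable_toSet).mono fun y _ => ?_
  exact Set.mem_iUnion.2 (exists_nbk (hc.preconnected x y))

variable (G) in
open Classical in
/-- connection to the sphere inside the ball -/
def ev (x : V) (n : ℕ) : Set (Set (Sym2 V)) :=
  {ω | ConnTo ((Ein G (nbk G (n + 1) {x})).filter (· ∈ ω)) x (nbk G (n + 1) {x} \ nbk G n {x})}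

theorem meas_ev (x : V) (n : ℕ) : MeasurableSet (ev G x n) :=
  meas_event _ (fun ξ => ConnTo ξ x (nbk G (n + 1) {x} \ nbk G n {x}))

theorem real_ev (p : I) (x : V) (n : ℕ) : (perc G p).real (ev G x n) =
    hit (Ein G (nbk G (n + 1) {x})) p ∅ x (nbk G (n + 1) {x} \ nbk G n {x}) := by
  rw [ev, perc_real_eq G p _ (Ein_sub_edgeSet _ _)
    (fun ξ => ConnTo ξ x (nbk G (n + 1) {x} \ nbk G n {x})), hit]
  simp only [Finset.empty_union]

open Classical in
theorem inf_of_ev (hc : G.Connected) {x : V} {ω : Set (Sym2 V)}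
    (h : ∀ n : ℕ, ∃ k, n ≤ k ∧ ω ∈ ev G x k) : ω ∈ infCluster V := by
  refine ⟨x, fun hfin => ?_⟩
  choose f hf using fun y => exists_nbk (hc.preconnected x y)
  obtain ⟨B, hB⟩ := (hfin.image f).bddAbove
  obtain ⟨k, hk, y, hy, hy'⟩ := h B
  have h1 : f y ≤ B := hB ⟨y, reach_of_conn (fun e he => (Finset.mem_filter.1 he).2) hy', rfl⟩
  exact (Finset.mem_sdiff.1 hy).2 (nbk_mono_left G (h1.trans hk) _ (hf y))

open Classical in
theorem ev_of_inf {x : V} {ω : Set (Sym2 V)} (hω : ω ⊆ G.edgeSet)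
    (h : {y | (SimpleGraph.fromEdgeSet ω).Reachable x y}.Infinite) (n : ℕ) : ω ∈ ev G x n := by
  obtain ⟨y, hy, hyb⟩ := h.exists_notMem_finset (nbk G n {x})
  have key : ∀ z, Relation.ReflTransGen (SimpleGraph.fromEdgeSet ω).Adj x z → ω ∈ ev G x n ∨
      (z ∈ nbk G n {x} ∧ Conn ((Ein G (nbk G (n + 1) {x})).filter (· ∈ ω)) x z) := by
    intro z hz
    induction hz with
    | refl =>
      exact Or.inr ⟨nbk_mono_left G (Nat.zero_le n) _ (Finset.mem_singleton_self x), Conn.refl _ _⟩
    | @tail b c _ h2 ih =>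
      rcases ih with ih | ⟨hb, ih⟩
      · exact Or.inl ih
      · have h3 := ((SimpleGraph.fromEdgeSet_adj _).1 h2).1
        have h4 : G.Adj b c := hω h3
        have h5 : c ∈ nbk G (n + 1) {x} := by
          rw [nbk_succ, mem_nb]; exact Or.inr ⟨b, hb, h4⟩
        have h6 := ih.trans (Conn.single (Finset.mem_filter.2
          ⟨mk_mem_Ein.2 ⟨nbk_mono_left G n.le_succ _ hb, h5, h4⟩, h3⟩))
        by_cases hc : c ∈ nbk G n {x}
        · exact Or.inr ⟨hc, h6⟩
        · exact Or.inl ⟨c, Finset.mem_sdiff.2 ⟨h5, hc⟩, h6⟩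
  rcases key y ((SimpleGraph.reachable_iff_reflTransGen _ _).1 hy) with h | h
  · exact h
  · exact absurd h.1 hyb

end GBridgeAux

open GBridgeAux in
theorem perc_pos_iffG {V : Type} [DecidableEq V] (G : SimpleGraph V) [G.LocallyFinite]
    (hc : G.Connected) (p : I) :
    0 < perc G p (infCluster V) ↔ ∃ x, PercG G (p : ℝ) x := by
  have := countable_of_conn hc
  have : IsProbabilityMeasure (perc G p) := by
    unfold perc
    infer_instance
  constructor
  · intro h
    have e1 : infCluster V =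
        ⋃ x, {ω | {y | (SimpleGraph.fromEdgeSet ω).Reachable x y}.Infinite} := by
      ext ω
      simp [infCluster]
    rw [e1] at h
    obtain ⟨x, hx⟩ : ∃ x, perc G p
        {ω | {y | (SimpleGraph.fromEdgeSet ω).Reachable x y}.Infinite} ≠ 0 := by
      by_contra hc
      exact h.ne' (measure_iUnion_null fun x => not_not.1 fun h' => hc ⟨x, h'⟩)
    refine ⟨x, _, ENNReal.toReal_pos hx (measure_ne_top _ _), fun n => ?_⟩
    rw [← real_ev, measureReal_def]
    refine ENNReal.toReal_mono (measure_ne_top _ _) (measure_mono_ae ?_)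
    have hae : ∀ᵐ ω ∂(perc G p), ω ⊆ G.edgeSet := setBernoulli_ae_subset
    filter_upwards [hae] with ω hω h2
    exact ev_of_inf hω h2 n
  · rintro ⟨x, c, hc0, h⟩
    set Gn : ℕ → Set (Set (Sym2 V)) := fun n => ⋃ k, ⋃ (_ : n ≤ k), ev G x k with hGn
    have hmeas : ∀ n, MeasurableSet (Gn n) := fun n =>
      MeasurableSet.iUnion fun k => MeasurableSet.iUnion fun _ => meas_ev x k
    have hanti : Antitone Gn := by
      intro n m hnm ω hω
      simp only [hGn, Set.mem_iUnion] at hω ⊢
      obtain ⟨k, hk, h1⟩ := hω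
      exact ⟨k, hnm.trans hk, h1⟩
    have hlow : ∀ n, ENNReal.ofReal c ≤ perc G p (Gn n) := by
      intro n
      have h1 := h n
      rw [← real_ev, measureReal_def] at h1
      refine (ENNReal.ofReal_le_of_le_toReal h1).trans (measure_mono fun ω hω => ?_)
      simp only [hGn, Set.mem_iUnion]
      exact ⟨n, le_rfl, hω⟩
    have hlim := tendsto_measure_iInter_atTop (μ := perc G p)
      (fun n => (hmeas n).nullMeasurableSet) hanti ⟨0, measure_ne_top _ _⟩
    have h3 : ENNReal.ofReal c ≤ perc G p (⋂ n, Gn n) := ge_of_tendsto' hlim hlow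
    refine lt_of_lt_of_le (ENNReal.ofReal_pos.2 hc0) (h3.trans (measure_mono fun ω hω => ?_))
    refine inf_of_ev hc (x := x) fun n => ?_
    have h4 := Set.mem_iInter.1 hω n
    simp only [hGn, Set.mem_iUnion] at h4
    obtain ⟨k, hk, h5⟩ := h4
    exact ⟨k, hk, h5⟩

end Vale.Agent.P151
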