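import Mathlib
import Vale.Agent.P151.Conn

namespace Vale.Agent.P151

open Finset

namespace HitAux

section General

variable {V : Type} [DecidableEq V]

omit [DecidableEq V] in
theorem conn_map {φ : V → V} {ω ω' : Finset (Sym2 V)} (h : ∀ a b, s(a, b) ∈ ω → s(φ a, φ b) ∈ ω')
    {x y : V} (hc : Conn ω x y) : Conn ω' (φ x) (φ y) := by
  induction hc with
  | refl => exact Conn.refl _ _
  | tail _ h2 ih => exact ih.trans (Conn.single (h _ _ h2))

theorem hitS_map {G : SimpleGraph V} {φ : V → V} (hφ : Function.Injective φ)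
    (hadj : ∀ x y, G.Adj x y → G.Adj (φ x) (φ y)) {p : ℝ} (h0 : 0 ≤ p) (h1 : p ≤ 1)
    {W W' A A' T T' : Finset V} (hW : ∀ x ∈ W, φ x ∈ W') (hA : ∀ x ∈ A, φ x ∈ A')
    (hT : ∀ x ∈ T, φ x ∈ T') :
    hitS (Ein G W) p ∅ A T ≤ hitS (Ein G W') p ∅ A' T' := by
  have hi : Function.Injective (Sym2.map φ) := Sym2.map.injective hφ
  have h2 : hitS (Ein G W) p ∅ A T ≤ hitS ((Ein G W).image (Sym2.map φ)) p ∅ A' T' := by
    unfold hitS
    rw [Ex_image _ hi]
    refine Ex_mono (adm_const h0 h1) fun ω _ => ind_mono ?_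
    rintro ⟨u, hu, t, ht, hc⟩
    refine ⟨φ u, hA u hu, φ t, hT t ht, conn_map (fun a b hab => ?_) hc⟩
    rw [empty_union] at hab ⊢
    exact mem_image.2 ⟨_, hab, rfl⟩
  refine h2.trans (hitS_mono h0 h1 Subset.rfl ?_ Subset.rfl Subset.rfl)
  intro e he
  obtain ⟨e', he', rfl⟩ := mem_image.1 he
  induction e' using Sym2.ind with
  | h a b =>
    rw [union_empty]
    obtain ⟨ha, hb, hab⟩ := mk_mem_Ein.1 he'
    exact mk_mem_Ein.2 ⟨hW a ha, hW b hb, hadj a b hab⟩

theorem nbk_map {G : SimpleGraph V} [G.LocallyFinite] {φ : V → V}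
    (hadj : ∀ x y, G.Adj x y → G.Adj (φ x) (φ y)) (k : ℕ) (v x : V) (hx : x ∈ nbk G k {v}) :
    φ x ∈ nbk G k {φ v} := by
  induction k generalizing x with
  | zero => rw [nbk_zero, mem_singleton] at hx ⊢; rw [hx]
  | succ k ih =>
    rw [nbk_succ, mem_nb] at hx ⊢
    rcases hx with hx | ⟨y, hy, hxy⟩
    · exact Or.inl (ih x hx)
    · exact Or.inr ⟨φ y, ih y hy, hadj _ _ hxy⟩

theorem ex_zero {E : Type} [DecidableEq E] (F : Finset E) (f : Finset E → ℝ) :
    Ex F (fun _ => (0 : ℝ)) f = f ∅ := by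
  induction F using Finset.induction_on with
  | empty => simp
  | insert e F he ih => rw [Ex_insert he, ih]; ring

theorem harris_prod {E ι : Type} [DecidableEq E] [DecidableEq ι] {q : E → ℝ} (hq : Adm q)
    (F : Finset E) (S : Finset ι) (f : ι → Finset E → ℝ) (hf : ∀ i, Antitone (f i))
    (hf0 : ∀ i ω, 0 ≤ f i ω) :
    ∏ i ∈ S, Ex F q (f i) ≤ Ex F q (fun ω => ∏ i ∈ S, f i ω) := by
  induction S using Finset.induction_on with
  | empty => simp
  | insert a S ha ih =>
    simp only [prod_insert ha]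
    refine le_trans (mul_le_mul_of_nonneg_left ih (Ex_nonneg hq fun ω _ => hf0 a ω)) ?_
    refine harris_anti_anti hq F (hf a) ?_
    intro ω ω' h
    exact prod_le_prod (fun i _ => hf0 i _) fun i _ => hf i h

end General

variable {d : ℕ}

/-- sign of a boolean -/
def sg (b : Bool) : ℤ := if b then 1 else -1

theorem mem_face {v x : Fin d → ℤ} {r : ℤ} {i : Fin d} {s : Fin d → Bool} (hr : 0 ≤ r) :
    x ∈ face v r i s ↔
      (∀ j, 0 ≤ sg (s j) * (x j - v j) ∧ sg (s j) * (x j - v j) ≤ r) ∧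
        sg (s i) * (x i - v i) = r := by
  unfold face
  rw [mem_boxI]
  constructor
  · intro h
    refine ⟨fun j => ?_, ?_⟩
    · have := h j
      by_cases hj : j = i
      · subst hj
        cases hs : s j <;> simp only [hs, sg, if_true, Bool.false_eq_true, if_false] at this ⊢ <;>
          omega
      · cases hs : s j <;>
          simp only [hs, hj, sg, if_true, Bool.false_eq_true, if_false] at this ⊢ <;> omega
    · have := h i
      cases hs : s i <;> simp only [hs, sg, if_true, Bool.false_eq_true, if_false] at this ⊢ <;>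
        omega
  · rintro ⟨h, hi⟩ j
    have := h j
    by_cases hj : j = i
    · subst hj
      cases hs : s j <;> simp only [hs, sg, if_true, Bool.false_eq_true, if_false] at this hi ⊢ <;>
        omega
    · cases hs : s j <;>
        simp only [hs, hj, sg, if_true, Bool.false_eq_true, if_false] at this ⊢ <;> omega

theorem sg_mul_self (b : Bool) : sg b * sg b = 1 := by cases b <;> simp [sg]

theorem abs_sg (b : Bool) : |sg b| = 1 := by cases b <;> simp [sg]

/-- all face orthants are equivalent -/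
theorem hitS_face_le {p : ℝ} (h0 : 0 ≤ p) (h1 : p ≤ 1) (m l : ℕ) (v : Fin d → ℤ) (i i' : Fin d)
    (s s' : Fin d → Bool) :
    hitS (Ein (lattice d) (box 0 l)) p ∅ (nbk (lattice d) m {0}) (face 0 l i s) ≤
      hitS (Ein (lattice d) (box v l)) p ∅ (nbk (lattice d) m {v}) (face v l i' s') := by
  let σ : Equiv.Perm (Fin d) := Equiv.swap i i'
  let φ : (Fin d → ℤ) → (Fin d → ℤ) := fun x j => v j + sg (s' j) * (sg (s (σ j)) * x (σ j))
  have hd : ∀ x y j, |φ x j - φ y j| = |x (σ j) - y (σ j)| := by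
    intro x y j
    have : φ x j - φ y j = sg (s' j) * (sg (s (σ j)) * (x (σ j) - y (σ j))) := by
      simp only [φ]; ring
    rw [this, abs_mul, abs_mul, abs_sg, abs_sg, one_mul, one_mul]
  have hφ : Function.Injective φ := by
    intro x y h
    funext j
    have := hd x y (σ.symm j)
    rw [h, sub_self, abs_zero, σ.apply_symm_apply] at this
    have := abs_eq_zero.1 this.symm
    omega
  have hadj : ∀ x y, (lattice d).Adj x y → (lattice d).Adj (φ x) (φ y) := by
    intro x y h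
    change ∑ j, |φ x j - φ y j| = 1
    have h' : ∑ j, |x j - y j| = 1 := h
    simp only [hd]
    rw [← h']
    exact Equiv.sum_comp σ (fun j => |x j - y j|)
  have hφ0 : φ 0 = v := by funext j; simp [φ]
  refine hitS_map hφ hadj h0 h1 ?_ ?_ ?_
  · intro x hx
    rw [mem_box] at hx ⊢
    intro j
    have h2 := hd x 0 j
    have h3 := hx (σ j)
    rw [hφ0] at h2
    simp only [Pi.zero_apply, sub_zero, zero_sub, zero_add] at h2 h3
    have h4 : |φ x j - v j| ≤ l := by rw [h2]; exact abs_le.2 h3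
    rw [abs_le] at h4
    omega
  · intro x hx
    have := nbk_map hadj m 0 x hx
    rwa [hφ0] at this
  · intro x hx
    rw [mem_face (Int.natCast_nonneg l)] at hx ⊢
    have key : ∀ j, sg (s' j) * (φ x j - v j) = sg (s (σ j)) * (x (σ j) - (0 : Fin d → ℤ) (σ j)) := by
      intro j
      simp only [φ, Pi.zero_apply, sub_zero, add_sub_cancel_left]
      rw [← mul_assoc, sg_mul_self, one_mul]
    refine ⟨fun j => ?_, ?_⟩
    · rw [key]; exact hx.1 _
    · rw [key]
      have : σ i' = i := Equiv.swap_apply_right _ _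
      rw [this]; exact hx.2

theorem mem_bd {n : ℕ} {x : Fin d → ℤ} : x ∈ bd d n ↔ (∀ j, |x j| ≤ n) ∧ ∃ i, |x i| = n := by
  unfold bd
  rw [mem_filter, mem_box]
  simp only [Pi.zero_apply, zero_sub, zero_add, abs_le]

theorem mem_box0 {n : ℕ} {x : Fin d → ℤ} : x ∈ box 0 (n : ℤ) ↔ ∀ j, |x j| ≤ n := by
  rw [mem_box]
  simp only [Pi.zero_apply, zero_sub, zero_add, abs_le]

theorem exists_face {n : ℕ} {x : Fin d → ℤ} (hx : x ∈ bd d n) :
    ∃ i s, x ∈ face 0 (n : ℤ) i s := by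
  obtain ⟨h, i, hi⟩ := mem_bd.1 hx
  have key : ∀ j, sg (decide (0 ≤ x j)) * (x j - (0 : Fin d → ℤ) j) = |x j| := by
    intro j
    by_cases hj : 0 ≤ x j
    · simp [sg, hj, abs_of_nonneg hj]
    · simp [sg, hj, abs_of_neg (not_le.1 hj)]
  refine ⟨i, fun j => decide (0 ≤ x j), (mem_face (Int.natCast_nonneg n)).2 ⟨fun j => ?_, ?_⟩⟩
  · rw [key]; exact ⟨abs_nonneg _, h j⟩
  · rw [key]; exact hi

/-- the square root trick -/
theorem sqrt_trick {p : ℝ} (h0 : 0 ≤ p) (h1 : p ≤ 1) (m l : ℕ) (δ : ℝ) (hδ : 0 < δ)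
    (h : 1 - δ ^ Fintype.card (Fin d × (Fin d → Bool)) ≤
      hitS (Ein (lattice d) (box 0 l)) p ∅ (nbk (lattice d) m {0}) (bd d l)) :
    HitAt d p m l δ := by
  intro v i' s'
  by_contra hcon
  rw [not_le] at hcon
  set a := 1 - hitS (Ein (lattice d) (box v l)) p ∅ (nbk (lattice d) m {v}) (face v l i' s')
    with ha
  have hδa : δ < a := by linarith
  let f : Fin d × (Fin d → Bool) → Finset (Sym2 (Fin d → ℤ)) → ℝ := fun k ω =>
    1 - ind (∃ u ∈ nbk (lattice d) m {0}, ConnTo (∅ ∪ ω) u (face 0 l k.1 k.2))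
  have hf : ∀ k, Antitone (f k) := by
    intro k ω ω' hω
    refine sub_le_sub_left (ind_mono ?_) _
    rintro ⟨u, hu, hc⟩
    exact ⟨u, hu, hc.mono (union_subset_union Subset.rfl hω) Subset.rfl⟩
  have hf0 : ∀ k ω, 0 ≤ f k ω := fun k ω => sub_nonneg.2 (ind_le_one _)
  have hH := harris_prod (adm_const h0 h1) (Ein (lattice d) (box 0 l)) univ f hf hf0
  have h2 : ∀ k, a ≤ Ex (Ein (lattice d) (box 0 l)) (fun _ => p) (f k) := by
    intro k
    simp only [f]
    rw [Ex_sub, Ex_const]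
    exact sub_le_sub_left (hitS_face_le h0 h1 m l v k.1 i' k.2 s') _
  have h3 : a ^ Fintype.card (Fin d × (Fin d → Bool)) ≤
      ∏ k, Ex (Ein (lattice d) (box 0 l)) (fun _ => p) (f k) := by
    rw [← card_univ, ← prod_const]
    exact prod_le_prod (fun _ _ => by linarith) fun k _ => h2 k
  have h4 : Ex (Ein (lattice d) (box 0 l)) (fun _ => p) (fun ω => ∏ k, f k ω) ≤
      1 - hitS (Ein (lattice d) (box 0 l)) p ∅ (nbk (lattice d) m {0}) (bd d l) := by
    unfold hitS
    rw [← Ex_const (Ein (lattice d) (box 0 (l : ℤ))) (fun _ => p) 1, ← Ex_sub]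
    refine Ex_mono (adm_const h0 h1) fun ω _ => ?_
    by_cases hc : ∃ u ∈ nbk (lattice d) m {0}, ConnTo (∅ ∪ ω) u (bd d l)
    · rw [ind_pos hc, sub_self]
      obtain ⟨u, hu, t, ht, hc⟩ := hc
      obtain ⟨i, s, hts⟩ := exists_face ht
      rw [prod_eq_zero (mem_univ (i, s))]
      simp only [f]
      rw [ind_pos ⟨u, hu, t, hts, hc⟩, sub_self]
    · rw [ind_neg hc, sub_zero]
      exact prod_le_one (fun k _ => hf0 k ω) fun k _ => sub_le_self _ (ind_nonneg _)
  have hN : Fintype.card (Fin d × (Fin d → Bool)) ≠ 0 :=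
    (Fintype.card_pos_iff.2 ⟨(i', s')⟩).ne'
  have h5 := pow_lt_pow_left₀ hδa hδ.le hN
  linarith

theorem mem_nbk_of_sum_le (k : ℕ) (x : Fin d → ℤ) (h : ∑ j, |x j| ≤ k) :
    x ∈ nbk (lattice d) k {0} := by
  induction k generalizing x with
  | zero =>
    rw [nbk_zero, mem_singleton]
    funext j
    have h2 : |x j| ≤ ∑ j, |x j| :=
      single_le_sum (f := fun j => |x j|) (fun _ _ => abs_nonneg _) (mem_univ j)
    have h3 := abs_nonneg (x j)
    have h4 : |x j| = 0 := by push_cast at h; omega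
    exact abs_eq_zero.1 h4
  | succ k ih =>
    rw [nbk_succ, mem_nb]
    by_cases hx : x = 0
    · left
      apply ih
      simp [hx]
    · right
      obtain ⟨i, hi⟩ : ∃ i, x i ≠ 0 := by
        by_contra hcon
        push Not at hcon
        exact hx (funext hcon)
      have key : ∀ y : Fin d → ℤ, (∀ j, j ≠ i → y j = x j) → |y i| + 1 = |x i| →
          ∑ j, |y j| ≤ k := by
        intro y hy hyi
        have e1 := add_sum_erase univ (fun j => |x j|) (mem_univ i)
        have e2 := add_sum_erase univ (fun j => |y j|) (mem_univ i)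
        have e3 : ∑ j ∈ univ.erase i, |y j| = ∑ j ∈ univ.erase i, |x j| :=
          sum_congr rfl fun j hj => by rw [hy j (mem_erase.1 hj).1]
        push_cast at h
        omega
      rcases lt_or_gt_of_ne hi with h1 | h1
      · refine ⟨x + Pi.single i 1, ih _ (key _ (fun j hj => by simp [hj]) ?_),
          lattice_adj.2 ⟨i, Or.inr (by simp)⟩⟩
        simp only [Pi.add_apply, Pi.single_eq_same]
        rw [abs_of_nonpos (by omega), abs_of_neg h1]; ring
      · refine ⟨x - Pi.single i 1, ih _ (key _ (fun j hj => by simp [hj]) ?_),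
          lattice_adj.2 ⟨i, Or.inl (by simp)⟩⟩
        simp only [Pi.sub_apply, Pi.single_eq_same]
        rw [abs_of_nonneg (by omega), abs_of_pos h1]; ring

theorem box_subset_nbk (n m : ℕ) (h : d * n ≤ m) : box 0 (n : ℤ) ⊆ nbk (lattice d) m {0} := by
  intro x hx
  rw [mem_box0] at hx
  apply mem_nbk_of_sum_le
  calc ∑ j, |x j| ≤ ∑ _j : Fin d, (n : ℤ) := sum_le_sum fun j _ => hx j
    _ = ((d * n : ℕ) : ℤ) := by simp
    _ ≤ m := by exact_mod_cast h

/-- first visit to the boundary of a box -/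
theorem first_visit {n l : ℕ} (hnl : n ≤ l) {ω : Finset (Sym2 (Fin d → ℤ))}
    (hω : ω ⊆ Ein (lattice d) (box 0 (l : ℤ))) {x : Fin d → ℤ} (hx : x ∈ box 0 (n : ℤ))
    (h : ConnTo ω x (bd d l)) : ConnTo (ω ∩ Ein (lattice d) (box 0 (n : ℤ))) x (bd d n) := by
  obtain ⟨t, ht, hc⟩ := h
  have key : ∀ y, Conn ω x y → ConnTo (ω ∩ Ein (lattice d) (box 0 (n : ℤ))) x (bd d n) ∨
      (Conn (ω ∩ Ein (lattice d) (box 0 (n : ℤ))) x y ∧ y ∈ box 0 (n : ℤ)) := by
    intro y hy
    induction hy with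
    | refl => exact Or.inr ⟨Conn.refl _ _, hx⟩
    | @tail b c _ h2 ih =>
      rcases ih with ih | ⟨ih, hb⟩
      · exact Or.inl ih
      · by_cases hbd : b ∈ bd d n
        · exact Or.inl ⟨b, hbd, ih⟩
        · have hadj := (mk_mem_Ein.1 (hω h2)).2.2
          have hc : c ∈ box 0 (n : ℤ) := by
            rw [mem_box0] at hb ⊢
            intro j
            have e1 := hb j
            have e2 : |b j| ≠ n := fun e => hbd (mem_bd.2 ⟨hb, j, e⟩)
            have e3 := lattice_adj_abs hadj j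
            have e4 : |c j| ≤ |b j| + |b j - c j| := by
              have := abs_sub (b j) (b j - c j)
              simpa using this
            omega
          exact Or.inr ⟨ih.trans (Conn.single (mem_inter.2 ⟨h2, mk_mem_Ein.2 ⟨hb, hc, hadj⟩⟩)), hc⟩
  rcases key t hc with h | ⟨h, htn⟩
  · exact h
  · refine ⟨t, ?_, h⟩
    rw [mem_box0] at htn
    obtain ⟨_, i, hi⟩ := mem_bd.1 ht
    have := htn i
    exact mem_bd.2 ⟨htn, i, by omega⟩

theorem box_mono {n l : ℕ} (hnl : n ≤ l) : box (0 : Fin d → ℤ) (n : ℤ) ⊆ box 0 (l : ℤ) := by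
  intro x hx
  rw [mem_box0] at hx ⊢
  intro j
  have := hx j
  omega

/-- the annulus step -/
theorem annulus {p : ℝ} (h0 : 0 ≤ p) (h1 : p ≤ 1) {n m l : ℕ} (hnl : n ≤ l) (hm : d * n ≤ m)
    {x : Fin d → ℤ} (hx : x ∈ box 0 (n : ℤ)) :
    hit (Ein (lattice d) (box 0 (l : ℤ))) p ∅ x (bd d l) ≤
      hit (Ein (lattice d) (box 0 (n : ℤ))) p ∅ x (bd d n) *
        hitS (Ein (lattice d) (box 0 (l : ℤ))) p ∅ (nbk (lattice d) m {0}) (bd d l) := by
  have hs : Ein (lattice d) (box 0 (n : ℤ)) ⊆ Ein (lattice d) (box 0 (l : ℤ)) :=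
    Ein_mono _ (box_mono hnl)
  have h2 : hitS (Ein (lattice d) (box 0 (l : ℤ)) \ Ein (lattice d) (box 0 (n : ℤ))) p ∅
      (box 0 (n : ℤ)) (bd d l) ≤
      hitS (Ein (lattice d) (box 0 (l : ℤ))) p ∅ (nbk (lattice d) m {0}) (bd d l) :=
    hitS_mono h0 h1 Subset.rfl (sdiff_subset.trans subset_union_left) (box_subset_nbk n m hm)
      Subset.rfl
  refine le_trans ?_ (mul_le_mul_of_nonneg_left h2 (hit_nonneg h0 h1 _ _))
  unfold hit hitS
  rw [← Ex_indep hs sdiff_subset disjoint_sdiff]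
  refine Ex_mono (adm_const h0 h1) fun ω hω => ?_
  rw [← ind_and]
  refine ind_mono fun hc => ?_
  simp only [empty_union] at hc ⊢
  refine ⟨first_visit hnl hω hx hc, ?_⟩
  obtain ⟨t, ht, hc⟩ := hc
  obtain ⟨u, hu, hc'⟩ := connTo_sdiff (G := lattice d) (⟨x, hx, hc.symm⟩ : ConnTo ω t (box 0 (n : ℤ)))
  refine ⟨u, hu, t, ht, hc'.symm.mono fun e he => ?_⟩
  rw [mem_sdiff] at he
  exact mem_inter.2 ⟨he.1, mem_sdiff.2 ⟨hω he.1, he.2⟩⟩

theorem exists_box (x : Fin d → ℤ) : ∃ n : ℕ, ∀ j, |x j| < n := by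
  refine ⟨(∑ j, |x j|).toNat + 1, fun j => ?_⟩
  have h2 : |x j| ≤ ∑ j, |x j| :=
    single_le_sum (f := fun j => |x j|) (fun _ _ => abs_nonneg _) (mem_univ j)
  push_cast
  omega

theorem hit_bd {p : ℝ} (h0 : 0 ≤ p) (h1 : p ≤ 1) {x : Fin d → ℤ} (h : PercFin d p x) (ε : ℝ)
    (hε : 0 < ε) : ∃ m : ℕ, ∀ l : ℕ, m ≤ l →
      1 - ε ≤ hitS (Ein (lattice d) (box 0 (l : ℤ))) p ∅ (nbk (lattice d) m {0}) (bd d l) := by
  by_contra hcon
  push Not at hcon
  obtain ⟨c, hc, h⟩ := h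
  have key : ∀ i : ℕ, ∃ n : ℕ, x ∈ box 0 (n : ℤ) ∧
      hit (Ein (lattice d) (box 0 (n : ℤ))) p ∅ x (bd d n) ≤ (1 - ε) ^ i := by
    intro i
    induction i with
    | zero =>
      obtain ⟨n, hn⟩ := exists_box x
      exact ⟨n, mem_box0.2 fun j => (hn j).le, by simpa using hit_le_one h0 h1 _ _⟩
    | succ i ih =>
      obtain ⟨n, hx, hn⟩ := ih
      obtain ⟨l, hl, hlt⟩ := hcon (d * n + n)
      have hnl : n ≤ l := by omega
      refine ⟨l, box_mono hnl hx, ?_⟩
      have h3 := annulus h0 h1 hnl (Nat.le_add_right (d * n) n) hx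
      have h4 : 0 ≤ hitS (Ein (lattice d) (box 0 (l : ℤ))) p ∅
          (nbk (lattice d) (d * n + n) {0}) (bd d l) :=
        Ex_nonneg (adm_const h0 h1) fun _ _ => ind_nonneg _
      rw [pow_succ]
      exact h3.trans (mul_le_mul hn hlt.le h4 ((hit_nonneg h0 h1 _ _).trans hn))
  obtain ⟨i, hi⟩ := exists_pow_lt_of_lt_one hc (show 1 - ε < 1 by linarith)
  obtain ⟨n, hx, hn⟩ := key i
  have := h n hx
  linarith

end HitAux

set_option linter.unusedVariables false in
/-- Percolation makes every face orthant likely. -/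
theorem hit_of_perc (d : ℕ) (hd : 0 < d) (p : ℝ) (h0 : 0 ≤ p) (h1 : p ≤ 1) (x : Fin d → ℤ)
    (h : PercFin d p x) (δ : ℝ) (hδ : 0 < δ) : ∃ m : ℕ, ∀ l : ℕ, m ≤ l → HitAt d p m l δ := by
  obtain ⟨m, hm⟩ := HitAux.hit_bd h0 h1 h (δ ^ Fintype.card (Fin d × (Fin d → Bool)))
    (pow_pos hδ _)
  exact ⟨m, fun l hl => HitAux.sqrt_trick h0 h1 m l δ hδ (hm l hl)⟩

/-- The hitting estimate is an open condition. -/
theorem hit_cont (d : ℕ) (p : ℝ) (h0 : 0 < p) (h1 : p ≤ 1) (m l : ℕ) (δ : ℝ) (hδ : 0 < δ)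
    (h : HitAt d p m l (δ / 2)) : ∃ p' : ℝ, p / 2 ≤ p' ∧ p' < p ∧ HitAt d p' m l δ := by
  have h2 : ∀ k : Fin d × (Fin d → Bool), ∀ᶠ t in nhds p, 1 - δ <
      hitS (Ein (lattice d) (box 0 l)) t ∅ (nbk (lattice d) m {0}) (face 0 l k.1 k.2) := by
    intro k
    have hc : Continuous fun t : ℝ =>
        hitS (Ein (lattice d) (box 0 l)) t ∅ (nbk (lattice d) m {0}) (face 0 l k.1 k.2) :=
      continuous_Ex _ (fun t _ => t) (fun _ => continuous_id) _
    have h3 := h 0 k.1 k.2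
    exact hc.continuousAt.eventually (lt_mem_nhds (by linarith))
  have h3 := Filter.eventually_all.2 h2
  have h4 : ∀ᶠ t in nhds p, p / 2 < t := lt_mem_nhds (by linarith)
  have h5 : ∀ᶠ t in nhdsWithin p (Set.Iio p), _ := (h3.and h4).filter_mono nhdsWithin_le_nhds
  obtain ⟨t, ⟨ht1, ht2⟩, ht3⟩ := (h5.and self_mem_nhdsWithin).exists
  have ht3' : t < p := ht3
  refine ⟨t, ht2.le, ht3', fun v i s => ?_⟩
  exact (ht1 (i, s)).le.trans
    (HitAux.hitS_face_le (by linarith) (by linarith) m l v i i s s)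

theorem not_percFin_zero (d : ℕ) (x : Fin d → ℤ) : ¬ PercFin d 0 x := by
  rintro ⟨c, hc, h⟩
  obtain ⟨n, hn⟩ := HitAux.exists_box x
  have h2 := h n (HitAux.mem_box0.2 fun j => (hn j).le)
  unfold hit at h2
  rw [HitAux.ex_zero, ind_neg] at h2
  · linarith
  · rintro ⟨t, ht, hc⟩
    have : t = x := by
      induction hc with
      | refl => rfl
      | tail _ h3 _ => simp at h3
    obtain ⟨_, i, hi⟩ := HitAux.mem_bd.1 ht
    have := hn i
    rw [‹t = x›] at hi
    omega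

end Vale.Agent.P151
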