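import Mathlib
import Vale.Agent.P151.GDefs
import Vale.Agent.P151.Hit

namespace Vale.Agent.P151

open Finset Filter

namespace GSetupAux

variable {V : Type} [DecidableEq V] {G : SimpleGraph V} [G.LocallyFinite]

theorem trans {k l : ℕ} {x y z : V} (h1 : x ∈ nbk G k {y}) (h2 : y ∈ nbk G l {z}) :
    x ∈ nbk G (k + l) {z} := by
  rw [nbk_add]
  exact nbk_mono G k (singleton_subset_iff.2 h2) h1

theorem reach {v x : V} (h : G.Reachable v x) : ∀ᶠ n in atTop, x ∈ nbk G n {v} := by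
  have h1 : ∃ n, x ∈ nbk G n {v} := by
    obtain ⟨w⟩ := h
    induction w with
    | nil => exact ⟨0, mem_singleton_self _⟩
    | cons h _ ih =>
      obtain ⟨n, hn⟩ := ih
      exact ⟨n + 1, trans hn (mem_nb.2 (Or.inr ⟨_, mem_singleton_self _, h⟩))⟩
  obtain ⟨n, hn⟩ := h1
  exact (eventually_ge_atTop n).mono fun m hm => nbk_mono_left G hm _ hn

theorem iso (φ : G ≃g G) {k : ℕ} {v x : V} (hx : x ∈ nbk G k {v}) : φ x ∈ nbk G k {φ v} :=
  HitAux.nbk_map (fun _ _ h => φ.map_rel_iff.2 h) k v x hx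

omit [DecidableEq V] [G.LocallyFinite] in
theorem exists_pi [Nonempty V] (Γ : Subgroup (G ≃g G)) {M : Type} [CommGroup M] (ρ : Γ →* M)
    (hst : ∀ (γ : Γ) (v : V), (γ : G ≃g G) v = v → ρ γ = 1) :
    ∃ π : V → M, ∀ (γ : Γ) (v : V), π ((γ : G ≃g G) v) = ρ γ * π v := by
  have h1 : ∀ v, ∃ γ : Γ, (γ : G ≃g G) (Classical.epsilon fun w => ∃ γ : Γ, (γ : G ≃g G) w = v)
      = v := fun v => Classical.epsilon_spec (p := fun w => ∃ γ : Γ, (γ : G ≃g G) w = v) ⟨v, 1, rfl⟩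
  choose g hg using h1
  refine ⟨fun v => ρ (g v), fun γ v => ?_⟩
  have h2 : (fun w => ∃ γ' : Γ, (γ' : G ≃g G) w = (γ : G ≃g G) v) =
      fun w => ∃ γ' : Γ, (γ' : G ≃g G) w = v := by
    refine funext fun w => propext ⟨fun ⟨γ', h⟩ => ⟨γ⁻¹ * γ', ?_⟩, fun ⟨γ', h⟩ => ⟨γ * γ', ?_⟩⟩
    · exact (γ : G ≃g G).symm_apply_eq.2 h
    · exact congrArg (γ : G ≃g G) h
  have h3 := hg ((γ : G ≃g G) v)
  rw [h2] at h3
  have h4 := hst ((g ((γ : G ≃g G) v))⁻¹ * (γ * g v)) _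
    ((g ((γ : G ≃g G) v) : G ≃g G).symm_apply_eq.2 ((congrArg (γ : G ≃g G) (hg v)).trans h3.symm))
  rw [map_mul, map_inv, inv_mul_eq_one, map_mul] at h4
  exact h4

omit [DecidableEq V] [G.LocallyFinite] in
theorem unif {Γ : Subgroup (G ≃g G)} {F : Finset V} (hF : ∀ v, ∃ γ ∈ Γ, γ v ∈ F)
    (P : V → ℕ → Prop) (h1 : ∀ v, ∀ᶠ n in atTop, P v n)
    (h2 : ∀ (γ : Γ) v n, P ((γ : G ≃g G) v) n → P v n) : ∀ᶠ n in atTop, ∀ v, P v n :=
  (F.eventually_all.2 fun v _ => h1 v).mono fun n hn v => by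
    obtain ⟨γ, hγ, h⟩ := hF v
    exact h2 ⟨γ, hγ⟩ v n (hn _ h)

theorem exists_aux (hc : G.Connected) {Γ : Subgroup (G ≃g G)} {F : Finset V}
    (hF : ∀ v, ∃ γ ∈ Γ, γ v ∈ F) (τ : Γ → Fin 2 → ℤ) (hτ : Function.Surjective τ)
    (π : V → Fin 2 → ℤ) (o : V) (ho : π o = 0)
    (hπ : ∀ (γ : Γ) (v : V), π ((γ : G ≃g G) v) = τ γ + π v) : Nonempty (ZQ G) := by
  have h1 := unif hF (fun v n => G.degree v ≤ n) (fun v => eventually_ge_atTop _)
    fun γ v n h => ((γ : G ≃g G).degree_eq v).symm.trans_le h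
  have h2 := unif hF (fun v n => ∀ y ∈ G.neighborFinset v, ∀ i, |π v i - π y i| ≤ n)
    (fun v => (G.neighborFinset v).eventually_all.2 fun y _ => eventually_all.2 fun i =>
      tendsto_natCast_atTop_atTop.eventually_ge_atTop _) fun γ v n h y hy i => by
      have := h ((γ : G ≃g G) y) ((G.mem_neighborFinset _ _).2
        ((γ : G ≃g G).map_rel_iff.2 ((G.mem_neighborFinset _ _).1 hy))) i
      simpa only [hπ, Pi.add_apply, add_sub_add_left_eq_sub] using this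
  have h3 := unif hF (fun v n => ∀ i : Fin 2, ∀ j ∈ ({1, -1} : Finset ℤ), ∃ x ∈ nbk G n {v},
      π x = π v + Pi.single i j)
    (fun v => eventually_all.2 fun i => (Finset.eventually_all _).2 fun j _ => by
      obtain ⟨γ, hγ⟩ := hτ (Pi.single i j)
      exact (reach (hc v ((γ : G ≃g G) v))).mono fun n hn => ⟨_, hn, by rw [hπ, hγ, add_comm]⟩)
    fun γ v n h i j hj => by
      obtain ⟨x, hx, h4⟩ := h i j hj
      obtain ⟨y, rfl⟩ := (γ : G ≃g G).surjective x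
      refine ⟨y, by simpa using iso (γ : G ≃g G).symm hx, ?_⟩
      rwa [hπ, hπ, add_assoc, add_right_inj] at h4
  have h4 := unif hF (fun v n => ∃ γ : Γ, (γ : G ≃g G) o ∈ nbk G n {v})
    (fun v => (reach (hc v o)).mono fun n hn => ⟨1, hn⟩) fun γ v n ⟨γ', h⟩ =>
      ⟨γ⁻¹ * γ', by
        have h5 := iso (γ : G ≃g G).symm h
        rw [RelIso.symm_apply_apply] at h5
        exact h5⟩
  obtain ⟨κ, ⟨⟨h1, h2⟩, h3, h4⟩, h5⟩ :=
    (((h1.and h2).and (h3.and h4)).and (eventually_gt_atTop 0)).exists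
  have h6 : ∀ v i, ∀ j ∈ ({1, -1} : Finset ℤ), ∀ n : ℕ, ∃ x ∈ nbk G (κ * n) {v},
      π x = π v + Pi.single i (j * n) := fun v i j hj n => by
    induction n with
    | zero => exact ⟨v, mem_singleton_self _, by simp⟩
    | succ n ih =>
      obtain ⟨x, hx, h7⟩ := ih
      obtain ⟨y, hy, h8⟩ := h3 x i j hj
      refine ⟨y, by rw [mul_add_one, add_comm]; exact trans hy hx, ?_⟩
      rw [h8, h7, add_assoc, ← Pi.single_add, Nat.cast_add_one, mul_add_one]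
  refine ⟨⟨π, o, κ, κ, h5, ho, h1, fun x y h => h2 x y ((G.mem_neighborFinset _ _).2 h),
    fun v i j => ?_, fun v => ?_⟩⟩
  · rcases Int.natAbs_eq j with h | h
    · simpa only [one_mul, ← h] using h6 v i 1 (by simp) j.natAbs
    · simpa only [neg_one_mul, ← h] using h6 v i (-1) (by simp) j.natAbs
  · obtain ⟨γ, h⟩ := h4 v
    exact ⟨γ, h, fun x => by rw [hπ, hπ, ho, add_zero, add_comm]⟩

end GSetupAux

theorem exists_ZQ {V : Type} [DecidableEq V] (G : SimpleGraph V) [G.LocallyFinite]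
    (hc : G.Connected) (Γ : Subgroup (G ≃g G)) (F : Finset V) (hF : ∀ v, ∃ γ ∈ Γ, γ v ∈ F)
    (ρ : Γ →* Multiplicative (ℤ × ℤ)) (hρ : Function.Surjective ρ)
    (hst : ∀ (γ : Γ) (v : V), (γ : G ≃g G) v = v → ρ γ = 1) : Nonempty (ZQ G) := by
  have := hc.nonempty
  obtain ⟨π, hπ⟩ := GSetupAux.exists_pi Γ ρ hst
  obtain ⟨o⟩ := hc.nonempty
  refine GSetupAux.exists_aux hc hF (fun γ => ![(ρ γ).toAdd.1, (ρ γ).toAdd.2]) (fun z => ?_)
    (fun v => ![(π v).toAdd.1 - (π o).toAdd.1, (π v).toAdd.2 - (π o).toAdd.2]) o ?_ fun γ v => ?_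
  · obtain ⟨γ, hγ⟩ := hρ (Multiplicative.ofAdd (z 0, z 1))
    refine ⟨γ, funext fun i => ?_⟩
    fin_cases i <;> simp [hγ]
  · funext i
    fin_cases i <;> simp
  · funext i
    fin_cases i <;> simp [hπ, add_sub_assoc]

theorem moveAt_all {V : Type} [DecidableEq V] {G : SimpleGraph V} [G.LocallyFinite] (Z : ZQ G)
    (A : (Fin 2 → ℤ) →+ (Fin 2 → ℤ)) {p δ : ℝ} (h0 : 0 ≤ p) (h1 : p ≤ 1) {m L : ℕ} {s e c k : ℤ}
    (hk : 0 ≤ k) (hlip : LipG G (fun x => A (Z.π x)) k)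
    (h : MoveAt G (fun x => A (Z.π x)) p m L s e c δ Z.o) (v : V) :
    MoveAt G (fun x => A (Z.π x)) p (m + Z.κ) (L + Z.κ) s (e + Z.κ * k) (c + Z.κ * k) δ v := by
  obtain ⟨φ, h2, h3⟩ := Z.homog v
  have h4 : ∀ z r, ∀ x ∈ win G (fun x => A (Z.π x)) Z.o L z r,
      φ x ∈ win G (fun x => A (Z.π x)) v (L + Z.κ) z (r + Z.κ * k) := fun z r x hx => by
    obtain ⟨h5, h6⟩ := mem_win.1 hx
    refine mem_win.2 ⟨GSetupAux.trans (GSetupAux.iso φ h5) h2, fun j => ?_⟩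
    have h7 := h6 j
    have h8 := abs_le_of_mem_nbkG hk hlip h2 j
    rw [Z.zero, map_zero, Pi.zero_apply, abs_le] at h7
    rw [h3 x, map_add, Pi.add_apply, abs_le]
    rw [abs_le] at h8
    constructor <;> linarith [h7.1, h7.2, h8.1, h8.2]
  exact fun i => (h i).trans (HitAux.hitS_map φ.injective (fun _ _ h => φ.map_rel_iff.2 h) h0 h1
    (h4 _ _) (fun x hx => GSetupAux.trans (GSetupAux.iso φ hx) h2) (h4 _ _))

theorem moveAt_cont {V : Type} [DecidableEq V] {G : SimpleGraph V} [G.LocallyFinite]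
    (ϖ : V → Fin 2 → ℤ) {p δ : ℝ} (h0 : 0 < p) (hδ : 0 < δ) {m L : ℕ} {s e c : ℤ} {v : V}
    (h : MoveAt G ϖ p m L s e c (δ / 2) v) :
    ∃ p' : ℝ, p / 2 ≤ p' ∧ p' < p ∧ MoveAt G ϖ p' m L s e c δ v := by
  have h2 : ∀ i : Fin 2, ∀ᶠ t in nhds p, 1 - δ <
      hitS (Ein G (win G ϖ v L 0 c)) t ∅ (nbk G m {v}) (win G ϖ v L (mv s i) e) := by
    intro i
    have hc : Continuous fun t : ℝ =>
        hitS (Ein G (win G ϖ v L 0 c)) t ∅ (nbk G m {v}) (win G ϖ v L (mv s i) e) :=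
      continuous_Ex _ (fun t _ => t) (fun _ => continuous_id) _
    have h3 := h i
    exact hc.continuousAt.eventually (lt_mem_nhds (by linarith))
  have h3 := Filter.eventually_all.2 h2
  have h4 : ∀ᶠ t in nhds p, p / 2 < t := lt_mem_nhds (by linarith)
  have h5 : ∀ᶠ t in nhdsWithin p (Set.Iio p), _ := (h3.and h4).filter_mono nhdsWithin_le_nhds
  obtain ⟨t, ⟨ht1, ht2⟩, ht3⟩ := (h5.and self_mem_nhdsWithin).exists
  exact ⟨t, ht2.le, ht3, fun i => (ht1 i).le⟩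

end Vale.Agent.P151
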