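import Mathlib

/-!
The planar continuity argument, for an abstract notion of likely targets.
-/

namespace Vale.Agent.P151.KkmAux

/-- the rules satisfied by likely targets -/
structure LkAx (Lk : (ℤ → ℤ → Prop) → (ℤ → ℤ → Prop) → ℝ → Prop) (κ b : ℤ) (δ0 : ℝ) : Prop where
  mono : ∀ {S S' T T' : ℤ → ℤ → Prop} {δ δ' : ℝ}, (∀ x y, S x y → S' x y) →
    (∀ x y, T x y → T' x y) → δ ≤ δ' → Lk S T δ → Lk S' T' δ'
  or : ∀ {S T1 T2 : ℤ → ℤ → Prop} {δ1 δ2 : ℝ}, 0 ≤ δ1 → 0 ≤ δ2 →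
    Lk S (fun x y => T1 x y ∨ T2 x y) (δ1 * δ2) → Lk S T1 δ1 ∨ Lk S T2 δ2
  inter : ∀ {S T : ℤ → ℤ → Prop} {δ : ℝ}, (∀ x y, |x| ≤ b → |y| ≤ b → S x y) → Lk S T δ →
    Lk S (fun x y => S x y ∧ T x y) δ
  exit : ∀ {S T : ℤ → ℤ → Prop} {δ : ℝ} (S0 S1 : ℤ → ℤ → Prop),
    (∀ x y, |x| ≤ b → |y| ≤ b → S0 x y) → (∀ x y, T x y → ¬ S0 x y) →
    (∀ x y x' y', S0 x y → |x - x'| ≤ κ → |y - y'| ≤ κ → S1 x' y') → Lk S T δ →
    Lk (fun x y => S x y ∧ S1 x y) (fun x y => (S x y ∧ S1 x y) ∧ ¬ S0 x y) δ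
  ne : ∀ {S T : ℤ → ℤ → Prop} {δ : ℝ}, Lk S T δ → δ < 1 → ∃ x y, T x y
  esc : ∀ j : ℕ, ∃ l : ℤ, 0 ≤ l ∧ ∀ S0 : ℤ → ℤ → Prop,
    (∀ x y, ¬ S0 x y ∨ ¬ S0 (x + j) y ∨ ¬ S0 x (y + j)) →
    Lk (fun x y => |x| ≤ l ∧ |y| ≤ l) (fun x y => ¬ S0 x y) δ0

/-- the normalised parallelogram -/
def Big (a τ h : ℤ) (x y : ℤ) : Prop := |x| ≤ 2 * a ∧ |a * y - h * x| ≤ 2 * τ

/-- a small cell -/
def Cell (q a τ h u1 u2 : ℤ) (x y : ℤ) : Prop :=
  q * |x - u1| ≤ a ∧ q * |a * y - h * x - u2| ≤ τ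

/-- the conclusion of the planar argument -/
def Goal (Lk : (ℤ → ℤ → Prop) → (ℤ → ℤ → Prop) → ℝ → Prop) (q r : ℤ) (δ : ℝ) : Prop :=
  ∃ a τ h u1 u2 v1 v2 : ℤ, r ≤ a ∧ r * (a + |h|) ≤ τ ∧ |u1| ≤ 2 * a ∧ |u2| ≤ 2 * τ ∧
    |v1| ≤ 2 * a ∧ |v2| ≤ 2 * τ ∧ a * τ ≤ 3 * |u1 * v2 - u2 * v1| ∧
    Lk (Big a τ h) (Cell q a τ h u1 u2) δ ∧ Lk (Big a τ h) (Cell q a τ h v1 v2) δ

variable {Lk : (ℤ → ℤ → Prop) → (ℤ → ℤ → Prop) → ℝ → Prop} {κ b : ℤ} {δ0 : ℝ}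

theorem LkAx.fin (H : LkAx Lk κ b δ0) {ι : Type} [DecidableEq ι] {S : ℤ → ℤ → Prop}
    (T : ι → ℤ → ℤ → Prop) {δ : ℝ} (hδ : 0 ≤ δ) (I : Finset ι) (hI : I.Nonempty)
    (h : Lk S (fun x y => ∃ i ∈ I, T i x y) (δ ^ I.card)) : ∃ i ∈ I, Lk S (T i) δ := by
  induction hI using Finset.Nonempty.cons_induction with
  | singleton i =>
    exact ⟨i, Finset.mem_singleton_self _, H.mono (fun _ _ h => h) (fun x y h => by simpa using h)
      (by simp) h⟩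
  | cons i I hi _ ih =>
    rw [Finset.card_cons, pow_succ'] at h
    rcases H.or (T1 := T i) (T2 := fun x y => ∃ i ∈ I, T i x y) hδ (pow_nonneg hδ _)
      (H.mono (fun _ _ h => h) (fun x y h => by simpa using h) le_rfl h) with h1 | h1
    · exact ⟨i, Finset.mem_cons_self _ _, h1⟩
    · obtain ⟨j, hj, h2⟩ := ih h1
      exact ⟨j, Finset.mem_cons_of_mem hj, h2⟩

theorem div_mem {q a x : ℤ} (hq : 0 ≤ q) (ha : 0 < a) (h : |x| ≤ 2 * a) :
    q * x / a ∈ Finset.Icc (-(2 * q)) (2 * q) := by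
  rw [abs_le] at h
  rw [Finset.mem_Icc, Int.le_ediv_iff_mul_le ha]
  exact ⟨by nlinarith, Int.ediv_le_of_le_mul ha (by nlinarith)⟩

theorem div_close {q a x x' : ℤ} (hq : 0 ≤ q) (ha : 0 < a) (h : q * x / a = q * x' / a) :
    q * |x - x'| ≤ a := by
  have h1 := Int.mul_ediv_add_emod (q * x) a
  have h2 := Int.mul_ediv_add_emod (q * x') a
  have h3 := Int.emod_nonneg (q * x) ha.ne'
  have h4 := Int.emod_nonneg (q * x') ha.ne'
  have h5 := Int.emod_lt_of_pos (q * x) ha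
  have h6 := Int.emod_lt_of_pos (q * x') ha
  rw [h] at h1
  have e : q * |x - x'| = |q * x - q * x'| := by rw [← mul_sub, abs_mul, abs_of_nonneg hq]
  rw [e, abs_le]
  constructor <;> linarith

theorem LkAx.cell (H : LkAx Lk κ b δ0) {q : ℕ} {a τ h : ℤ} (ha : 0 < a) (hτ : 0 < τ)
    {S T : ℤ → ℤ → Prop} {δ : ℝ} (hδ : 0 ≤ δ) (hδ1 : δ < 1) (hS : ∀ x y, S x y → Big a τ h x y)
    (hT : ∀ x y, T x y → Big a τ h x y) (hL : Lk S T (δ ^ ((4 * q + 1) ^ 2))) :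
    ∃ x y, T x y ∧ Lk (Big a τ h) (Cell q a τ h x (a * y - h * x)) δ := by
  have hq : (0 : ℤ) ≤ q := Int.natCast_nonneg q
  have hc : (Finset.Icc (-(2 * (q : ℤ))) (2 * q) ×ˢ Finset.Icc (-(2 * (q : ℤ))) (2 * q)).card =
      (4 * q + 1) ^ 2 := by
    have : (Finset.Icc (-(2 * (q : ℤ))) (2 * q)).card = 4 * q + 1 := by
      rw [Int.card_Icc]; omega
    rw [Finset.card_product, this, sq]
  obtain ⟨i, -, hi⟩ := H.fin (S := S) (fun (i : ℤ × ℤ) x y => T x y ∧ q * x / a = i.1 ∧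
      q * (a * y - h * x) / τ = i.2) hδ
    (Finset.Icc (-(2 * (q : ℤ))) (2 * q) ×ˢ Finset.Icc (-(2 * (q : ℤ))) (2 * q))
    ⟨(0, 0), by simp⟩ (by
      rw [hc]
      exact H.mono (fun _ _ h => h) (fun x y h => ⟨(_, _), Finset.mem_product.2
        ⟨div_mem hq ha (hT x y h).1, div_mem hq hτ (hT x y h).2⟩, h, rfl, rfl⟩) le_rfl hL)
  obtain ⟨x, y, h1, h2, h3⟩ := H.ne hi hδ1
  exact ⟨x, y, h1, H.mono hS (fun x' y' h' => ⟨div_close hq ha (h'.2.1.trans h2.symm),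
    div_close hq hτ (h'.2.2.trans h3.symm)⟩) le_rfl hi⟩

theorem det13 {a τ k x1 l1 x3 l3 : ℤ} (ha : 0 < a) (hk : 3 * k ≤ a) (h1 : a < |x1|)
    (h2 : 2 * |l1| ≤ τ) (h3 : |x3| ≤ a + k) (h4 : τ < |l3|) : a * τ ≤ 3 * |x1 * l3 - l1 * x3| := by
  have h5 := abs_sub_abs_le_abs_sub (x1 * l3) (l1 * x3)
  rw [abs_mul, abs_mul] at h5
  have h6 := abs_nonneg l1
  have h7 := abs_nonneg x3
  have h8 : a * τ ≤ |x1| * |l3| := mul_le_mul h1.le h4.le (by linarith) (by linarith)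
  have h9 : 2 * |l1| * (3 * |x3|) ≤ τ * (4 * a) :=
    mul_le_mul h2 (by linarith) (by linarith) (by linarith)
  nlinarith

theorem det12 {a τ x1 l1 x2 l2 : ℤ} (ha : 0 < a) (hτ : 12 * a ≤ τ) (h1 : a < |x1|)
    (h1' : |x1| ≤ 2 * a) (h2 : τ < 2 * |l1|) (h3 : 0 ≤ x1 * l1) (h4 : a < |x2|)
    (h5 : x2 * (l2 - x2) ≤ 0) : a * τ ≤ 3 * |x1 * l2 - l1 * x2| := by
  have e1 : x1 * l1 = |x1| * |l1| := by rw [← abs_mul, abs_of_nonneg h3]
  have e2 : x1 * x1 = |x1| * |x1| := (abs_mul_abs_self x1).symm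
  have e3 : x2 * x2 = |x2| * |x2| := (abs_mul_abs_self x2).symm
  have h6 : -(|x1| * |x2| * |x1 * l2 - l1 * x2|) ≤ x1 * x2 * (x1 * l2 - l1 * x2) := by
    rw [← abs_mul, ← abs_mul]; exact neg_abs_le _
  have h7 : x1 * x2 * (x1 * l2 - l1 * x2) ≤ |x1| * |x2| * (|x2| * (|x1| - |l1|)) := by
    have h8 : x1 * x1 * (x2 * l2) ≤ x1 * x1 * (x2 * x2) :=
      mul_le_mul_of_nonneg_left (by nlinarith) (mul_self_nonneg x1)
    calc x1 * x2 * (x1 * l2 - l1 * x2) = x1 * x1 * (x2 * l2) - x1 * l1 * (x2 * x2) := by ring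
      _ ≤ x1 * x1 * (x2 * x2) - x1 * l1 * (x2 * x2) := by linarith
      _ = _ := by rw [e1, e2, e3]; ring
  have h9 : 0 < |x1| * |x2| := mul_pos (by linarith) (by linarith)
  have h10 : |x2| * (|l1| - |x1|) ≤ |x1 * l2 - l1 * x2| := by
    by_contra hc
    have := mul_lt_mul_of_pos_left (not_le.1 hc) h9
    nlinarith
  have h11 : a * (|l1| - |x1|) ≤ |x2| * (|l1| - |x1|) :=
    mul_le_mul_of_nonneg_right h4.le (by linarith)
  nlinarith

theorem abs_lam {a h x y u v : ℤ} (ha : 0 ≤ a) (hx : |x| ≤ u) (hy : |y| ≤ v) :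
    |a * y - h * x| ≤ a * v + |h| * u := by
  have h1 := abs_sub (a * y) (h * x)
  rw [abs_mul, abs_mul, abs_of_nonneg ha] at h1
  have h2 := mul_le_mul_of_nonneg_left hy ha
  have h3 := mul_le_mul_of_nonneg_left hx (abs_nonneg h)
  linarith

theorem lam_lip {a h x y x' y' k t : ℤ} (ha : 0 ≤ a) (h0 : |a * y - h * x| ≤ t)
    (hx : |x - x'| ≤ k) (hy : |y - y'| ≤ k) : |a * y' - h * x'| ≤ t + k * (a + |h|) := by
  have h1 := abs_lam (h := h) ha hx hy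
  have e : a * y' - h * x' = (a * y - h * x) - (a * (y - y') - h * (x - x')) := by ring
  have h2 := abs_sub (a * y - h * x) (a * (y - y') - h * (x - x'))
  rw [e]
  nlinarith

theorem far_y {a H x y : ℤ} (ha : 0 < a) (hH : 0 ≤ H) (hx : a < |x|)
    (h : H * (x * x) ≤ a * |x * y|) : H ≤ |y| := by
  rw [abs_mul, ← abs_mul_abs_self x] at h
  by_contra hc
  have h1 : |y| < H := not_le.1 hc
  have h2 : 0 < |x| := by linarith
  have h3 : a * |y| < |x| * H := mul_lt_mul'' hx h1 ha.le (abs_nonneg y)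
  nlinarith [mul_lt_mul_of_pos_left h3 h2]

theorem LkAx.goal (H : LkAx Lk κ b δ0) (hκ : 0 ≤ κ) (hb : 0 ≤ b) (q : ℕ) {δ : ℝ} (hδ : 0 < δ)
    (hδ1 : δ < 1) (h0 : δ0 ≤ (δ ^ ((4 * q + 1) ^ 2)) ^ 3) (r0 : ℤ) : Goal Lk q r0 δ := by
  set δ3 := δ ^ ((4 * q + 1) ^ 2) with hδ3
  have hδ30 : 0 ≤ δ3 := by positivity
  have hδ31 : δ3 ≤ 1 := pow_le_one₀ hδ.le hδ1.le
  have h03 : δ0 ≤ δ3 := h0.trans (pow_le_of_le_one hδ30 hδ31 (by norm_num))
  obtain ⟨r, hr0, hr1, hr2, hr3⟩ : ∃ r : ℕ, r0 ≤ r ∧ 12 ≤ (r : ℤ) ∧ b ≤ r ∧ κ + 6 ≤ r :=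
    ⟨(|r0| + 12 + b + κ).toNat, by have := le_abs_self r0; omega, by have := abs_nonneg r0; omega,
      by have := abs_nonneg r0; omega, by have := abs_nonneg r0; omega⟩
  suffices hG : Goal Lk q r δ by
    obtain ⟨a, τ, h, u1, u2, v1, v2, h1, h2, h3⟩ := hG
    refine ⟨a, τ, h, u1, u2, v1, v2, by omega, le_trans (mul_le_mul_of_nonneg_right hr0 ?_) h2, h3⟩
    have := abs_nonneg h
    omega
  obtain ⟨l, hl0, hl⟩ := H.esc (4 * r + 3)
  obtain ⟨an, han⟩ : ∃ an : ℕ, (an : ℤ) = l + 3 * r := ⟨(l + 3 * r).toNat, by omega⟩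
  obtain ⟨a, ha⟩ : ∃ a : ℤ, a = an := ⟨_, rfl⟩
  have ha0 : 0 < a := by omega
  obtain ⟨l1, hl10, hl1⟩ := H.esc (2 * an + 1)
  have hesc : ∀ S0 : ℤ → ℤ → Prop, (∀ x y, S0 x y → |x| ≤ a) →
      Lk (fun x y => |x| ≤ l1 ∧ |y| ≤ l1) (fun x y => ¬ S0 x y) δ0 := fun S0 hS => hl1 S0 fun x y => by
    by_contra hc
    push Not at hc
    have h1 := abs_le.1 (hS _ _ hc.1)
    have h2 := abs_le.1 (hS _ _ hc.2.1)
    push_cast at h2
    omega
  have hx1 : ∀ x x' : ℤ, |x| ≤ a → |x - x'| ≤ κ → |x'| ≤ a + κ := fun x x' h1 h2 => by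
    rw [abs_le] at h1 h2 ⊢; omega
  -- the third target
  have third : ∀ h t : ℤ, r * (a + |h|) ≤ a * t →
      Lk (fun x _ => |x| ≤ a + κ) (fun x y => a * t < |a * y - h * x|) δ3 →
      ∃ x y, (|x| ≤ a + κ ∧ a * t < |a * y - h * x| ∧ |a * y - h * x| ≤ 2 * (a * t)) ∧
        Lk (Big a (a * t) h) (Cell q a (a * t) h x (a * y - h * x)) δ := by
    intro h t ht hL
    have hh := abs_nonneg h
    have hk : κ * (a + |h|) ≤ a * t := le_trans (mul_le_mul_of_nonneg_right (by omega) (by omega)) ht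
    have h1 := H.exit (fun x y => |a * y - h * x| ≤ a * t)
      (fun x y => |a * y - h * x| ≤ a * t + κ * (a + |h|))
      (fun x y hx hy => (abs_lam ha0.le hx hy).trans (by nlinarith))
      (fun x y h => not_le.2 h) (fun x y x' y' h hx hy => lam_lip ha0.le h hx hy) hL
    obtain ⟨x, y, h2, h3⟩ := H.cell (q := q) (a := a) (τ := a * t) (h := h) ha0 (by nlinarith)
      hδ.le hδ1 (fun x y h => ⟨by omega, by omega⟩) (fun x y h => ⟨by omega, by omega⟩) h1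
    exact ⟨x, y, ⟨h2.1.1, not_le.1 h2.2, by omega⟩, h3⟩
  by_cases hA : ∀ Y : ℤ, Lk (fun x _ => |x| ≤ a + κ) (fun _ y => Y ≤ |y|) δ3
  · have ht : r * (a + |(0 : ℤ)|) ≤ a * (2 * l1 + r) := by simp only [abs_zero]; nlinarith
    obtain ⟨x3, y3, ⟨h31, h32, h33⟩, h3⟩ := third 0 (2 * l1 + r) ht
      (H.mono (fun _ _ h => h) (fun x y h => by
        rw [zero_mul, sub_zero, abs_mul, abs_of_pos ha0]
        exact mul_lt_mul_of_pos_left (by omega) ha0) le_rfl (hA (2 * l1 + r + 1)))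
    have h1 := H.exit (fun x _ => |x| ≤ a) (fun x _ => |x| ≤ a + κ) (fun x y hx _ => by omega)
      (fun x y h => h) (fun x y x' y' h hx _ => hx1 x x' h hx) (hesc (fun x _ => |x| ≤ a) fun _ _ h => h)
    have hB : ∀ x y : ℤ, |y| ≤ l1 → 2 * |a * y - 0 * x| ≤ a * (2 * l1 + r) := fun x y h => by
      rw [zero_mul, sub_zero, abs_mul, abs_of_pos ha0]
      nlinarith
    have hτ : 0 < a * (2 * l1 + r) := by nlinarith
    obtain ⟨x1, y1, h2, h4⟩ := H.cell (q := q) (a := a) (τ := a * (2 * l1 + r)) (h := 0) ha0 hτ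
      hδ.le hδ1 (fun x y h => ⟨by omega, by have := hB x y h.1.2; omega⟩)
      (fun x y h => ⟨by omega, by have := hB x y h.1.1.2; omega⟩)
      (H.mono (fun _ _ h => h) (fun _ _ h => h) h03 h1)
    have h5 := hB x1 y1 h2.1.1.2
    exact ⟨a, _, 0, x1, _, x3, _, by omega, ht, by omega, by omega, by omega, h33,
      det13 (k := κ) ha0 (by omega) (not_le.1 h2.2) h5 h31 h32, h4, h3⟩
  push Not at hA
  obtain ⟨Y0, hY0⟩ := hA
  obtain ⟨Y, hY, hnY⟩ : ∃ Y : ℤ, 0 ≤ Y ∧ ¬ Lk (fun x _ => |x| ≤ a + κ) (fun _ y => Y ≤ |y|) δ3 :=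
    ⟨|Y0|, abs_nonneg _, fun h => hY0 (H.mono (fun _ _ h => h)
      (fun _ _ h => (le_abs_self _).trans h) le_rfl h)⟩
  have hball : ∀ x y : ℤ, |x| ≤ b → |y| ≤ b → |x| ≤ a + κ := fun x y h _ => by omega
  have hmax : ∀ h : ℤ, ∃ t : ℤ, (r * (a + |h|) ≤ a * t ∧
      Lk (fun x _ => |x| ≤ a + κ) (fun x y => a * t < |a * y - h * x|) δ3) ∧
      ¬ Lk (fun x _ => |x| ≤ a + κ) (fun x y => a * (t + 1) < |a * y - h * x|) δ3 := by
    intro h
    have hh := abs_nonneg h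
    obtain ⟨t, ht, htm⟩ := Int.exists_greatest_of_bdd (P := fun t => r * (a + |h|) ≤ a * t ∧
      Lk (fun x _ => |x| ≤ a + κ) (fun x y => a * t < |a * y - h * x|) δ3)
      ⟨Y + 2 * |h|, fun t ht => by
        by_contra hc
        refine hnY (H.mono (fun _ _ h => h) (fun x y h' => ?_) le_rfl (H.inter hball ht.2))
        have h1 := abs_lam (h := h) ha0.le (show |x| ≤ 2 * a by omega) (le_refl |y|)
        by_contra hc'
        have h2 : a * (|y| + 2 * |h|) ≤ a * t := mul_le_mul_of_nonneg_left (by omega) ha0.le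
        nlinarith [h'.2]⟩
      ⟨r * (a + |h|) / a + 1, by
        have h1 := Int.mul_ediv_add_emod (r * (a + |h|)) a
        have h2 := Int.emod_nonneg (r * (a + |h|)) ha0.ne'
        have h3 := Int.emod_lt_of_pos (r * (a + |h|)) ha0
        refine ⟨by nlinarith, H.mono (fun x y h => by omega) (fun x y h => not_le.1 h) h03
          (hl (fun x y => |a * y - h * x| ≤ a * (r * (a + |h|) / a + 1)) fun x y => ?_)⟩
        by_contra hc
        push Not at hc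
        obtain ⟨h4, h5, h6⟩ := hc
        have hr : (0 : ℤ) ≤ r := Int.natCast_nonneg r
        push_cast at h5 h6
        rcases le_or_gt |h| a with h7 | h7
        · rw [abs_le] at h4 h6
          nlinarith
        · have h8 := abs_sub (a * y - h * x) (a * y - h * (x + (4 * r + 3)))
          have e : a * y - h * x - (a * y - h * (x + (4 * r + 3))) = h * (4 * r + 3) := by ring
          rw [e, abs_mul, abs_of_nonneg (show (0 : ℤ) ≤ 4 * r + 3 by omega)] at h8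
          nlinarith⟩
    exact ⟨t, ht, fun h' => by have := htm (t + 1) ⟨by nlinarith [ht.1], h'⟩; omega⟩
  choose t ht hnt using hmax
  let Sp : ℤ → ℤ → ℤ → Prop := fun h x y =>
    |x| ≤ a + κ ∧ |a * y - h * x| ≤ a * (t h + 1) + κ * (a + |h|)
  let P : ℤ → Prop := fun h =>
    Lk (Sp h) (fun x y => (Sp h x y ∧ a < |x|) ∧ 0 ≤ x * (a * y - h * x)) δ3
  let Q : ℤ → Prop := fun h =>
    Lk (Sp h) (fun x y => (Sp h x y ∧ a < |x|) ∧ x * (a * y - h * x) ≤ 0) δ3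
  have hPQ : ∀ h, P h ∨ Q h := by
    intro h
    have hh := abs_nonneg h
    have h1 := H.exit (fun x y => |x| ≤ a ∧ |a * y - h * x| ≤ a * (t h + 1)) (Sp h)
      (fun x y hx hy => ⟨by omega, (abs_lam ha0.le hx hy).trans (by nlinarith [(ht h).1])⟩)
      (fun x y h => h) (fun x y x' y' h hx hy => ⟨hx1 x x' h.1 hx, lam_lip ha0.le h.2 hx hy⟩)
      (hesc (fun x y => |x| ≤ a ∧ |a * y - h * x| ≤ a * (t h + 1)) fun _ _ h => h.1)
    rcases H.or (S := Sp h) (T1 := fun x y => Sp h x y ∧ a < |x|)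
      (T2 := fun x y => a * (t h + 1) < |a * y - h * x|) (δ1 := δ3 * δ3) (δ2 := δ3)
      (by positivity) hδ30 (H.mono (fun _ _ h => h.2) (fun x y h' => by
        by_cases hx : a < |x|
        · exact Or.inl ⟨h'.1.2, hx⟩
        · exact Or.inr (not_le.1 fun h'' => h'.2 ⟨not_lt.1 hx, h''⟩)) (by nlinarith) h1) with h2 | h2
    · exact H.or hδ30 hδ30 (H.mono (fun _ _ h => h) (fun x y h' =>
        (le_total 0 (x * (a * y - h * x))).imp (fun h'' => ⟨h', h''⟩) fun h'' => ⟨h', h''⟩) le_rfl h2)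
    · exact absurd (H.mono (fun _ _ h => h.1) (fun _ _ h => h) le_rfl h2) (hnt h)
  have hnP : ¬ P Y := fun h => hnY (H.mono (fun _ _ h => h.1) (fun x y h' =>
    far_y ha0 hY h'.1.2 (by
      have h1 := mul_le_mul_of_nonneg_left (le_abs_self (x * y)) ha0.le
      nlinarith [h'.2])) le_rfl h)
  have hnQ : ¬ Q (-Y) := fun h => hnY (H.mono (fun _ _ h => h.1) (fun x y h' =>
    far_y ha0 hY h'.1.2 (by
      have h1 := mul_le_mul_of_nonneg_left (neg_le_abs (x * y)) ha0.le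
      nlinarith [h'.2])) le_rfl h)
  obtain ⟨h, ⟨hP, hY'⟩, hm⟩ := Int.exists_greatest_of_bdd (P := fun h => P h ∧ h ≤ Y)
    ⟨Y, fun _ h => h.2⟩ ⟨-Y, (hPQ _).resolve_right hnQ, by omega⟩
  have hlt : h ≠ Y := fun e => hnP (e ▸ hP)
  have hQ : Q (h + 1) := (hPQ _).resolve_left fun h' => by
    have := hm (h + 1) ⟨h', by omega⟩
    omega
  have hh := abs_nonneg h
  have hrel : ∀ x y : ℤ, |x| ≤ a + κ →
      |a * y - h * x| ≤ |a * y - (h + 1) * x| + 2 * a ∧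
        |a * y - (h + 1) * x| ≤ |a * y - h * x| + 2 * a := fun x y hx => by
    have h1 := abs_add_le (a * y - (h + 1) * x) x
    have h2 := abs_sub (a * y - h * x) x
    have e1 : a * y - (h + 1) * x + x = a * y - h * x := by ring
    have e2 : a * y - h * x - x = a * y - (h + 1) * x := by ring
    rw [e1] at h1
    rw [e2] at h2
    omega
  have htt : t (h + 1) ≤ t h + 2 := by
    by_contra hc
    refine hnt h (H.mono (fun _ _ h => h) (fun x y h' => ?_) le_rfl (H.inter hball (ht (h + 1)).2))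
    have h1 := (hrel x y h'.1).2
    have h2 : a * (t h + 3) ≤ a * t (h + 1) := mul_le_mul_of_nonneg_left (by omega) ha0.le
    nlinarith [h'.2]
  have hτ := (ht h).1
  have hk6 : (κ + 6) * (a + |h|) ≤ a * t h :=
    le_trans (mul_le_mul_of_nonneg_right hr3 (by omega)) hτ
  have h12 : 12 * (a + |h|) ≤ a * t h := le_trans (mul_le_mul_of_nonneg_right hr1 (by omega)) hτ
  have hB1 : ∀ x y, Sp h x y → Big a (a * t h) h x y := fun x y h' =>
    ⟨by have := h'.1; omega, by nlinarith [h'.2]⟩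
  have hB2 : ∀ x y, Sp (h + 1) x y → Big a (a * t h) h x y := fun x y h' =>
    ⟨by have := h'.1; omega, by
      have h1 := (hrel x y h'.1).1
      have h2 : a * (t (h + 1) + 1) ≤ a * (t h + 3) := mul_le_mul_of_nonneg_left (by omega) ha0.le
      have h3 : κ * (a + |h + 1|) ≤ κ * (a + |h| + 1) := mul_le_mul_of_nonneg_left (by
        have := abs_add_le h 1
        rw [abs_one] at this
        omega) hκ
      have h4 : κ ≤ a := by omega
      nlinarith [h'.2]⟩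
  have hτ0 : 0 < a * t h := by omega
  obtain ⟨x1, y1, h1, hL1⟩ := H.cell (q := q) ha0 hτ0 hδ.le hδ1 hB1 (fun x y h => hB1 x y h.1.1) hP
  have hb1 := hB1 _ _ h1.1.1
  by_cases hc : 2 * |a * y1 - h * x1| ≤ a * t h
  · obtain ⟨x3, y3, ⟨h31, h32, h33⟩, h3⟩ := third h (t h) hτ (ht h).2
    exact ⟨a, _, h, x1, _, x3, _, by omega, hτ, hb1.1, hb1.2, by omega, h33,
      det13 (k := κ) ha0 (by omega) h1.1.2 hc h31 h32, hL1, h3⟩
  · obtain ⟨x2, y2, h2, hL2⟩ := H.cell (q := q) ha0 hτ0 hδ.le hδ1 hB2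
      (fun x y h => hB2 x y h.1.1) hQ
    have hb2 := hB2 _ _ h2.1.1
    exact ⟨a, _, h, x1, _, x2, _, by omega, hτ, hb1.1, hb1.2, hb2.1, hb2.2,
      det12 ha0 (by omega) h1.1.2 hb1.1 (not_le.1 hc) h1.2 h2.1.2 (by nlinarith [h2.2]), hL1, hL2⟩

end Vale.Agent.P151.KkmAux
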