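import Mathlib
import Vale.Agent.P151.GDefs
import Vale.Agent.P151.Target
import Vale.Agent.P151.KkmA

namespace Vale.Agent.P151

open Finset

namespace KkmAux

variable {V : Type} [DecidableEq V] {G : SimpleGraph V} [G.LocallyFinite]

open Classical in
/-- preimage of a plane set in a ball -/
noncomputable def reg (Z : ZQ G) (S : ℤ → ℤ → Prop) (L : ℕ) : Finset V :=
  (nbk G L {Z.o}).filter fun v => S (Z.π v 0) (Z.π v 1)

theorem mem_reg {Z : ZQ G} {S : ℤ → ℤ → Prop} {L : ℕ} {v : V} :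
    v ∈ reg Z S L ↔ v ∈ nbk G L {Z.o} ∧ S (Z.π v 0) (Z.π v 1) := by simp [reg]

theorem reg_mono {Z : ZQ G} {S S' : ℤ → ℤ → Prop} {L L' : ℕ} (h : ∀ x y, S x y → S' x y)
    (hL : L ≤ L') : reg Z S L ⊆ reg Z S' L' := fun _ hv =>
  mem_reg.2 ⟨nbk_mono_left G hL _ (mem_reg.1 hv).1, h _ _ (mem_reg.1 hv).2⟩

/-- hitting probability -/
noncomputable def pr (Z : ZQ G) (p : ℝ) (m : ℕ) (S T : ℤ → ℤ → Prop) (L : ℕ) : ℝ :=
  hitS (Ein G (reg Z S L)) p ∅ (nbk G m {Z.o}) (reg Z T L)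

/-- likely targets -/
def LkG (Z : ZQ G) (p : ℝ) (m : ℕ) (S T : ℤ → ℤ → Prop) (δ : ℝ) : Prop :=
  ∃ L, 1 - δ ≤ pr Z p m S T L

theorem pr_mono {Z : ZQ G} {p : ℝ} (h0 : 0 ≤ p) (h1 : p ≤ 1) {m : ℕ} {S S' T T' : ℤ → ℤ → Prop}
    {L L' : ℕ} (hS : ∀ x y, S x y → S' x y) (hT : ∀ x y, T x y → T' x y) (hL : L ≤ L') :
    pr Z p m S T L ≤ pr Z p m S' T' L' :=
  hitS_mono h0 h1 Subset.rfl ((Ein_mono G (reg_mono hS hL)).trans subset_union_left) Subset.rfl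
    (reg_mono hT hL)

omit [G.LocallyFinite] in
theorem hitS_le_of {D D' : Finset (Sym2 V)} {p : ℝ} (h0 : 0 ≤ p) (h1 : p ≤ 1) (hD : D' ⊆ D)
    {A T T' : Finset V} (h : ∀ ω ⊆ D, ∀ u ∈ A, ConnTo ω u T → ∃ u ∈ A, ConnTo (ω ∩ D') u T') :
    hitS D p ∅ A T ≤ hitS D' p ∅ A T' := by
  unfold hitS
  rw [← Ex_inter hD]
  refine Ex_mono (adm_const h0 h1) fun ω hω => ind_mono ?_
  simp only [empty_union]
  rintro ⟨u, hu, hc⟩
  exact h ω hω u hu hc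

omit [G.LocallyFinite] in
theorem exists_last {U : Finset V} {ω : Finset (Sym2 V)} {o t : V} (ho : o ∈ U)
    (h : Conn (Ein G U ∪ ω) o t) : ∃ u ∈ U, Conn ω u t := by
  induction h with
  | refl => exact ⟨o, ho, Conn.refl _ _⟩
  | @tail b c _ h2 ih =>
    rcases mem_union.1 h2 with h3 | h3
    · exact ⟨c, (mk_mem_Ein.1 h3).2.1, Conn.refl _ _⟩
    · obtain ⟨u, hu, hc⟩ := ih
      exact ⟨u, hu, hc.trans (Conn.single h3)⟩

theorem abs_ball (Z : ZQ G) {n : ℕ} {v : V} (h : v ∈ nbk G n {Z.o}) (j : Fin 2) :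
    |Z.π v j| ≤ n * Z.κ := by
  have := abs_le_of_mem_nbkG (Int.natCast_nonneg Z.κ) Z.lip h j
  simpa [Z.zero] using this

theorem lkAx (Z : ZQ G) {p : ℝ} (h0 : 0 < p) (h1 : p < 1) {m : ℕ} {δ0 : ℝ} (hδ0 : 0 < δ0)
    (hm : BallExit G p Z.o m δ0) : LkAx (LkG Z p m) Z.κ (m * Z.κ) (2 * δ0) where
  mono := fun hS hT hδ ⟨L, hL⟩ =>
    ⟨L, le_trans (by linarith) (hL.trans (pr_mono h0.le h1.le hS hT le_rfl))⟩
  or := by
    rintro S T1 T2 δ1 δ2 hδ1 hδ2 ⟨L, hL⟩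
    by_contra hc
    rw [not_or] at hc
    have h2 : pr Z p m S T1 L < 1 - δ1 := not_le.1 fun h => hc.1 ⟨L, h⟩
    have h3 : pr Z p m S T2 L < 1 - δ2 := not_le.1 fun h => hc.2 ⟨L, h⟩
    have hq : Adm (fun _ : Sym2 V => p) := adm_const h0.le h1.le
    have anti : ∀ T : Finset V, Antitone fun ω : Finset (Sym2 V) =>
        ind (¬ ∃ u ∈ nbk G m {Z.o}, ConnTo (∅ ∪ ω) u T) := fun T a b hab =>
      ind_mono fun h ⟨u, hu, hc⟩ => h ⟨u, hu, hc.mono (union_subset_union_right hab) Subset.rfl⟩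
    have h4 := harris_anti_anti hq (Ein G (reg Z S L)) (anti (reg Z T1 L)) (anti (reg Z T2 L))
    have h5 : Ex (Ein G (reg Z S L)) (fun _ => p) (fun ω =>
        ind (¬ ∃ u ∈ nbk G m {Z.o}, ConnTo (∅ ∪ ω) u (reg Z T1 L)) *
          ind (¬ ∃ u ∈ nbk G m {Z.o}, ConnTo (∅ ∪ ω) u (reg Z T2 L))) ≤
        Ex (Ein G (reg Z S L)) (fun _ => p) (fun ω => ind (¬ ∃ u ∈ nbk G m {Z.o},
          ConnTo (∅ ∪ ω) u (reg Z (fun x y => T1 x y ∨ T2 x y) L))) := by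
      refine Ex_mono hq fun ω _ => ?_
      rw [← ind_and]
      refine ind_mono fun h ⟨u, hu, t, ht, hc⟩ => ?_
      rcases (mem_reg.1 ht).2 with h' | h'
      · exact h.1 ⟨u, hu, t, mem_reg.2 ⟨(mem_reg.1 ht).1, h'⟩, hc⟩
      · exact h.2 ⟨u, hu, t, mem_reg.2 ⟨(mem_reg.1 ht).1, h'⟩, hc⟩
    have h6 := h4.trans h5
    simp only [ind_not, Ex_sub, Ex_const] at h6
    change (1 - pr Z p m S T1 L) * (1 - pr Z p m S T2 L) ≤
      1 - pr Z p m S (fun x y => T1 x y ∨ T2 x y) L at h6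
    have h7 : δ1 * δ2 < (1 - pr Z p m S T1 L) * (1 - pr Z p m S T2 L) :=
      mul_lt_mul'' (by linarith) (by linarith) hδ1 hδ2
    linarith
  inter := by
    rintro S T δ hS ⟨L, hL⟩
    refine ⟨L, hL.trans (hitS_le_of h0.le h1.le Subset.rfl fun ω hω u hu ⟨t, ht, hc⟩ =>
      ⟨u, hu, t, mem_reg.2 ⟨(mem_reg.1 ht).1, ?_, (mem_reg.1 ht).2⟩,
        hc.mono (subset_inter Subset.rfl hω)⟩)⟩
    rcases Relation.ReflTransGen.cases_tail hc with h | ⟨c, -, h⟩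
    · rw [h]; exact hS _ _ (abs_ball Z hu 0) (abs_ball Z hu 1)
    · exact (mem_reg.1 (mk_mem_Ein.1 (hω h)).2.1).2
  exit := by
    rintro S T δ S0 S1 hb hT h01 ⟨L, hL⟩
    refine ⟨L, hL.trans (hitS_le_of h0.le h1.le (Ein_mono G (reg_mono (fun _ _ h => h.1) le_rfl))
      fun ω hω u hu ⟨t, ht, hc⟩ => ⟨u, hu, ?_⟩)⟩
    have key : ∀ y, Conn ω u y →
        ConnTo (ω ∩ Ein G (reg Z (fun x y => S x y ∧ S1 x y) L)) u
          (reg Z (fun x y => (S x y ∧ S1 x y) ∧ ¬ S0 x y) L) ∨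
        (Conn (ω ∩ Ein G (reg Z (fun x y => S x y ∧ S1 x y) L)) u y ∧ S0 (Z.π y 0) (Z.π y 1)) := by
      intro y hy
      induction hy with
      | refl => exact Or.inr ⟨Conn.refl _ _, hb _ _ (abs_ball Z hu 0) (abs_ball Z hu 1)⟩
      | @tail b c _ h2 ih =>
        rcases ih with ih | ⟨ih, hb0⟩
        · exact Or.inl ih
        · obtain ⟨h3, h4, hadj⟩ := mk_mem_Ein.1 (hω h2)
          have h5 := h01 _ _ _ _ hb0 (Z.lip _ _ hadj 0) (Z.lip _ _ hadj 1)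
          have h6 := h01 _ _ (Z.π b 0) (Z.π b 1) hb0 (by simp) (by simp)
          have h7 : Conn (ω ∩ Ein G (reg Z (fun x y => S x y ∧ S1 x y) L)) u c :=
            ih.trans (Conn.single (mem_inter.2 ⟨h2, mk_mem_Ein.2
              ⟨mem_reg.2 ⟨(mem_reg.1 h3).1, (mem_reg.1 h3).2, h6⟩,
                mem_reg.2 ⟨(mem_reg.1 h4).1, (mem_reg.1 h4).2, h5⟩, hadj⟩⟩))
          by_cases h8 : S0 (Z.π c 0) (Z.π c 1)
          · exact Or.inr ⟨h7, h8⟩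
          · exact Or.inl ⟨c, mem_reg.2 ⟨(mem_reg.1 h4).1, ⟨(mem_reg.1 h4).2, h5⟩, h8⟩, h7⟩
    rcases key t hc with h | h
    · exact h
    · exact absurd h.2 (hT _ _ (mem_reg.1 ht).2)
  ne := by
    rintro S T δ ⟨L, hL⟩ hδ
    by_contra hc
    push Not at hc
    have : pr Z p m S T L ≤ 0 := Ex_le_const (adm_const h0.le h1.le) fun ω _ =>
      (ind_neg fun ⟨_, _, _, ht, _⟩ => hc _ _ (mem_reg.1 ht).2).le
    linarith
  esc := by
    intro j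
    obtain ⟨δt, hδt, hT⟩ := target δ0 hδ0
    obtain ⟨R, hR⟩ := hT Z.Δ (Z.κ * j) p p h0 h1
    refine ⟨((m + R + 1 + R + Z.κ * j : ℕ) : ℤ) * Z.κ, by positivity, fun S0 hS0 =>
      ⟨m + R + 1 + R + Z.κ * j, ?_⟩⟩
    set L := m + R + 1 + R + Z.κ * j with hL
    set B := nbk G (m + R + 1) {Z.o} \ nbk G (m + R) {Z.o} with hB
    have hnb : ∀ v ∈ nbk G R B, v ∈ nbk G (m + R + 1 + R) {Z.o} ∧ v ∉ nbk G m {Z.o} := by
      intro v hv
      obtain ⟨b, hb, hv⟩ := (mem_nbk_iff G R B v).1 hv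
      obtain ⟨hb1, hb2⟩ := mem_sdiff.1 hb
      refine ⟨by rw [add_comm]; exact TargetAux.nbk_trans hv hb1, fun h => hb2 ?_⟩
      rw [add_comm]
      exact TargetAux.nbk_trans (TargetAux.nbk_symm hv) h
    have ho : Z.o ∈ nbk G m {Z.o} := TargetAux.self_mem_nbk m Z.o
    have key := hR V G Z.deg p le_rfl le_rfl (Ein G (nbk G L {Z.o}) \ Ein G (nbk G m {Z.o}))
      (Ein G (nbk G m {Z.o})) Z.o B (reg Z (fun x y => ¬ S0 x y) L) disjoint_sdiff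
      (Ein_sub_edgeSet _ _) (fun e he => Ein_sub_edgeSet _ _ (mem_sdiff.1 he).1)
      (fun h => (hnb _ h).2 ho)
      (fun e he => mem_sdiff.2 ⟨Ein_mono G (fun v hv => nbk_mono_left G (by omega) _ (hnb v hv).1) he,
        fun h => by
          induction e using Sym2.ind with
          | h x y => exact (hnb x (mk_mem_Ein.1 he).1).2 (mk_mem_Ein.1 h).1⟩)
      (fun v hv => by
        obtain ⟨x, hx, hx'⟩ : ∃ x ∈ nbk G (Z.κ * j) {v}, ¬ S0 (Z.π x 0) (Z.π x 1) := by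
          rcases hS0 (Z.π v 0) (Z.π v 1) with h | h | h
          · exact ⟨v, TargetAux.self_mem_nbk _ v, h⟩
          · obtain ⟨x, hx, e⟩ := Z.reach v 0 j
            exact ⟨x, by simpa using hx, by rw [e]; simpa using h⟩
          · obtain ⟨x, hx, e⟩ := Z.reach v 1 j
            exact ⟨x, by simpa using hx, by rw [e]; simpa using h⟩
        refine const_le_Ex (adm_const h0.le h1.le) fun ω _ => ?_
        have hxL : x ∈ nbk G L {Z.o} := by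
          rw [hL, add_comm]; exact TargetAux.nbk_trans hx (hnb v hv).1
        rw [ind_pos ⟨x, hx, x, mem_reg.2 ⟨hxL, hx'⟩, Conn.refl _ _⟩]
        linarith)
    have h2 : 1 - δ0 ≤ hit (Ein G (nbk G L {Z.o}) \ Ein G (nbk G m {Z.o})) p
        (Ein G (nbk G m {Z.o})) Z.o B := by
      refine le_trans (hm (m + R) (by omega)) (le_trans (hitS_mono h0.le h1.le (empty_subset _)
        (D' := Ein G (nbk G L {Z.o}) \ Ein G (nbk G m {Z.o})) (ξ' := Ein G (nbk G m {Z.o})) ?_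
        Subset.rfl Subset.rfl) ?_)
      · rw [sdiff_union_self_eq_union]
        exact (Ein_mono G (nbk_mono_left G (by omega) _)).trans subset_union_left
      · exact Ex_mono (adm_const h0.le h1.le) fun ω _ => ind_mono fun ⟨x, hx, t, ht, hc⟩ =>
          ⟨t, ht, ((conn_of_mem_nbk _ _ _ _ hx).mono subset_union_left).trans hc⟩
    have h3 : hit (Ein G (nbk G L {Z.o}) \ Ein G (nbk G m {Z.o})) p (Ein G (nbk G m {Z.o})) Z.o
        (reg Z (fun x y => ¬ S0 x y) L) ≤ pr Z p m (fun x y => |x| ≤ (L : ℤ) * Z.κ ∧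
          |y| ≤ (L : ℤ) * Z.κ) (fun x y => ¬ S0 x y) L := by
      refine le_trans ?_ (hitS_mono h0.le h1.le Subset.rfl
        (D := Ein G (nbk G L {Z.o}) \ Ein G (nbk G m {Z.o})) (sdiff_subset.trans
          ((Ein_mono G fun v hv => mem_reg.2 ⟨hv, abs_ball Z hv 0, abs_ball Z hv 1⟩).trans
            subset_union_left)) Subset.rfl Subset.rfl)
      refine Ex_mono (adm_const h0.le h1.le) fun ω _ => ind_mono fun ⟨t, ht, hc⟩ => ?_
      obtain ⟨u, hu, hc⟩ := exists_last ho hc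
      exact ⟨u, hu, t, ht, hc.mono subset_union_right⟩
    linarith

theorem cross_le {a τ n c w1 w2 v1 v2 : ℤ} (hn : 0 ≤ n) (h1 : n * |w1| ≤ c * a)
    (h2 : n * |w2| ≤ c * τ) (h3 : |v1| ≤ 2 * a) (h4 : |v2| ≤ 2 * τ) :
    n * |w1 * v2 - w2 * v1| ≤ 4 * c * (a * τ) := by
  have h5 := mul_le_mul_of_nonneg_left (abs_sub (w1 * v2) (w2 * v1)) hn
  rw [abs_mul, abs_mul] at h5
  have h6 : n * |w1| * |v2| ≤ c * a * (2 * τ) :=
    mul_le_mul h1 h4 (abs_nonneg _) (le_trans (mul_nonneg hn (abs_nonneg _)) h1)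
  have h7 : n * |w2| * |v1| ≤ c * τ * (2 * a) :=
    mul_le_mul h2 h3 (abs_nonneg _) (le_trans (mul_nonneg hn (abs_nonneg _)) h2)
  nlinarith

/-- the change of coordinates -/
def chg (σ u1 u2 v1 v2 w1 w2 : ℤ) : Fin 2 → ℤ :=
  ![σ * (3 * (w1 * v2 - w2 * v1) - (u1 * w2 - u2 * w1)),
    σ * (3 * (u1 * w2 - u2 * w1) - (w1 * v2 - w2 * v1))]

theorem chg_sub (σ u1 u2 v1 v2 w1 w2 w1' w2' : ℤ) (j : Fin 2) :
    chg σ u1 u2 v1 v2 w1 w2 j - chg σ u1 u2 v1 v2 w1' w2' j =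
      chg σ u1 u2 v1 v2 (w1 - w1') (w2 - w2') j := by
  fin_cases j <;> simp [chg] <;> ring

theorem chg_le {σ a τ n c s u1 u2 v1 v2 w1 w2 : ℤ} (hσ : |σ| = 1) (hn : 0 ≤ n) (hc : 0 ≤ c)
    (h1 : n * |w1| ≤ c * a) (h2 : n * |w2| ≤ c * τ) (h3 : |u1| ≤ 2 * a) (h4 : |u2| ≤ 2 * τ)
    (h5 : |v1| ≤ 2 * a) (h6 : |v2| ≤ 2 * τ) (hs : a * τ ≤ 3 * s) (j : Fin 2) :
    n * |chg σ u1 u2 v1 v2 w1 w2 j| ≤ 48 * c * s := by
  have h7 := cross_le hn h1 h2 h5 h6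
  have h8 := cross_le hn h1 h2 h3 h4
  have e : |w1 * u2 - w2 * u1| = |u1 * w2 - u2 * w1| := by
    rw [← abs_neg]; congr 1; ring
  rw [e] at h8
  have h9 : ∀ x y : ℤ, |σ * (3 * x - y)| ≤ 3 * |x| + |y| := fun x y => by
    have := abs_sub (3 * x) y
    rw [abs_mul, abs_of_pos (show (0 : ℤ) < 3 by norm_num)] at this
    rw [abs_mul, hσ, one_mul]
    exact this
  have h10 := mul_le_mul_of_nonneg_left hs hc
  fin_cases j
  · have := mul_le_mul_of_nonneg_left (h9 (w1 * v2 - w2 * v1) (u1 * w2 - u2 * w1)) hn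
    simp only [chg, Fin.zero_eta, Matrix.cons_val_zero]
    nlinarith
  · have := mul_le_mul_of_nonneg_left (h9 (u1 * w2 - u2 * w1) (w1 * v2 - w2 * v1)) hn
    simp only [chg, Fin.mk_one, Matrix.cons_val_one, Matrix.cons_val_zero]
    nlinarith

/-- the change of coordinates as a homomorphism -/
def hom (σ a h u1 u2 v1 v2 : ℤ) : (Fin 2 → ℤ) →+ (Fin 2 → ℤ) := AddMonoidHom.mk'
  (fun z => chg σ u1 u2 v1 v2 (z 0) (a * z 1 - h * z 0))
  (fun z z' => by funext j; fin_cases j <;> simp [chg] <;> ring)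

theorem hom_apply (σ a h u1 u2 v1 v2 : ℤ) (z : Fin 2 → ℤ) :
    hom σ a h u1 u2 v1 v2 z = chg σ u1 u2 v1 v2 (z 0) (a * z 1 - h * z 0) := rfl

theorem chg_u {σ s u1 u2 v1 v2 : ℤ} (hs : σ * (u1 * v2 - u2 * v1) = s) :
    chg σ u1 u2 v1 v2 u1 u2 = mv s 0 := by
  funext j; fin_cases j <;> simp [chg, mv, ← hs] <;> ring

theorem chg_v {σ s u1 u2 v1 v2 : ℤ} (hs : σ * (u1 * v2 - u2 * v1) = s) :
    chg σ u1 u2 v1 v2 v1 v2 = mv s 1 := by
  funext j; fin_cases j <;> simp [chg, mv, ← hs] <;> ring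

section Finish

variable (Z : ZQ G) {σ a τ h s u1 u2 v1 v2 : ℤ} (hσ : |σ| = 1) (hu1 : |u1| ≤ 2 * a)
  (hu2 : |u2| ≤ 2 * τ) (hv1 : |v1| ≤ 2 * a) (hv2 : |v2| ≤ 2 * τ) (hdet : a * τ ≤ 3 * s)

include hσ hu1 hu2 hv1 hv2 hdet

theorem hom_lip {n : ℤ} (hn : 0 < n) (ha0 : 0 ≤ a) (ha : 48 * n * Z.κ ≤ a)
    (hτ : 48 * n * Z.κ * (a + |h|) ≤ τ) :
    LipG G (fun x => hom σ a h u1 u2 v1 v2 (Z.π x)) (s / n) := by
  intro x y hxy j
  rw [Int.le_ediv_iff_mul_le hn]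
  simp only [hom_apply, chg_sub]
  have h2 := Z.lip x y hxy 0
  have h3 := Z.lip x y hxy 1
  have h4 := abs_lam (h := h) ha0 h2 h3
  have e : a * Z.π x 1 - h * Z.π x 0 - (a * Z.π y 1 - h * Z.π y 0) =
      a * (Z.π x 1 - Z.π y 1) - h * (Z.π x 0 - Z.π y 0) := by ring
  have h6 := mul_le_mul_of_nonneg_left h2 (show 0 ≤ 48 * n by positivity)
  have h7 := mul_le_mul_of_nonneg_left h4 (show 0 ≤ 48 * n by positivity)
  have h5 := chg_le (n := 48 * n) (c := 1) (w1 := Z.π x 0 - Z.π y 0)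
    (w2 := a * Z.π x 1 - h * Z.π x 0 - (a * Z.π y 1 - h * Z.π y 0)) hσ (by positivity) zero_le_one
    (by linarith) (by rw [e]; linarith) hu1 hu2 hv1 hv2 hdet j
  linarith

theorem big_sub (hs : 0 ≤ s) (L : ℕ) : reg Z (Big a τ h) L ⊆
    win G (fun x => hom σ a h u1 u2 v1 v2 (Z.π x)) Z.o L 0 (100 * s) := fun x hx => by
  obtain ⟨h2, h3, h4⟩ := mem_reg.1 hx
  refine mem_win.2 ⟨h2, fun j => ?_⟩
  have h5 := chg_le (n := 1) (c := 2) (w1 := Z.π x 0) (w2 := a * Z.π x 1 - h * Z.π x 0) hσ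
    zero_le_one (by norm_num) (by linarith) (by linarith) hu1 hu2 hv1 hv2 hdet j
  simp only [Z.zero, map_zero, Pi.zero_apply, sub_zero]
  rw [hom_apply]
  linarith

theorem cell_sub {n : ℤ} (hn : 0 < n) (L : ℕ) (w1 w2 : ℤ) :
    reg Z (Cell (48 * n) a τ h w1 w2) L ⊆
      win G (fun x => hom σ a h u1 u2 v1 v2 (Z.π x)) Z.o L (chg σ u1 u2 v1 v2 w1 w2) (s / n) :=
  fun x hx => by
    obtain ⟨h2, h3, h4⟩ := mem_reg.1 hx
    refine mem_win.2 ⟨h2, fun j => ?_⟩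
    have h5 := chg_le (n := 48 * n) (c := 1) hσ (by positivity) zero_le_one
      (h3.trans (one_mul _).ge) (h4.trans (one_mul _).ge) hu1 hu2 hv1 hv2 hdet j
    simp only [Z.zero, map_zero, Pi.zero_apply, sub_zero]
    rw [hom_apply, chg_sub, Int.le_ediv_iff_mul_le hn]
    linarith

end Finish

end KkmAux

open KkmAux in
/-- Two transversal likely moves. -/
theorem kkm {V : Type} [DecidableEq V] {G : SimpleGraph V} [G.LocallyFinite] (Z : ZQ G) {p : ℝ}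
    (h0 : 0 < p) (h1 : p < 1) (hball : ∀ δ : ℝ, 0 < δ → ∃ m, BallExit G p Z.o m δ)
    (N : ℕ) (δ : ℝ) (hδ : 0 < δ) :
    ∃ m : ℕ, ∀ R : ℕ, ∃ (A : (Fin 2 → ℤ) →+ (Fin 2 → ℤ)) (L : ℕ) (s e k : ℤ),
      0 < s ∧ 0 ≤ k ∧ N * e ≤ s ∧ R * k ≤ e ∧ LipG G (fun x => A (Z.π x)) k ∧
      MoveAt G (fun x => A (Z.π x)) p m L s e (100 * s) δ Z.o := by
  obtain ⟨δ', hδ0, hδ1, hδδ⟩ : ∃ δ' : ℝ, 0 < δ' ∧ δ' < 1 ∧ 1 - δ ≤ 1 - δ' :=
    ⟨min δ (1 / 2), by positivity, lt_of_le_of_lt (min_le_right _ _) (by norm_num),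
      by linarith [min_le_left δ (1 / 2)]⟩
  obtain ⟨q, hq⟩ : ∃ q : ℕ, (q : ℤ) = 48 * (N + 1) := ⟨48 * (N + 1), by push_cast; ring⟩
  obtain ⟨m, hm⟩ := hball ((δ' ^ ((4 * q + 1) ^ 2)) ^ 3 / 2) (by positivity)
  refine ⟨m, fun R => ?_⟩
  have hκ : (1 : ℤ) ≤ Z.κ := by exact_mod_cast Z.hκ
  obtain ⟨a, τ, h, u1, u2, v1, v2, ha, hτ, hu1, hu2, hv1, hv2, hdet, ⟨L1, hL1⟩, ⟨L2, hL2⟩⟩ :=
    (lkAx Z h0 h1 (by positivity) hm).goal (Int.natCast_nonneg _) (by positivity) q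
      hδ0 hδ1 (by linarith) (48 * ((N + 1) * (R + 1)) * Z.κ)
  rw [hq] at hL1 hL2
  have hN : (0 : ℤ) < N + 1 := by positivity
  have hNR : (0 : ℤ) < (N + 1) * (R + 1) := by positivity
  have hr : (0 : ℤ) < 48 * ((N + 1) * (R + 1)) * Z.κ := by positivity
  have ha0 : 0 < a := by omega
  have hh := abs_nonneg h
  have hτ0 : 0 < τ := lt_of_lt_of_le (mul_pos hr (by omega)) hτ
  obtain ⟨s, hs⟩ : ∃ s, s = |u1 * v2 - u2 * v1| := ⟨_, rfl⟩
  rw [← hs] at hdet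
  have hs0 : 0 < s := by linarith [mul_pos ha0 hτ0]
  obtain ⟨σ, hσ, hσs⟩ : ∃ σ : ℤ, |σ| = 1 ∧ σ * (u1 * v2 - u2 * v1) = s := by
    rcases le_total 0 (u1 * v2 - u2 * v1) with h' | h'
    · exact ⟨1, by simp, by rw [hs, abs_of_nonneg h', one_mul]⟩
    · exact ⟨-1, by simp, by rw [hs, abs_of_nonpos h', neg_one_mul]⟩
  have he : (N + 1) * (s / (N + 1)) ≤ s := Int.mul_ediv_self_le hN.ne'
  have he0 : 0 ≤ s / (N + 1) := Int.ediv_nonneg hs0.le hN.le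
  have hk : (N + 1) * (R + 1) * (s / ((N + 1) * (R + 1))) ≤ s := Int.mul_ediv_self_le hNR.ne'
  have hk0 : 0 ≤ s / ((N + 1) * (R + 1)) := Int.ediv_nonneg hs0.le hNR.le
  have hk1 := mul_nonneg hN.le hk0
  refine ⟨hom σ a h u1 u2 v1 v2, max L1 L2, s, s / (N + 1), s / ((N + 1) * (R + 1)), hs0, hk0,
    by linarith, (Int.le_ediv_iff_mul_le hN).2 (by linarith),
    hom_lip Z hσ hu1 hu2 hv1 hv2 hdet hNR ha0.le ha hτ, fun i => ?_⟩
  have hreg := big_sub Z (h := h) hσ hu1 hu2 hv1 hv2 hdet hs0.le (max L1 L2)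
  have hcell := cell_sub Z (h := h) hσ hu1 hu2 hv1 hv2 hdet hN (max L1 L2)
  fin_cases i
  · refine hδδ.trans (hL1.trans ((pr_mono h0.le h1.le (fun _ _ h => h) (fun _ _ h => h)
      (le_max_left L1 L2)).trans (hitS_mono h0.le h1.le Subset.rfl
        ((Ein_mono G hreg).trans subset_union_left) Subset.rfl ?_)))
    rw [Fin.zero_eta, ← chg_u hσs]
    exact hcell _ _
  · refine hδδ.trans (hL2.trans ((pr_mono h0.le h1.le (fun _ _ h => h) (fun _ _ h => h)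
      (le_max_right L1 L2)).trans (hitS_mono h0.le h1.le Subset.rfl
        ((Ein_mono G hreg).trans subset_union_left) Subset.rfl ?_)))
    rw [Fin.mk_one, ← chg_v hσs]
    exact hcell _ _

end Vale.Agent.P151
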