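import Mathlib
import Vale.Agent.P151.GDefs

namespace Vale.Agent.P151

namespace OPeierlsAux

open Finset

/-- quarter turn to the left -/
def rot (d : Bool × Bool) : Bool × Bool := (!d.1, xor d.1 d.2)

/-- quarter turn to the right -/
def rotr (d : Bool × Bool) : Bool × Bool := (!d.1, xor (!d.1) d.2)

/-- the next boundary edge along the contour -/
def nxt (C : Finset (ℤ × ℤ)) (s : (ℤ × ℤ) × Bool × Bool) : (ℤ × ℤ) × Bool × Bool :=
  if s.1 + vec (rot s.2) ∉ C then (s.1, rot s.2)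
  else if s.1 + vec (rot s.2) + vec s.2 ∉ C then (s.1 + vec (rot s.2), s.2)
  else (s.1 + vec (rot s.2) + vec s.2, rotr s.2)

/-- the previous boundary edge along the contour -/
def prv (C : Finset (ℤ × ℤ)) (s : (ℤ × ℤ) × Bool × Bool) : (ℤ × ℤ) × Bool × Bool :=
  if s.1 + vec (rotr s.2) ∉ C then (s.1, rotr s.2)
  else if s.1 + vec (rotr s.2) + vec s.2 ∉ C then (s.1 + vec (rotr s.2), s.2)
  else (s.1 + vec (rotr s.2) + vec s.2, rot s.2)

/-- boundary edges -/
def BE (C : Finset (ℤ × ℤ)) (s : (ℤ × ℤ) × Bool × Bool) : Prop := s.1 ∈ C ∧ s.1 + vec s.2 ∉ C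

theorem rotr_rot (d : Bool × Bool) : rotr (rot d) = d := by
  rcases d with ⟨_ | _, _ | _⟩ <;> rfl

theorem rot_rotr (d : Bool × Bool) : rot (rotr d) = d := by
  rcases d with ⟨_ | _, _ | _⟩ <;> rfl

theorem vec_rotr (d : Bool × Bool) : vec (rotr d) = -vec (rot d) := by
  rcases d with ⟨_ | _, _ | _⟩ <;> rfl

theorem vec_rotr2 (d : Bool × Bool) : vec (rotr (rotr d)) = -vec d := by
  rcases d with ⟨_ | _, _ | _⟩ <;> rfl

theorem nxt_BE {C : Finset (ℤ × ℤ)} {s : (ℤ × ℤ) × Bool × Bool} (h : BE C s) : BE C (nxt C s) := by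
  unfold nxt
  by_cases h1 : s.1 + vec (rot s.2) ∉ C
  · rw [if_pos h1]; exact ⟨h.1, h1⟩
  · rw [if_neg h1]
    by_cases h2 : s.1 + vec (rot s.2) + vec s.2 ∉ C
    · rw [if_pos h2]; exact ⟨not_not.1 h1, h2⟩
    · rw [if_neg h2]
      refine ⟨not_not.1 h2, ?_⟩
      have e : s.1 + vec (rot s.2) + vec s.2 + vec (rotr s.2) = s.1 + vec s.2 := by
        rw [vec_rotr]; abel
      simp only [e]
      exact h.2

theorem prv_nxt {C : Finset (ℤ × ℤ)} {s : (ℤ × ℤ) × Bool × Bool} (h : BE C s) :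
    prv C (nxt C s) = s := by
  unfold nxt
  by_cases h1 : s.1 + vec (rot s.2) ∉ C
  · rw [if_pos h1]
    unfold prv
    simp only [rotr_rot]
    rw [if_pos h.2]
  · rw [if_neg h1]
    by_cases h2 : s.1 + vec (rot s.2) + vec s.2 ∉ C
    · rw [if_pos h2]
      have e : s.1 + vec (rot s.2) + vec (rotr s.2) = s.1 := by rw [vec_rotr]; abel
      unfold prv
      simp only [e]
      rw [if_neg (not_not.2 h.1), if_pos h.2]
    · rw [if_neg h2]
      have e : s.1 + vec (rot s.2) + vec s.2 + vec (rotr (rotr s.2)) = s.1 + vec (rot s.2) := by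
        rw [vec_rotr2]; abel
      have e2 : s.1 + vec (rot s.2) + vec (rotr s.2) = s.1 := by rw [vec_rotr]; abel
      unfold prv
      simp only [e, e2, rot_rotr]
      rw [if_neg h1, if_neg (not_not.2 h.1)]

/-- the potential -/
def phi (s : (ℤ × ℤ) × Bool × Bool) : ℤ :=
  2 * (s.1.1 - s.1.2) + ((vec s.2).1 - (vec s.2).2) + ((vec s.2).1 + (vec s.2).2)

theorem phi_nxt (C : Finset (ℤ × ℤ)) (s : (ℤ × ℤ) × Bool × Bool) :
    phi (nxt C s) = phi s + 2 - 4 * (if s.2.2 = true then 1 else 0) := by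
  obtain ⟨⟨x, y⟩, a, b⟩ := s
  unfold nxt
  split_ifs <;> rcases a with _ | _ <;> rcases b with _ | _ <;>
    simp_all [phi, vec, rot, rotr] <;> ring

/-- the starting edge -/
def st : (ℤ × ℤ) × Bool × Bool := (0, false, false)

theorem iter_BE {C : Finset (ℤ × ℤ)} {s : (ℤ × ℤ) × Bool × Bool} (h : BE C s) (k : ℕ) :
    BE C ((nxt C)^[k] s) := by
  induction k with
  | zero => exact h
  | succ k ih => rw [Function.iterate_succ_apply']; exact nxt_BE ih

theorem iter_inj {C : Finset (ℤ × ℤ)} {s t : (ℤ × ℤ) × Bool × Bool} (hs : BE C s) (ht : BE C t)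
    (k : ℕ) (h : (nxt C)^[k] s = (nxt C)^[k] t) : s = t := by
  induction k with
  | zero => exact h
  | succ k ih =>
    rw [Function.iterate_succ_apply', Function.iterate_succ_apply'] at h
    apply ih
    rw [← prv_nxt (iter_BE hs k), h, prv_nxt (iter_BE ht k)]

theorem periodic {C : Finset (ℤ × ℤ)} {s : (ℤ × ℤ) × Bool × Bool} (h : BE C s) :
    s ∈ Function.periodicPts (nxt C) := by
  obtain ⟨i, j, hij, e⟩ := Set.Finite.exists_lt_map_eq_of_forall_mem
    (f := fun k : ℕ => (nxt C)^[k] s) (t := ↑(C ×ˢ (univ : Finset (Bool × Bool))))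
    (fun k => by
      rw [mem_coe, mem_product]
      exact ⟨(iter_BE h k).1, mem_univ _⟩) (finite_toSet _)
  obtain ⟨m, rfl⟩ := Nat.exists_eq_add_of_lt hij
  have e' : (nxt C)^[i] s = (nxt C)^[i] ((nxt C)^[m + 1] s) := by
    rw [← Function.iterate_add_apply, ← add_assoc]; exact e
  exact Function.mk_mem_periodicPts (Nat.succ_pos m) (iter_inj h (iter_BE h _) i e').symm

/-- record the site outside a positively oriented edge -/
def upd (S : Finset (ℤ × ℤ)) (s : (ℤ × ℤ) × Bool × Bool) : Finset (ℤ × ℤ) :=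
  if s.2.2 = true then insert (s.1 + vec s.2) S else S

/-- the possible recorded sets and current edges -/
def Fam : ℕ → Finset (Finset (ℤ × ℤ) × ((ℤ × ℤ) × Bool × Bool))
  | 0 => {(∅, st)}
  | k + 1 => (Fam k).biUnion fun a =>
      {(upd a.1 a.2, (a.2.1, rot a.2.2)), (upd a.1 a.2, (a.2.1 + vec (rot a.2.2), a.2.2)),
        (upd a.1 a.2, (a.2.1 + vec (rot a.2.2) + vec a.2.2, rotr a.2.2))}

theorem Fam_card (k : ℕ) : (Fam k).card ≤ 3 ^ k := by
  induction k with
  | zero => simp [Fam]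
  | succ k ih =>
    rw [Fam, pow_succ]
    exact (card_biUnion_le_card_mul _ _ 3 fun a _ => card_le_three).trans
      (Nat.mul_le_mul_right _ ih)

/-- the recorded set after `k` steps -/
def seen (C : Finset (ℤ × ℤ)) (k : ℕ) : Finset (ℤ × ℤ) :=
  ((range k).filter fun i => ((nxt C)^[i] st).2.2 = true).image
    fun i => ((nxt C)^[i] st).1 + vec ((nxt C)^[i] st).2

theorem seen_succ (C : Finset (ℤ × ℤ)) (k : ℕ) : seen C (k + 1) = upd (seen C k) ((nxt C)^[k] st) := by
  unfold seen upd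
  rw [range_add_one, filter_insert]
  by_cases h : ((nxt C)^[k] st).2.2 = true
  · rw [if_pos h, if_pos h, image_insert]
  · rw [if_neg h, if_neg h]

theorem Fam_mem (C : Finset (ℤ × ℤ)) (k : ℕ) : (seen C k, (nxt C)^[k] st) ∈ Fam k := by
  induction k with
  | zero => simp [Fam, seen]
  | succ k ih =>
    rw [Fam, mem_biUnion]
    refine ⟨_, ih, ?_⟩
    rw [seen_succ, Function.iterate_succ_apply']
    generalize (nxt C)^[k] st = s
    simp only [mem_insert, mem_singleton, Prod.mk.injEq, true_and]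
    unfold nxt
    split_ifs
    · exact Or.inr (Or.inr rfl)
    · exact Or.inr (Or.inl rfl)
    · exact Or.inl rfl

theorem phi_iter (C : Finset (ℤ × ℤ)) (k : ℕ) : phi ((nxt C)^[k] st) =
    phi st + 2 * k - 4 * (((range k).filter fun i => ((nxt C)^[i] st).2.2 = true).card : ℤ) := by
  induction k with
  | zero => simp
  | succ k ih =>
    rw [Function.iterate_succ_apply', phi_nxt, ih, range_add_one, filter_insert]
    by_cases h : ((nxt C)^[k] st).2.2 = true
    · rw [if_pos h, if_pos h, card_insert_of_notMem (by simp)]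
      push_cast; ring
    · rw [if_neg h, if_neg h]
      push_cast; ring

theorem seen_card {C : Finset (ℤ × ℤ)} :
    Function.minimalPeriod (nxt C) st ≤ 4 * (seen C (Function.minimalPeriod (nxt C) st)).card := by
  have h1 := phi_iter C (Function.minimalPeriod (nxt C) st)
  rw [Function.iterate_minimalPeriod] at h1
  have hinj := Function.iterate_injOn_Iio_minimalPeriod (f := nxt C) (x := st)
  generalize Function.minimalPeriod (nxt C) st = L at h1 hinj
  have h2 : ((range L).filter fun i => ((nxt C)^[i] st).2.2 = true).card ≤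
      (seen C L ×ˢ (univ : Finset Bool)).card := by
    refine card_le_card_of_injOn
      (fun i => (((nxt C)^[i] st).1 + vec ((nxt C)^[i] st).2, ((nxt C)^[i] st).2.1)) ?_ ?_
    · intro i hi
      rw [mem_coe] at hi
      rw [mem_coe, mem_product]
      exact ⟨mem_image_of_mem _ hi, mem_univ _⟩
    · intro i hi j hj e
      rw [mem_coe, mem_filter, mem_range] at hi hj
      refine hinj hi.1 hj.1 ?_
      obtain ⟨e1, e2⟩ := Prod.mk.inj e
      have e3 : ((nxt C)^[i] st).2 = ((nxt C)^[j] st).2 := Prod.ext e2 (hi.2.trans hj.2.symm)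
      rw [e3] at e1
      exact Prod.ext (add_right_cancel e1) e3
  rw [card_product, card_univ, Fintype.card_bool] at h2
  omega

theorem geo (m : ℕ) : ∑ a ∈ range m, (3 : ℝ) ^ (a + 1) * (1 / 1000) ^ (a + 1) ≤
    1 / 4 - 1 / 4 * (3 / 1000) ^ m := by
  induction m with
  | zero => simp
  | succ m ih =>
    rw [sum_range_succ]
    have e : (3 : ℝ) ^ (m + 1) * (1 / 1000) ^ (m + 1) = 3 / 1000 * (3 / 1000) ^ m := by
      rw [← mul_pow, pow_succ]; norm_num [mul_comm]
    have h : (0 : ℝ) ≤ (3 / 1000) ^ m := by positivity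
    rw [e, pow_succ]
    linarith

end OPeierlsAux

open OPeierlsAux Finset in
/-- Oriented Peierls estimate on the coarse lattice. -/
theorem opeierls {E : Type} [DecidableEq E] (F : Finset E) {p : ℝ} (h0 : 0 ≤ p) (h1 : p ≤ 1) (n : ℕ)
    (Good Bad : Finset E → Finset (ℤ × ℤ))
    (hS : ∀ S : Finset (ℤ × ℤ),
      Ex F (fun _ => p) (fun ω => ind (S ⊆ Bad ω)) ≤ (1 / 10 ^ 12) ^ S.card)
    (hz : ∀ ω, ω ⊆ F → (0 : ℤ × ℤ) ∈ Good ω ∨ (0 : ℤ × ℤ) ∈ Bad ω)
    (hsub : ∀ ω, ω ⊆ F → ∀ x ∈ Good ω, InQ n x)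
    (hcl : ∀ ω, ω ⊆ F → ∀ x ∈ Good ω, ∀ u : Bool × Bool, u.2 = true → InQ n (x + vec u) →
      x + vec u ∈ Good ω ∨ x + vec u ∈ Bad ω) :
    1 / 2 ≤ Ex F (fun _ => p)
      (fun ω => ind (∃ x ∈ Good ω, ∃ u : Bool × Bool, u.2 = true ∧ ¬ InQ n (x + vec u))) := by
  let K := F.powerset.sup fun ω => Function.minimalPeriod (nxt (Good ω)) st
  let A : ℕ → Finset (Finset (ℤ × ℤ) × ((ℤ × ℤ) × Bool × Bool)) := fun a =>
    (Fam (a + 1)).filter fun b => a + 1 ≤ 4 * b.1.card
  have key : ∀ ω, ω ⊆ F → 1 - (ind (({0} : Finset (ℤ × ℤ)) ⊆ Bad ω) +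
      ∑ a ∈ range K, ∑ b ∈ A a, ind (b.1 ⊆ Bad ω)) ≤
      ind (∃ x ∈ Good ω, ∃ u : Bool × Bool, u.2 = true ∧ ¬ InQ n (x + vec u)) := by
    intro ω hω
    have hn : 0 ≤ ∑ a ∈ range K, ∑ b ∈ A a, ind (b.1 ⊆ Bad ω) :=
      sum_nonneg fun _ _ => sum_nonneg fun _ _ => ind_nonneg _
    by_cases h : ∃ x ∈ Good ω, ∃ u : Bool × Bool, u.2 = true ∧ ¬ InQ n (x + vec u)
    · rw [ind_pos h]
      exact sub_le_self _ (add_nonneg (ind_nonneg _) hn)
    · rw [ind_neg h, sub_nonpos]
      rcases hz ω hω with h3 | h3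
      · refine le_add_of_nonneg_of_le (ind_nonneg _) ?_
        have hst : BE (Good ω) st := ⟨h3, fun h' => by
          have := (hsub ω hω _ h').1
          simp [st, vec] at this⟩
        have hpos := Function.minimalPeriod_pos_of_mem_periodicPts (periodic hst)
        have hK : Function.minimalPeriod (nxt (Good ω)) st ≤ K :=
          le_sup (f := fun ω => Function.minimalPeriod (nxt (Good ω)) st) (mem_powerset.2 hω)
        have hc := seen_card (C := Good ω)
        generalize Function.minimalPeriod (nxt (Good ω)) st = L at hpos hK hc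
        obtain ⟨a, rfl⟩ := Nat.exists_eq_succ_of_ne_zero hpos.ne'
        have h2 : ∃ a ∈ range K, ∃ b ∈ A a, b.1 ⊆ Bad ω := by
          refine ⟨a, mem_range.2 hK, _, mem_filter.2 ⟨Fam_mem (Good ω) (a + 1), hc⟩, fun y hy => ?_⟩
          obtain ⟨i, hi, rfl⟩ := mem_image.1 hy
          have hb := iter_BE hst i
          refine (hcl ω hω _ hb.1 _ (mem_filter.1 hi).2 ?_).resolve_left hb.2
          by_contra hq
          exact h ⟨_, hb.1, _, (mem_filter.1 hi).2, hq⟩
        calc (1 : ℝ) = ind (∃ a ∈ range K, ∃ b ∈ A a, b.1 ⊆ Bad ω) := (ind_pos h2).symm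
          _ ≤ _ := ind_exists_le _ _
          _ ≤ _ := sum_le_sum fun a _ => ind_exists_le _ _
      · rw [ind_pos (singleton_subset_iff.2 h3)]
        exact le_add_of_nonneg_right hn
  refine le_trans ?_ (Ex_mono (adm_const h0 h1) key)
  rw [Ex_sub, Ex_const, Ex_add, Ex_sum]
  have h2 : ∀ a ∈ range K, Ex F (fun _ => p)
      (fun ω => ∑ b ∈ A a, ind (b.1 ⊆ Bad ω)) ≤ 3 ^ (a + 1) * (1 / 1000) ^ (a + 1) := by
    intro a _
    rw [Ex_sum]
    refine (sum_le_card_nsmul _ _ ((1 / 1000 : ℝ) ^ (a + 1)) fun b hb => ?_).trans ?_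
    · refine (hS b.1).trans ?_
      rw [show (1 / 10 ^ 12 : ℝ) = (1 / 1000) ^ 4 by norm_num, ← pow_mul]
      exact pow_le_pow_of_le_one (by norm_num) (by norm_num) (mem_filter.1 hb).2
    · rw [nsmul_eq_mul]
      have : ((A a).card : ℝ) ≤ 3 ^ (a + 1) := by
        exact_mod_cast (card_filter_le _ _).trans (Fam_card (a + 1))
      gcongr
  have h3 := (sum_le_sum h2).trans (geo K)
  have h4 : (0 : ℝ) ≤ (3 / 1000) ^ K := by positivity
  have h5 := hS {0}
  rw [card_singleton, pow_one] at h5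
  have h6 : (1 / 10 ^ 12 : ℝ) ≤ 1 / 4 := by norm_num
  linarith

end Vale.Agent.P151
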