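import Mathlib
import Vale.Agent.P151.GDefs

namespace Vale.Agent.P151

namespace OSteerAux

open Finset BlockAux

/-- the active region, with `a = t e` and `b = t s` -/
def Act (s α w γ σ a b x y : ℤ) : Prop :=
  (-(w + 2 * a) ≤ y ∧ y ≤ w + 2 * a) ∧
    (α - 2 * a ≤ x ∨ (3 * α - w - 8 * a ≤ 3 * x + y ∧ y ≤ 3 * s + 2 * a)) ∧
    (x + 3 * y ≤ γ + 2800 * s + 8 * a ∧ x ≤ γ + 800 * s + 8 * a) ∧ σ + b ≤ x + y

/-- the final box -/
def Bx (s γ a x y : ℤ) : Prop :=
  (γ - (800 * s + 8 * a) ≤ x ∧ x ≤ γ + (800 * s + 8 * a)) ∧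
    (-(800 * s + 8 * a) ≤ y ∧ y ≤ 800 * s + 8 * a)

theorem step_i {s e α w γ σ a b x y xv yv x' y' : ℤ} (he : 0 ≤ e) (ha : 0 ≤ a)
    (hs : 8 * (a + e) ≤ s) (hw : 1200 * s ≤ w) (h : Act s α w γ σ a b x y)
    (h1 : |xv - x| ≤ e) (h2 : |yv - y| ≤ e) (hv : ¬Bx s γ (a + e) xv yv) (hy : 0 ≤ yv)
    (h3 : |x' - xv - 3 * s| ≤ e) (h4 : |y' - yv - -s| ≤ e) :
    Act s α w γ σ (a + e) (b + s) x' y' := by
  unfold Act Bx at *
  rw [abs_le] at h1 h2 h3 h4
  omega

theorem step_j {s e α w γ σ a b x y xv yv x' y' : ℤ} (he : 0 ≤ e) (ha : 0 ≤ a)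
    (hs : 8 * (a + e) ≤ s) (hw : 1200 * s ≤ w) (h : Act s α w γ σ a b x y)
    (h1 : |xv - x| ≤ e) (h2 : |yv - y| ≤ e) (hy : yv < 0)
    (h3 : |x' - xv - -s| ≤ e) (h4 : |y' - yv - 3 * s| ≤ e) :
    Act s α w γ σ (a + e) (b + s) x' y' := by
  unfold Act at *
  rw [abs_le] at h1 h2 h3 h4
  omega

theorem step_box {s e γ a x y xv yv : ℤ} (he : 0 ≤ e) (h : Bx s γ a x y)
    (h1 : |xv - x| ≤ e) (h2 : |yv - y| ≤ e) : Bx s γ (a + e) xv yv := by
  unfold Bx at *
  rw [abs_le] at h1 h2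
  omega

theorem room {s e α w γ σ a b x y xv yv x' y' : ℤ} (he : 0 ≤ e) (ha : 0 ≤ a)
    (hs : 8 * (a + e) ≤ s) (hw : w ≤ 2000 * s) (h : Act s α w γ σ a b x y)
    (h1 : |xv - x| ≤ e) (h2 : |yv - y| ≤ e)
    (h3 : |x' - xv - 0| ≤ 101 * s) (h4 : |y' - yv - 0| ≤ 101 * s) :
    (α - 800 * s ≤ x' ∧ x' ≤ γ + 1200 * s) ∧ -(w + 800 * s) ≤ y' ∧ y' ≤ w + 800 * s := by
  unfold Act at *
  rw [abs_le] at h1 h2 h3 h4
  omega

theorem near {s e α w γ σ a b x y xv yv : ℤ} (he : 0 ≤ e) (ha : 0 ≤ a) (hb : 0 ≤ b)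
    (hs : 8 * (a + e) ≤ s) (hw : w ≤ 2000 * s) (hw' : 1200 * s ≤ w) (hγ : α + 800 * s ≤ γ)
    (hσ : σ + 2000 * s ≤ γ) (h : Act s α w γ σ a b x y ∨ Bx s γ a x y)
    (h1 : |xv - x| ≤ e) (h2 : |yv - y| ≤ e) :
    ((α - 800 * s ≤ xv ∧ xv ≤ γ + 1200 * s) ∧ -(w + 800 * s) ≤ yv ∧ yv ≤ w + 800 * s) ∧
      σ - 2 * e ≤ xv + yv := by
  unfold Act Bx at *
  rw [abs_le] at h1 h2
  omega

theorem other (i : Fin 2) : ∃ j : Fin 2, j ≠ i ∧ (∀ j', j' ≠ i → j' = j) ∧
    ∀ f : Fin 2 → ℤ, f 0 + f 1 = f i + f j := by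
  fin_cases i
  · exact ⟨1, by decide, by decide, fun f => rfl⟩
  · exact ⟨0, by decide, by decide, fun f => add_comm _ _⟩

theorem mem_slab2 {c x : Fin 2 → ℤ} {i j : Fin 2} (hj : j ≠ i) (hall : ∀ j', j' ≠ i → j' = j)
    {α β w : ℤ} : x ∈ slab c i true α β w ↔
      (α ≤ x i - c i ∧ x i - c i ≤ β) ∧ -w ≤ x j - c j ∧ x j - c j ≤ w := by
  rw [mem_slab]
  simp only [sg, if_true, one_mul]
  refine and_congr_right fun _ => ⟨fun h => ?_, fun h j' hj' => ?_⟩
  · have := h j hj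
    omega
  · rw [hall j' hj']
    omega

theorem sub_abs (a b c : ℤ) : a - c - (b - c) = a - b := by ring

end OSteerAux

open Finset BlockAux OSteerAux in
/-- Oriented steering. -/
theorem osteer {V : Type} [DecidableEq V] (G : SimpleGraph V) [G.LocallyFinite]
    (ϖ : V → Fin 2 → ℤ) (o : V) {p δ ε : ℝ} (h0 : 0 ≤ p) (h1 : p ≤ 1) (hδ : 0 ≤ δ) (hε : 0 ≤ ε)
    {m L R M : ℕ} {s e k : ℤ} (hs : 0 < s) (hk : 0 ≤ k) (hlip : LipG G ϖ k) (hR : R * k ≤ e)
    (he : 8 * (400 * (M + 13)) * e ≤ s)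
    (hT : TargetOK G p m R δ ε) (hM : ∀ v, MoveAt G ϖ p m L s e (101 * s) δ v) :
    OSteerOK G ϖ o p (400 * s) e M (400 * (M + 13) * (L + R) + R) ((400 * (M + 13) : ℕ) * ε) := by
  classical
  intro c i α β w γ σ r c1 c2 c3 c4 c5 c6 c7 D ξ B hdis hξ hD hB hBσ ho hfresh hroom
  have _ := hε
  obtain ⟨j, hj, hall, hsum⟩ := other i
  have hsum' : ∀ x : V, (ϖ x 0 - c 0) + (ϖ x 1 - c 1) = (ϖ x i - c i) + (ϖ x j - c j) :=
    fun x => hsum fun a => ϖ x a - c a
  have he0 : 0 ≤ e := le_trans (by positivity) hR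
  set N : ℕ := 400 * (M + 13) with hN
  have hNe : ∀ t : ℕ, t ≤ N → 8 * ((t : ℤ) * e) ≤ s := by
    intro t ht
    have a1 : (t : ℤ) ≤ 400 * (M + 13) := by exact_mod_cast ht
    have a2 := mul_le_mul_of_nonneg_right a1 he0
    linarith
  set Bt : ℕ → Finset V := fun t => (nbk G (r + t * (L + R)) {o}).filter fun x =>
    Act s α w γ σ (t * e) (t * s) (ϖ x i - c i) (ϖ x j - c j) ∨
      Bx s γ (t * e) (ϖ x i - c i) (ϖ x j - c j) with hBt
  have key : ∀ t : ℕ, t ≤ N → hit D p ξ o B - t * ε ≤ hit D p ξ o (Bt t) := by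
    intro t
    induction t with
    | zero =>
      intro _
      rw [Nat.cast_zero, zero_mul, sub_zero]
      refine hit_mono h0 h1 Subset.rfl subset_union_left o fun x hx => ?_
      have a1 := mem_lift.1 (hB hx)
      have a2 := hBσ x hx
      rw [hsum'] at a2
      have a3 := (mem_slab2 hj hall).1 a1.2
      refine mem_filter.2 ⟨by simpa using a1.1, Or.inl ?_⟩
      simp only [Act, Nat.cast_zero, zero_mul]
      omega
    | succ t ih =>
      intro ht
      have a1 := ih (by omega)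
      have a0 := hNe (t + 1) ht
      have e1 : ((t + 1 : ℕ) : ℤ) * e = t * e + e := by push_cast; ring
      have e2 : ((t + 1 : ℕ) : ℤ) * s = t * s + s := by push_cast; ring
      have p1 : 0 ≤ (t : ℤ) * e := by positivity
      have p2 : 0 ≤ (t : ℤ) * s := by positivity
      rw [e1] at a0
      have hr1 : R + (r + t * (L + R)) ≤ r + (t + 1) * (L + R) := by
        rw [add_mul, one_mul]; omega
      have hr2 : L + (R + (r + t * (L + R))) = r + (t + 1) * (L + R) := by ring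
      have hr3 : r + (t + 1) * (L + R) ≤ r + (N * (L + R) + R) := by
        have := Nat.mul_le_mul_right (L + R) ht
        omega
      have hnb : ∀ v ∈ nbk G R (Bt t), v ∈ nbk G (R + (r + t * (L + R))) {o} ∧ ∃ x y : ℤ,
          (Act s α w γ σ (t * e) (t * s) x y ∨ Bx s γ (t * e) x y) ∧
          |ϖ v i - c i - x| ≤ e ∧ |ϖ v j - c j - y| ≤ e := by
        intro v hv
        obtain ⟨b, hb, hvb⟩ := (mem_nbk_iff _ _ _ _).1 hv
        obtain ⟨hb1, hb2⟩ := mem_filter.1 hb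
        refine ⟨?_, _, _, hb2, ?_, ?_⟩
        · rw [nbk_add]
          exact nbk_mono G R (singleton_subset_iff.2 hb1) hvb
        · rw [sub_abs]; exact (abs_le_of_mem_nbkG hk hlip hvb i).trans hR
        · rw [sub_abs]; exact (abs_le_of_mem_nbkG hk hlip hvb j).trans hR
      have hsub : nbk G R (Bt t) ⊆ (lift G ϖ o (slab c i true (α - 2 * (400 * s))
          (γ + 3 * (400 * s)) (w + 2 * (400 * s))) (r + (N * (L + R) + R))).filter
          (fun x => σ - 2 * e ≤ (ϖ x 0 - c 0) + (ϖ x 1 - c 1)) := by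
        intro v hv
        obtain ⟨b1, x, y, b2, b3, b4⟩ := hnb v hv
        have b5 := near he0 p1 p2 a0 (by omega) (by omega) (by omega) (by omega) b2 b3 b4
        rw [mem_filter, mem_lift, mem_slab2 hj hall, hsum']
        exact ⟨⟨nbk_mono_left G (hr1.trans hr3) _ b1, by omega⟩, by omega⟩
      have a2 := hT D ξ o (Bt t) (Bt (t + 1)) hdis hξ hD (fun h => ho (hsub h))
        ((Ein_mono _ hsub).trans hfresh) (fun v hv => by
          obtain ⟨b1, x, y, b2, b3, b4⟩ := hnb v hv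
          by_cases hbox : Bx s γ (t * e + e) (ϖ v i - c i) (ϖ v j - c j)
          · have hvT : v ∈ Bt (t + 1) :=
              mem_filter.2 ⟨nbk_mono_left G hr1 _ b1, Or.inr (by rwa [e1])⟩
            refine const_le_Ex (adm_const h0 h1) fun ω _ => ?_
            rw [ind_pos ⟨v, nbk_mono_left G (Nat.zero_le m) _ (mem_singleton_self v),
              v, hvT, Conn.refl _ _⟩]
            linarith
          have hact : Act s α w γ σ (t * e) (t * s) x y :=
            b2.resolve_right fun h => hbox (step_box he0 h b3 b4)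
          have hball : ∀ z ∈ nbk G L {v}, z ∈ nbk G (r + (t + 1) * (L + R)) {o} := by
            intro z hz
            rw [← hr2, nbk_add]
            exact nbk_mono G L (singleton_subset_iff.2 b1) hz
          have hwin : Ein G (win G ϖ v L 0 (101 * s)) ⊆ D ∪ ξ := by
            refine (Ein_mono _ fun z hz => ?_).trans hroom
            obtain ⟨z1, z2⟩ := mem_win.1 hz
            have z3 := room (x' := ϖ z i - c i) (y' := ϖ z j - c j) he0 p1 a0 (by omega) hact b3 b4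
              (by rw [sub_abs]; exact z2 i) (by rw [sub_abs]; exact z2 j)
            rw [mem_lift, mem_slab2 hj hall]
            exact ⟨nbk_mono_left G hr3 _ (hball z z1), by omega⟩
          by_cases hy : 0 ≤ ϖ v j - c j
          · refine le_trans (hM v i) (hitS_mono h0 h1 (empty_subset _) hwin Subset.rfl
              fun z hz => ?_)
            obtain ⟨z1, z2⟩ := mem_win.1 hz
            refine mem_filter.2 ⟨hball z z1, Or.inl ?_⟩
            rw [e1, e2]
            refine step_i he0 p1 a0 (by omega) hact b3 b4 hbox hy ?_ ?_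
            · rw [sub_abs]; simpa [mv] using z2 i
            · rw [sub_abs]; simpa [mv, hj] using z2 j
          · refine le_trans (hM v j) (hitS_mono h0 h1 (empty_subset _) hwin Subset.rfl
              fun z hz => ?_)
            obtain ⟨z1, z2⟩ := mem_win.1 hz
            refine mem_filter.2 ⟨hball z z1, Or.inl ?_⟩
            rw [e1, e2]
            refine step_j he0 p1 a0 (by omega) hact b3 b4 (not_le.1 hy) ?_ ?_
            · rw [sub_abs]; simpa [mv, hj.symm] using z2 i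
            · rw [sub_abs]; simpa [mv] using z2 j)
      push_cast
      linarith
  refine le_trans (key N le_rfl) (hit_mono h0 h1 Subset.rfl subset_union_left o fun x hx => ?_)
  obtain ⟨b1, b2⟩ := mem_filter.1 hx
  have a0 := hNe N le_rfl
  have p1 : 0 ≤ (N : ℤ) * e := by positivity
  have e3 : (N : ℤ) * s = M * (400 * s) + 5200 * s := by rw [hN]; push_cast; ring
  rw [mem_lift, mem_slab2 hj hall]
  refine ⟨nbk_mono_left G (by omega) _ b1, ?_⟩
  rw [e3] at b2
  unfold Act Bx at b2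
  omega

end Vale.Agent.P151
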