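import Mathlib
import Vale.Agent.P151.Block
import Vale.Agent.P151.OSteer
import Vale.Agent.P151.OExplore
import Vale.Agent.P151.GBall

namespace Vale.Agent.P151

open Finset BlockAux

namespace OBlockAux

variable {V : Type} [DecidableEq V] {G : SimpleGraph V} [G.LocallyFinite]

theorem lift_mono {ϖ : V → Fin 2 → ℤ} {o : V} {Z Z' : Finset (Fin 2 → ℤ)} {r r' : ℕ}
    (h : Z ⊆ Z') (hr : r ≤ r') : lift G ϖ o Z r ⊆ lift G ϖ o Z' r' := fun _ hx =>
  mem_lift.2 ⟨nbk_mono_left G hr _ (mem_lift.1 hx).1, h (mem_lift.1 hx).2⟩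

theorem lift_union {ϖ : V → Fin 2 → ℤ} {o : V} {Z Z1 Z2 : Finset (Fin 2 → ℤ)} {r r1 r2 : ℕ}
    (h : Z ⊆ Z1 ∪ Z2) (h1 : r ≤ r1) (h2 : r ≤ r2) :
    lift G ϖ o Z r ⊆ lift G ϖ o Z1 r1 ∪ lift G ϖ o Z2 r2 := fun _ hx => by
  rcases mem_union.1 (h (mem_lift.1 hx).2) with h3 | h3
  · exact mem_union_left _ (mem_lift.2 ⟨nbk_mono_left G h1 _ (mem_lift.1 hx).1, h3⟩)
  · exact mem_union_right _ (mem_lift.2 ⟨nbk_mono_left G h2 _ (mem_lift.1 hx).1, h3⟩)

theorem sum_ge {c x : Fin 2 → ℤ} {i : Fin 2} {α β w : ℤ} (h : x ∈ slab c i true α β w) :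
    α - w ≤ (x 0 - c 0) + (x 1 - c 1) := by
  obtain ⟨⟨h1, -⟩, h2⟩ := mem_slab.1 h
  simp only [sg, if_true, one_mul] at h1
  fin_cases i
  · have := h2 1 (by simp)
    simp only [Fin.zero_eta] at h1
    omega
  · have := h2 0 (by simp)
    simp only [Fin.mk_one] at h1
    omega

/-- data of the oriented renormalisation -/
structure OP (G : SimpleGraph V) [G.LocallyFinite] where
  /-- plane geometry -/
  P : Par 2
  /-- the map to the plane -/
  ϖ : V → Fin 2 → ℤ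
  /-- base point -/
  o : V
  /-- radius of the wired ball -/
  m : ℕ
  /-- radius of the universe -/
  Ω : ℕ
  /-- radius used by one steering -/
  Λ : ℕ
  zero : ϖ o = 0
  ball : nbk G m {o} ⊆ lift G ϖ o (P.Q 0) Ω

namespace OP

variable (O : OP G)

/-- radius attached to a coarse edge -/
def rad (a : CE) : ℕ := ((a.1.1 + a.1.2).toNat + 1) * (2 * O.Λ)

/-- explored region -/
noncomputable def W (X : Finset CE) : Finset V := lift G O.ϖ O.o (O.P.W X) O.Ω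

/-- narrow corridor -/
noncomputable def Nar (a : CE) (τ : ℤ) : Finset V := lift G O.ϖ O.o (O.P.Nar a τ) (O.rad a)

/-- end box -/
noncomputable def End (a : CE) : Finset V := lift G O.ϖ O.o (O.P.End a) (O.rad a)

/-- the wired edges -/
noncomputable def base : Finset (Sym2 V) := Ein G (nbk G O.m {O.o})

/-- revealed edges -/
noncomputable def Rv (X : Finset CE) : Finset (Sym2 V) := Ein G (O.W X) \ O.base

/-- fresh edges of the narrow corridor -/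
noncomputable def Dn (X : Finset CE) (a : CE) : Finset (Sym2 V) :=
  Ein G (O.W X ∪ O.Nar a 0) \ Ein G (O.W X)

/-- the invariant -/
def Inv (p δ1 : ℝ) (X : Finset CE) (ξ : Finset (Sym2 V)) (a : CE) : Prop :=
  1 - δ1 ≤ hit (O.Dn X a) p (O.base ∪ ξ) O.o (O.End a)

theorem W_mono {X X' : Finset CE} (h : X ⊆ X') : O.W X ⊆ O.W X' :=
  lift_mono (O.P.W_mono h) le_rfl

theorem ball_sub (X : Finset CE) : nbk G O.m {O.o} ⊆ O.W X :=
  O.ball.trans (lift_mono (O.P.Q0_sub_W X) le_rfl)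

theorem base_sub (X : Finset CE) : O.base ⊆ Ein G (O.W X) := Ein_mono _ (O.ball_sub X)

theorem Rv_mono {X X' : Finset CE} (h : X ⊆ X') : O.Rv X ⊆ O.Rv X' :=
  sdiff_subset_sdiff (Ein_mono _ (O.W_mono h)) Subset.rfl

theorem inv_mono {p δ1 : ℝ} (h0 : 0 ≤ p) (h1 : p ≤ 1) {X X' : Finset CE}
    {ξ ξ' : Finset (Sym2 V)} {a : CE} (hX : X ⊆ X') (hξ : ξ ⊆ ξ')
    (hu : Untouched X' (a.1 + vec a.2)) (h : O.Inv p δ1 X ξ a) : O.Inv p δ1 X' ξ' a := by
  refine le_trans h (hit_mono h0 h1 (union_subset_union_right hξ) (fun e he => ?_) _ Subset.rfl)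
  refine mem_union_left _ (mem_sdiff.2 ⟨Ein_mono _ (union_subset_union_left (O.W_mono hX))
    (mem_sdiff.1 he).1, fun h' => ?_⟩)
  obtain ⟨x, hx, hN⟩ := exists_end he
  exact O.P.Cor_W hu (O.P.Nar_sub_Cor a le_rfl (mem_lift.1 hN).2)
    (mem_lift.1 ((mem_Ein.1 h').2 x hx)).2

theorem inv_far {p δ1 : ℝ} (hδ : δ1 < 1) {k : ℤ} (hk : 0 ≤ k) (hlip : LipG G O.ϖ k)
    {X : Finset CE} {ξ : Finset (Sym2 V)} {a : CE} {n n' : ℕ} (hn : (n + 1) * k ≤ n')
    (h1 : InBox n' a.1) (h2 : ¬ InBox n' (a.1 + vec a.2)) (h : O.Inv p δ1 X ξ a) :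
    ∃ z, Conn (O.base ∪ ξ) O.o z ∧ z ∉ nbk G n {O.o} := by
  obtain ⟨ω, hω, t, ht, hc⟩ := exists_of_hit_pos (lt_of_lt_of_le (by linarith) h)
  have hf : ∀ x ∈ O.Nar a 0, (n' : ℤ) + 1 ≤ |O.ϖ x (O.P.ax a.2)| := fun x hx =>
    O.P.far (O.P.Nar_sub_Cor a le_rfl (mem_lift.1 hx).2) h1 h2
  have hb : ∀ z ∈ nbk G n {O.o}, |O.ϖ z (O.P.ax a.2)| ≤ n * k := fun z hz => by
    simpa [O.zero] using abs_le_of_mem_nbkG hk hlip hz (O.P.ax a.2)
  have e : ((n : ℤ) + 1) * k = n * k + k := by ring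
  rcases first_exit hc with hc | ⟨z, w, hc, he⟩
  · refine ⟨t, hc, fun h' => ?_⟩
    have := hf t (lift_mono (O.P.End_sub_Nar a O.P.hT) le_rfl ht)
    have := hb t h'
    omega
  · refine ⟨z, hc, fun h' => ?_⟩
    obtain ⟨x, hx, hN⟩ := exists_end (hω he)
    have h3 := hf x hN
    have h4 := hlip _ _ (mk_mem_Ein.1 (mem_sdiff.1 (hω he)).1).2.2 (O.P.ax a.2)
    have h5 := hb z h'
    rcases Sym2.mem_iff.1 hx with rfl | rfl
    · omega
    · rw [abs_le] at h4 h5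
      rw [le_abs] at h3
      omega

theorem init_hit {p δ θ : ℝ} (h0 : 0 ≤ p) (h1 : p ≤ 1) {L : ℕ} {s e k M : ℤ} (hl : O.P.l = 400 * s)
    (hk : 0 ≤ k) (hlip : LipG G O.ϖ k) (hmk : O.m * k ≤ e) (he : 4 * e < s)
    (hM : MoveAt G O.ϖ p O.m L s e (101 * s) δ O.o) (hS : OSteerOK G O.ϖ O.o p O.P.l e M O.Λ θ)
    (hML : O.P.T + 16 * O.P.l ≤ M * O.P.l) (hL : L ≤ O.Λ) (hΩ : 2 * O.Λ ≤ O.Ω) {u : Bool × Bool}
    (hu : u.2 = true) :
    1 - (δ + θ) ≤ hit (O.Rv ∅ ∪ O.Dn ∅ (0, u)) p O.base O.o (O.End (0, u)) := by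
  have hl0 := O.P.hl
  have hT := O.P.hT
  have he0 : 0 ≤ e := le_trans (mul_nonneg (Int.natCast_nonneg _) hk) hmk
  have hW : O.P.W ∅ = O.P.Q 0 := by simp [Par.W]
  have hrad : O.rad (0, u) = 2 * O.Λ := by simp [rad]
  have hsl : ∀ α β w, O.P.sl (0, u) α β w = slab 0 (O.P.ax u) true α β w := fun α β w => by
    rw [Par.sl, Par.cen_zero, hu]
  have hall : Ein G (O.W ∅ ∪ O.Nar (0, u) 0) ⊆ (O.Rv ∅ ∪ O.Dn ∅ (0, u)) ∪ O.base := by
    intro f hf
    by_cases h2 : f ∈ O.base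
    · exact mem_union_right _ h2
    · by_cases h3 : f ∈ Ein G (O.W ∅)
      · exact mem_union_left _ (mem_union_left _ (mem_sdiff.2 ⟨h3, h2⟩))
      · exact mem_union_left _ (mem_union_right _ (mem_sdiff.2 ⟨hf, h3⟩))
  have hZ : lift G O.ϖ O.o (slab 0 (O.P.ax u) true (-O.P.l - 2 * O.P.l)
      (11 * O.P.l + 1 + O.P.T + 3 * O.P.l) (3 * O.P.l + 2 * O.P.l)) (L + O.Λ) ⊆
      O.W ∅ ∪ O.Nar (0, u) 0 := by
    refine lift_union ((slab_cut (8 * O.P.l)).trans (union_subset_union ?_ ?_)) (by omega) (by omega)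
    · rw [hW, Par.Q, O.P.box_src (0, u), hsl]
      exact slab_mono (by omega) le_rfl (by omega)
    · rw [Par.Nar, hsl]
      exact slab_mono (by omega) (by omega) (by omega)
  have hwin : ∀ x ∈ win G O.ϖ O.o L (mv s 0) e, |O.ϖ x 0 - 3 * s| ≤ e ∧ |O.ϖ x 1 + s| ≤ e :=
    fun x hx => by
      have h2 := (mem_win.1 hx).2 0
      have h3 := (mem_win.1 hx).2 1
      simp [O.zero, mv] at h2 h3
      exact ⟨h2, h3⟩
  have h2 : 1 - δ ≤ hit (O.Rv ∅ ∪ O.Dn ∅ (0, u)) p O.base O.o (win G O.ϖ O.o L (mv s 0) e) := by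
    refine le_trans (hM 0) (le_trans (hitS_mono h0 h1 (empty_subset _)
      (D' := O.Rv ∅ ∪ O.Dn ∅ (0, u)) (ξ' := O.base) ((Ein_mono G fun x hx => ?_).trans hall)
      Subset.rfl Subset.rfl) ?_)
    · refine mem_union_left _ (mem_lift.2 ⟨nbk_mono_left G (by omega) _ (mem_win.1 hx).1, ?_⟩)
      rw [hW, Par.Q, Par.cen_zero, mem_box]
      intro j
      have h3 := (mem_win.1 hx).2 j
      simp only [O.zero, Pi.zero_apply, sub_zero, abs_le] at h3 ⊢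
      omega
    · exact Ex_mono (adm_const h0 h1) fun ω _ => ind_mono fun ⟨x, hx, t, ht, hc⟩ =>
        ⟨t, ht, ((conn_of_mem_nbk _ _ _ _ hx).mono subset_union_left).trans hc⟩
  have h3 := hS 0 (O.P.ax u) (-O.P.l) O.P.l (3 * O.P.l) (11 * O.P.l + 1 + O.P.T) s L
    (by omega) le_rfl (by omega) (by omega) (by omega) (by omega) (by omega)
    (O.Rv ∅ ∪ O.Dn ∅ (0, u)) O.base (win G O.ϖ O.o L (mv s 0) e)
    (disjoint_union_right.2 ⟨disjoint_sdiff, disjoint_of_subset_left (O.base_sub ∅) disjoint_sdiff⟩)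
    (Ein_sub_edgeSet _ _)
    (fun f hf => by
      rcases mem_union.1 hf with h | h <;> exact Ein_sub_edgeSet _ _ (mem_sdiff.1 h).1)
    (fun x hx => by
      obtain ⟨h3, h4⟩ := hwin x hx
      refine mem_lift.2 ⟨(mem_win.1 hx).1, slab_mono (α := -O.P.l) (β := O.P.l) (w := O.P.l) le_rfl
        le_rfl (by omega) ?_⟩
      rw [← box_eq_slab, mem_box]
      rw [abs_le] at h3 h4
      intro j
      fin_cases j <;> simp <;> omega)
    (fun x hx => by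
      obtain ⟨h3, h4⟩ := hwin x hx
      rw [abs_le] at h3 h4
      simp only [Pi.zero_apply]
      omega)
    (fun h => by
      have := (mem_filter.1 h).2
      simp only [O.zero, Pi.zero_apply] at this
      omega)
    (fun f hf => by
      refine (mem_union.1 (hall (Ein_mono G ((filter_subset _ _).trans hZ) hf))).resolve_right
        (not_mem_Ein (fun x hx hx' => ?_) hf)
      have h3 := (mem_filter.1 hx).2
      have h4 := abs_le.1 (abs_le_of_mem_nbkG hk hlip hx' 0)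
      have h5 := abs_le.1 (abs_le_of_mem_nbkG hk hlip hx' 1)
      simp only [O.zero, Pi.zero_apply] at h3 h4 h5
      omega)
    ((Ein_mono G hZ).trans hall)
  have h4 : hit (O.Rv ∅ ∪ O.Dn ∅ (0, u)) p O.base O.o (lift G O.ϖ O.o (slab 0 (O.P.ax u) true
      (11 * O.P.l + 1 + O.P.T - 3 * O.P.l) (11 * O.P.l + 1 + O.P.T + 3 * O.P.l) (3 * O.P.l))
      (L + O.Λ)) ≤ hit (O.Rv ∅ ∪ O.Dn ∅ (0, u)) p O.base O.o (O.End (0, u)) := by
    refine hit_mono h0 h1 Subset.rfl subset_union_left _ (lift_mono ?_ (by omega))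
    rw [Par.End, hsl]
    exact slab_mono (by omega) (by omega) le_rfl
  linarith

theorem init_le {p δ1 η : ℝ} (h0 : 0 ≤ p) (h1 : p ≤ 1) (hδ1 : 0 < δ1) (hη : 0 ≤ η)
    (h : ∀ u : Bool × Bool, u.2 = true →
      1 - η ≤ hit (O.Rv ∅ ∪ O.Dn ∅ (0, u)) p O.base O.o (O.End (0, u))) :
    Ex (O.Rv ∅) (fun _ => p) (fun ω => ind (∃ u : Bool × Bool, u.2 = true ∧
      ¬ O.Inv p δ1 ∅ ω (0, u))) ≤ 4 * (η / δ1) := by
  have hq : Adm (fun _ : Sym2 V => p) := adm_const h0 h1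
  have h7 : ∀ u : Bool × Bool, Ex (O.Rv ∅) (fun _ => p)
      (fun ω => ind (u.2 = true ∧ ¬ O.Inv p δ1 ∅ ω (0, u))) ≤ η / δ1 := by
    intro u
    by_cases hu : u.2 = true
    · have h10 := hit_union (ξ := O.base) (D := O.Rv ∅) (D' := O.Dn ∅ (0, u))
        (disjoint_of_subset_left sdiff_subset disjoint_sdiff) p O.o (O.End (0, u))
      have h11 := Ex_ind_le_div (F := O.Rv ∅) (c := δ1)
        (f := fun ω => 1 - hit (O.Dn ∅ (0, u)) p (O.base ∪ ω) O.o (O.End (0, u))) hq hδ1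
        (fun ω _ => by
          linarith [hit_le_one (D := O.Dn ∅ (0, u)) (ξ := O.base ∪ ω) h0 h1 O.o (O.End (0, u))])
      rw [Ex_sub, Ex_const, ← h10] at h11
      refine le_trans (Ex_mono hq fun ω _ => ind_mono fun h' => ?_) (h11.trans ?_)
      · linarith [not_le.1 h'.2]
      · exact div_le_div_of_nonneg_right (by linarith [h u hu]) hδ1.le
    · exact le_trans (Ex_le_const hq fun _ _ => (ind_neg fun h => hu h.1).le) (by positivity)
  calc _ ≤ Ex (O.Rv ∅) (fun _ => p) (fun ω => ∑ u : Bool × Bool,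
        ind (u.2 = true ∧ ¬ O.Inv p δ1 ∅ ω (0, u))) :=
        Ex_mono hq fun ω _ => le_trans (ind_mono fun ⟨u, hu⟩ => ⟨u, mem_univ _, hu⟩)
          (ind_exists_le univ _)
    _ ≤ ∑ _u : Bool × Bool, η / δ1 := by
        rw [Ex_sum]; exact sum_le_sum fun u _ => h7 u
    _ = _ := by simp

theorem two_steer {p θ : ℝ} (h0 : 0 ≤ p) (h1 : p ≤ 1) {e M : ℤ}
    (hS : OSteerOK G O.ϖ O.o p O.P.l e M O.Λ θ) (hML : O.P.T + 16 * O.P.l ≤ M * O.P.l)
    {X : Finset CE} {ξ η : Finset (Sym2 V)} {a : CE} (ha : a.2.2 = true) (hξ : ξ ⊆ O.Rv X)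
    (hu : Untouched X (a.1 + vec a.2)) {τ : ℤ} (hτ0 : 0 ≤ τ) (hτ : τ + 3 * O.P.l ≤ O.P.T)
    (hη : η ⊆ O.Dn X a \ Ein G (O.Nar a τ)) {u : Bool × Bool} (hu2 : u.2 = true)
    (hu' : Untouched (insert a X) (a.1 + vec a.2 + vec u))
    (hr1 : O.rad a + 2 * O.Λ ≤ O.rad (a.1 + vec a.2, u)) (hr2 : O.rad a + 2 * O.Λ ≤ O.Ω) :
    hit (((O.Rv (insert a X) \ O.Rv X) \ (O.Dn X a \ Ein G (O.Nar a τ))) ∪
        O.Dn (insert a X) (a.1 + vec a.2, u)) p (O.base ∪ ξ ∪ η) O.o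
        (O.Nar a (τ + 3 * O.P.l)) - 2 * θ ≤
      hit (((O.Rv (insert a X) \ O.Rv X) \ (O.Dn X a \ Ein G (O.Nar a τ))) ∪
        O.Dn (insert a X) (a.1 + vec a.2, u)) p (O.base ∪ ξ ∪ η) O.o (O.End (a.1 + vec a.2, u)) := by
  have hl0 := O.P.hl
  have hT := O.P.hT
  have hSS : O.P.S = 22 * O.P.l + 2 + O.P.T := rfl
  set y := a.1 + vec a.2 with hy
  set X' := insert a X with hX'
  set H := O.Dn X a \ Ein G (O.Nar a τ) with hH
  set D := ((O.Rv X' \ O.Rv X) \ H) ∪ O.Dn X' (y, u) with hD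
  have hsa : ∀ α β w, O.P.sl a α β w = slab (O.P.cen a.1) (O.P.ax a.2) true α β w :=
    fun α β w => by rw [Par.sl, ha]
  have hsu : ∀ α β w, O.P.sl (y, u) α β w = slab (O.P.cen y) (O.P.ax u) true α β w :=
    fun α β w => by rw [Par.sl, hu2]
  have hWW : O.W X ⊆ O.W X' := O.W_mono (subset_insert _ _)
  have hCW : O.P.Cor a ∪ O.P.Q y ⊆ O.P.W X' := O.P.sub_W_insert X a
  have hNP : O.P.Nar a 0 ⊆ O.P.W X' := (O.P.Nar_sub_Cor a le_rfl).trans (subset_union_left.trans hCW)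
  have hNW : O.W X ∪ O.Nar a 0 ⊆ O.W X' := union_subset hWW (lift_mono hNP (by omega))
  have hbξ : O.base ∪ ξ ⊆ Ein G (O.W X) := union_subset (O.base_sub X) (hξ.trans sdiff_subset)
  have hηW : η ⊆ Ein G (O.W X') :=
    hη.trans (sdiff_subset.trans (sdiff_subset.trans (Ein_mono _ hNW)))
  have hdis : Disjoint (O.base ∪ ξ ∪ η) D := by
    rw [disjoint_left]
    intro e he he'
    rcases mem_union.1 he' with h2 | h2
    · obtain ⟨h3, h4⟩ := mem_sdiff.1 h2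
      rcases mem_union.1 he with h5 | h5
      · exact (mem_sdiff.1 h3).2 (mem_sdiff.2 ⟨hbξ h5, (mem_sdiff.1 (mem_sdiff.1 h3).1).2⟩)
      · exact h4 (hη h5)
    · refine (mem_sdiff.1 h2).2 ?_
      rcases mem_union.1 he with h5 | h5
      · exact Ein_mono _ hWW (hbξ h5)
      · exact hηW h5
  have hE1 : (↑(O.base ∪ ξ ∪ η) : Set (Sym2 V)) ⊆ G.edgeSet := fun e he => by
    rcases mem_union.1 he with h5 | h5
    · exact Ein_sub_edgeSet _ _ (hbξ h5)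
    · exact Ein_sub_edgeSet _ _ (hηW h5)
  have hE2 : (↑D : Set (Sym2 V)) ⊆ G.edgeSet := fun e he => by
    rcases mem_union.1 he with h5 | h5
    · exact Ein_sub_edgeSet _ _ (mem_sdiff.1 (mem_sdiff.1 (mem_sdiff.1 h5).1).1).1
    · exact Ein_sub_edgeSet _ _ (mem_sdiff.1 h5).1
  have hfresh : ∀ Z : Finset V, Z ⊆ O.W X' ∪ O.Nar (y, u) 0 → (∀ x ∈ Z, x ∉ O.W X) →
      (∀ x ∈ Z, x ∈ O.Nar a 0 → x ∈ O.Nar a τ) → Ein G Z ⊆ D := by
    intro Z h2 h3 h4 e he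
    by_cases h5 : e ∈ Ein G (O.W X')
    · have h6 := not_mem_Ein h3 he
      refine mem_union_left _ (mem_sdiff.2 ⟨mem_sdiff.2 ⟨mem_sdiff.2 ⟨h5, fun h => h6
        (O.base_sub X h)⟩, fun h => h6 (mem_sdiff.1 h).1⟩, fun h => ?_⟩)
      refine (mem_sdiff.1 h).2 (mem_Ein.2 ⟨(mem_Ein.1 he).1, fun x hx => ?_⟩)
      have h7 := (mem_Ein.1 he).2 x hx
      exact h4 x h7 ((mem_union.1 ((mem_Ein.1 (mem_sdiff.1 (mem_sdiff.1 h).1).1).2 x hx)).resolve_left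
        (h3 x h7))
    · exact mem_union_right _ (mem_sdiff.2 ⟨Ein_mono _ h2 he, h5⟩)
  have h0W : O.o ∈ O.W X := O.ball_sub X (TargetAux.self_mem_nbk _ _)
  -- first steering
  have hZ1 : slab (O.P.cen a.1) (O.P.ax a.2) true (11 * O.P.l + 1 + τ - 2 * O.P.l)
      (O.P.S + 3 * O.P.l) (5 * O.P.l + 2 * O.P.l) ⊆ O.P.Cor a ∪ O.P.Q y := by
    refine (slab_cut (14 * O.P.l + 1 + O.P.T)).trans (union_subset_union ?_ ?_)
    · rw [Par.Cor, hsa]
      exact slab_mono (by omega) le_rfl (by omega)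
    · rw [Par.Q, hy, Par.box_tgt, hsa]
      exact slab_mono (by omega) (by omega) (by omega)
  have hZ1W : ∀ x ∈ lift G O.ϖ O.o (slab (O.P.cen a.1) (O.P.ax a.2) true
      (11 * O.P.l + 1 + τ - 2 * O.P.l) (O.P.S + 3 * O.P.l) (5 * O.P.l + 2 * O.P.l)) (O.rad a + O.Λ),
      x ∉ O.W X := fun x hx hx' => by
    rcases mem_union.1 (hZ1 (mem_lift.1 hx).2) with h | h
    · exact O.P.Cor_W hu h (mem_lift.1 hx').2
    · exact O.P.Q_W hu h (mem_lift.1 hx').2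
  have hF1 := hfresh _ ((lift_mono (hZ1.trans hCW) (by omega)).trans subset_union_left) hZ1W
    (fun x hx h => mem_lift.2 ⟨(mem_lift.1 h).1, by
      have h2 := (mem_lift.1 h).2
      rw [Par.Nar, hsa] at h2 ⊢
      exact slab_mono (by omega) le_rfl le_rfl (slab_inter (mem_lift.1 hx).2 h2)⟩)
  have hB1 : O.Nar a (τ + 3 * O.P.l) ⊆ lift G O.ϖ O.o (slab (O.P.cen a.1) (O.P.ax a.2) true
      (11 * O.P.l + 1 + τ) (14 * O.P.l + 1 + O.P.T) (5 * O.P.l)) (O.rad a) := by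
    refine lift_mono ?_ le_rfl
    rw [Par.Nar, hsa]
    exact slab_mono (by omega) le_rfl le_rfl
  have st1 := hS (O.P.cen a.1) (O.P.ax a.2) (11 * O.P.l + 1 + τ) (14 * O.P.l + 1 + O.P.T)
    (5 * O.P.l) O.P.S (11 * O.P.l + 1 + τ - 5 * O.P.l) (O.rad a)
    (by omega) (by omega) le_rfl (by omega) (by omega) le_rfl (by omega) D _ _ hdis hE1 hE2 hB1
    (fun x hx => sum_ge (mem_lift.1 (hB1 hx)).2) (fun h => hZ1W _ (mem_filter.1 h).1 h0W)
    ((Ein_mono _ (filter_subset _ _)).trans hF1) (hF1.trans subset_union_left)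
  -- second steering
  have hZ2 : slab (O.P.cen y) (O.P.ax u) true (-(3 * O.P.l) - 2 * O.P.l)
      (11 * O.P.l + 1 + O.P.T + 3 * O.P.l) (3 * O.P.l + 2 * O.P.l) ⊆
      O.P.Q y ∪ O.P.Nar (y, u) 0 := by
    refine (slab_cut (8 * O.P.l)).trans (union_subset_union ?_ ?_)
    · rw [Par.Q, O.P.box_src (y, u), hsu]
      exact slab_mono (by omega) le_rfl (by omega)
    · rw [Par.Nar, hsu]
      exact slab_mono (by omega) (by omega) (by omega)
  have hN' : ∀ x ∈ O.P.Nar (y, u) 0, x ∉ O.P.W X' := fun x hx =>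
    O.P.Cor_W (a := (y, u)) hu' (O.P.Nar_sub_Cor _ le_rfl hx)
  have hZ2W : ∀ x ∈ lift G O.ϖ O.o (slab (O.P.cen y) (O.P.ax u) true (-(3 * O.P.l) - 2 * O.P.l)
      (11 * O.P.l + 1 + O.P.T + 3 * O.P.l) (3 * O.P.l + 2 * O.P.l)) (O.rad a + O.Λ + O.Λ),
      x ∉ O.W X := fun x hx hx' => by
    rcases mem_union.1 (hZ2 (mem_lift.1 hx).2) with h | h
    · exact O.P.Q_W hu h (mem_lift.1 hx').2
    · exact hN' _ h (mem_lift.1 (hWW hx')).2
  have hF2 := hfresh _ (lift_union (hZ2.trans (union_subset_union_left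
      (subset_union_right.trans hCW))) (by omega) (by omega)) hZ2W
    (fun x hx h => by
      rcases mem_union.1 (hZ2 (mem_lift.1 hx).2) with h' | h'
      · exact (O.P.Q_Cor h' (O.P.Nar_sub_Cor _ le_rfl (mem_lift.1 h).2)).elim
      · exact (hN' _ h' (hNP (mem_lift.1 h).2)).elim)
  have hB2 : lift G O.ϖ O.o (slab (O.P.cen a.1) (O.P.ax a.2) true (O.P.S - 3 * O.P.l)
      (O.P.S + 3 * O.P.l) (3 * O.P.l)) (O.rad a + O.Λ) ⊆ lift G O.ϖ O.o
      (slab (O.P.cen y) (O.P.ax u) true (-(3 * O.P.l)) (3 * O.P.l) (3 * O.P.l)) (O.rad a + O.Λ) := by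
    rw [← hsa, ← Par.box_tgt, O.P.box_src (y, u), hsu]
  have st2 := hS (O.P.cen y) (O.P.ax u) (-(3 * O.P.l)) (3 * O.P.l) (3 * O.P.l)
    (11 * O.P.l + 1 + O.P.T) (-(3 * O.P.l) - 3 * O.P.l) (O.rad a + O.Λ)
    (by omega) le_rfl (by omega) (by omega) (by omega) le_rfl (by omega) D _ _ hdis hE1 hE2 hB2
    (fun x hx => sum_ge (mem_lift.1 (hB2 hx)).2) (fun h => hZ2W _ (mem_filter.1 h).1 h0W)
    ((Ein_mono _ (filter_subset _ _)).trans hF2) (hF2.trans subset_union_left)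
  have m2 : hit D p (O.base ∪ ξ ∪ η) O.o (lift G O.ϖ O.o (slab (O.P.cen y) (O.P.ax u) true
      (11 * O.P.l + 1 + O.P.T - 3 * O.P.l) (11 * O.P.l + 1 + O.P.T + 3 * O.P.l) (3 * O.P.l))
      (O.rad a + O.Λ + O.Λ)) ≤ hit D p (O.base ∪ ξ ∪ η) O.o (O.End (y, u)) := by
    refine hit_mono h0 h1 Subset.rfl subset_union_left _ (lift_mono ?_ (by omega))
    rw [Par.End, hsu]
    exact slab_mono (by omega) (by omega) le_rfl
  linarith

theorem inv_step {p δ1 δ2 θ : ℝ} (h0 : 0 ≤ p) (h1 : p ≤ 1) (hδ1 : 0 < δ1) (hδ2 : 0 < δ2)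
    (hθ : 0 ≤ θ) {K : ℕ} (hK : 0 < K) (hTK : O.P.T = 3 * O.P.l * K) {e M : ℤ}
    (hS : OSteerOK G O.ϖ O.o p O.P.l e M O.Λ θ) (hML : O.P.T + 16 * O.P.l ≤ M * O.P.l)
    {n : ℕ} (hΩ : (2 * n + 2) * (2 * O.Λ) ≤ O.Ω)
    {X : Finset CE} {ξ : Finset (Sym2 V)} {a : CE} (ha : a.2.2 = true) (hQ : InQ n a.1)
    (hξ : ξ ⊆ O.Rv X) (hu : Untouched X (a.1 + vec a.2)) (h : O.Inv p δ1 X ξ a) :
    Ex (O.Rv (insert a X) \ O.Rv X) (fun _ => p) (fun ω => ind (∃ u : Bool × Bool,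
        (u.2 = true ∧ Untouched (insert a X) (a.1 + vec a.2 + vec u)) ∧
          ¬ O.Inv p δ1 (insert a X) (ξ ∪ ω) (a.1 + vec a.2, u))) ≤
      δ1 + 1 / (δ2 * K) + 4 * ((δ2 + 2 * θ) / δ1) := by
  have hl := O.P.hl
  have hr1 : ∀ u, O.rad a + 2 * O.Λ ≤ O.rad (a.1 + vec a.2, u) := fun u => by
    have h2 : (a.1.1 + a.1.2).toNat + 1 + 1 ≤
        ((a.1 + vec a.2).1 + (a.1 + vec a.2).2).toNat + 1 := by
      obtain ⟨y, u1, u2⟩ := a
      obtain ⟨h3, -, h4, -⟩ := hQ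
      simp only at ha h3 h4
      subst ha
      cases u1 <;> simp only [vec, Prod.fst_add, Prod.snd_add] <;> omega
    have h3 := Nat.mul_le_mul_right (2 * O.Λ) h2
    rw [add_mul _ 1, one_mul] at h3
    exact h3
  have hr2 : O.rad a + 2 * O.Λ ≤ O.Ω := by
    have h2 : (a.1.1 + a.1.2).toNat + 1 + 1 ≤ 2 * n + 2 := by
      obtain ⟨h3, h4, h5, h6⟩ := hQ
      omega
    have h3 := Nat.mul_le_mul_right (2 * O.Λ) h2
    rw [add_mul _ 1, one_mul] at h3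
    exact h3.trans hΩ
  have key := step_abs G h0 h1 hδ1 hδ2 (θ := 2 * θ) (by positivity) hK (O.Dn X a)
    (O.Rv (insert a X) \ O.Rv X) (O.base ∪ ξ) (fun u => O.Dn (insert a X) (a.1 + vec a.2, u))
    (fun u => u.2 = true ∧ Untouched (insert a X) (a.1 + vec a.2 + vec u)) O.o
    (fun j => O.Nar a (3 * O.P.l * j)) (fun u => O.End (a.1 + vec a.2, u))
    (fun j j' hj => lift_mono (slab_mono (by
      have : (j : ℤ) ≤ j' := by exact_mod_cast hj
      nlinarith) le_rfl le_rfl) le_rfl)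
    (fun e he => by
      obtain ⟨h2, h3⟩ := mem_sdiff.1 he
      refine mem_sdiff.2 ⟨mem_sdiff.2 ⟨Ein_mono _ ?_ h2, fun h => h3 (O.base_sub X h)⟩,
        fun h => h3 (mem_sdiff.1 h).1⟩
      exact union_subset (O.W_mono (subset_insert _ _)) (lift_mono ((O.P.Nar_sub_Cor a le_rfl).trans
        (subset_union_left.trans (O.P.sub_W_insert X a))) (by omega)))
    (fun u => disjoint_of_subset_left (sdiff_subset.trans sdiff_subset) disjoint_sdiff)
    (le_trans h (hit_mono h0 h1 Subset.rfl subset_union_left _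
      (lift_mono (O.P.End_sub_Nar a hTK.ge) le_rfl)))
    (fun j hj η hη u hu' => by
      have h2 := O.two_steer h0 h1 hS hML ha hξ hu (τ := 3 * O.P.l * j) (by positivity) (by
        have : (j : ℤ) + 1 ≤ K := by exact_mod_cast hj
        nlinarith) hη hu'.1 hu'.2 (hr1 u) hr2
      have e : 3 * O.P.l * ((j + 1 : ℕ) : ℤ) = 3 * O.P.l * j + 3 * O.P.l := by push_cast; ring
      simp only [e]
      exact h2)
  simpa only [Inv, union_assoc] using key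

end OP

theorem percG_of_par (P : Par 2) (ϖ : V → Fin 2 → ℤ) (o : V) (hz : ϖ o = 0) {p δ : ℝ} (h0 : 0 < p)
    (h1 : p ≤ 1) {m L K Λ : ℕ} {s e k M : ℤ} (hl : P.l = 400 * s) (hK : 10 ^ 40 ≤ K)
    (hTK : P.T = 3 * P.l * K) (hk : 0 ≤ k) (hlip : LipG G ϖ k) (hmk : m * k ≤ e) (he : 4 * e < s)
    (hM : MoveAt G ϖ p m L s e (101 * s) δ o) (hS : OSteerOK G ϖ o p P.l e M Λ (1 / 10 ^ 27))
    (hML : P.T + 16 * P.l ≤ M * P.l) (hL : L ≤ Λ) (hδ0 : 0 ≤ δ) (hδ : δ ≤ 1 / 10 ^ 27) :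
    PercG G p o := by
  have hq : Adm (fun _ : Sym2 V => p) := adm_const h0.le h1
  refine ⟨p ^ (Ein G (nbk G m {o})).card * (1 / 2), by positivity, fun n => ?_⟩
  obtain ⟨n', hn'⟩ : ∃ n' : ℕ, (n + 1) * k ≤ n' := ⟨((n + 1) * k).toNat, Int.self_le_toNat _⟩
  have hl0 := P.hl
  let O : OP G := ⟨P, ϖ, o, m, m + (2 * n' + 2) * (2 * Λ), Λ, hz, fun x hx =>
    mem_lift.2 ⟨nbk_mono_left G (by omega) _ hx, by
      rw [Par.Q, Par.cen_zero, mem_box]
      intro j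
      have := abs_le.1 (abs_le_of_mem_nbkG hk hlip hx j)
      simp only [hz, Pi.zero_apply] at this ⊢
      omega⟩⟩
  have hΩ : (2 * n' + 2) * (2 * O.Λ) ≤ O.Ω := Nat.le_add_left _ _
  have key := oexplore (O.Rv (allE n')) h0.le h1 n' O.Rv (O.Inv p (1 / 10 ^ 13))
    (fun _ _ h => O.Rv_mono h) (fun _ h => O.Rv_mono (sub_allE h))
    (fun _ _ _ _ _ hX hξ hu h => O.inv_mono h0.le h1 hX hξ hu h)
    (le_trans (O.init_le h0.le h1 (by norm_num) (η := δ + 1 / 10 ^ 27) (by positivity)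
      fun u hu => O.init_hit h0.le h1 hl hk hlip hmk he hM hS hML hL
        (le_trans (by nlinarith) hΩ) hu) (by
          rw [div_div_eq_mul_div, div_one]
          linarith))
    (fun X ξ a ha hQ _ hξ hu h => by
      refine le_trans (O.inv_step h0.le h1 (by norm_num) (δ2 := 1 / 10 ^ 27) (by norm_num)
        (by norm_num) (lt_of_lt_of_le (by norm_num) hK) hTK hS hML hΩ ha hQ hξ hu h) ?_
      have hK' : (10 ^ 40 : ℝ) ≤ K := by exact_mod_cast hK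
      have : 1 / (1 / 10 ^ 27 * (K : ℝ)) ≤ 1 / 10 ^ 13 :=
        one_div_le_one_div_of_le (by norm_num) (by linarith)
      linarith)
  have hdis : Disjoint O.base (O.Rv (allE n')) := disjoint_sdiff
  refine le_trans ?_ (far_le_hitG G (U := O.base ∪ O.Rv (allE n')) (fun e he => ?_) h0.le h1 o n)
  · rw [Ex_union hdis]
    refine le_trans ?_ (wt_mul_le_Ex hq (fun ω _ => Ex_nonneg hq fun _ _ => ind_nonneg _)
      Subset.rfl)
    have e : wt O.base (fun _ => p) O.base = p ^ (Ein G (nbk G m {o})).card := by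
      rw [wt, ← prod_const]
      exact prod_congr rfl fun e he => if_pos he
    rw [e]
    refine mul_le_mul_of_nonneg_left (key.trans (Ex_mono hq fun ω _ => ind_mono ?_))
      (by positivity)
    rintro ⟨X, a, ha, hQ, hQ', h⟩
    obtain ⟨z, hz, hi⟩ := O.inv_far (by norm_num) hk hlip hn' (a := a)
      ⟨abs_le.2 ⟨by linarith [hQ.1], hQ.2.1⟩, abs_le.2 ⟨by linarith [hQ.2.2.1], hQ.2.2.2⟩⟩
      (fun hb => hQ' (by
        obtain ⟨y, u1, u2⟩ := a
        obtain ⟨h3, -, h4, -⟩ := hQ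
        obtain ⟨h5, h6⟩ := hb
        simp only at ha h3 h4
        subst ha
        rw [abs_le] at h5 h6
        cases u1 <;> simp only [InQ, vec, Prod.fst_add, Prod.snd_add] at h5 h6 ⊢ <;> omega)) h
    exact ⟨z, hz.mono (union_subset_union_right inter_subset_left), hi⟩
  · rcases mem_union.1 he with h | h
    · exact Ein_sub_edgeSet _ _ h
    · exact Ein_sub_edgeSet _ _ (mem_sdiff.1 h).1

end OBlockAux

open OBlockAux in
/-- The finite-size criterion from two oriented moves. -/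
theorem percG_of_moves : ∃ (N : ℕ) (δ : ℝ), 0 < N ∧ 0 < δ ∧ ∀ (Δ m : ℕ) (a b : ℝ), 0 < a → b < 1 →
    ∃ R : ℕ, ∀ (V : Type) [DecidableEq V] (G : SimpleGraph V) [G.LocallyFinite],
      (∀ v, G.degree v ≤ Δ) → ∀ (ϖ : V → Fin 2 → ℤ) (o : V) (p : ℝ) (L : ℕ) (s e k : ℤ),
      a ≤ p → p ≤ b → ϖ o = 0 → 0 < s → 0 ≤ k → N * e ≤ s → R * k ≤ e → LipG G ϖ k →
      (∀ v, MoveAt G ϖ p m L s e (101 * s) δ v) → PercG G p o := by
  obtain ⟨K, hK⟩ : ∃ K : ℕ, 10 ^ 40 ≤ K := ⟨_, le_rfl⟩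
  obtain ⟨M, hM⟩ : ∃ M : ℕ, M = 3 * K + 16 := ⟨_, rfl⟩
  have hN : (0 : ℝ) < (400 * (M + 13) : ℕ) := by positivity
  obtain ⟨δ, hδ, hT⟩ := target (1 / 10 ^ 27 / (400 * (M + 13) : ℕ)) (by positivity)
  refine ⟨8 * (400 * (M + 13)), min δ (1 / 10 ^ 27), by positivity, by positivity,
    fun Δ m a b ha hb => ?_⟩
  obtain ⟨R, hR⟩ := hT Δ m a b ha hb
  refine ⟨R + m, fun V _ G _ hΔ ϖ o p L s e k hap hpb hz hs hk he hRk hlip hmv => ?_⟩
  have h0 : 0 < p := by linarith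
  have h1 : p ≤ 1 := by linarith
  push_cast at he hRk
  have h2 : 0 ≤ (R : ℤ) * k := by positivity
  have h3 : 0 ≤ (m : ℤ) * k := by positivity
  have h4 : (R + m : ℤ) * k = R * k + m * k := by ring
  have hS := osteer G ϖ o h0.le h1 hδ.le (by positivity) (L := L) (M := M) hs hk hlip (by omega) he
    (hR V G hΔ p hap hpb)
    (fun v i => le_trans (by linarith [min_le_left δ (1 / 10 ^ 27)]) (hmv v i))
  rw [mul_div_cancel₀ _ hN.ne'] at hS
  have he0 : 0 ≤ e := by omega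
  exact percG_of_par ⟨0, 1, by simp, 400 * s, 3 * (400 * s) * K, by omega, by positivity⟩ ϖ o hz h0
    h1 rfl hK rfl hk hlip (by omega) (by nlinarith [mul_nonneg (Int.natCast_nonneg M) he0])
    (hmv o) hS (by rw [hM]; push_cast; linarith) (by nlinarith) (by positivity) (min_le_right _ _)

end Vale.Agent.P151
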