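import Mathlib
import Vale.Agent.P151.Kkm
import Vale.Agent.P151.OBlock
import Vale.Agent.P151.GBridge
import Vale.Agent.P151.GSetup

open MeasureTheory ProbabilityTheory unitInterval

namespace Vale.Agent.P151

theorem no_perc_at_pc_ZQ {V : Type} [DecidableEq V] (G : SimpleGraph V) [G.LocallyFinite]
    (hc : G.Connected) (Z : ZQ G) (hpc : pc G < 1) : perc G (pc G) (infCluster V) = 0 := by
  by_contra hne
  obtain ⟨x, hx⟩ := (perc_pos_iffG G hc _).1 (pos_iff_ne_zero.2 hne)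
  set P : I := pc G with hP
  have hP1 : (P : ℝ) < 1 := by exact_mod_cast hpc
  have hP0 : 0 < (P : ℝ) := by
    refine lt_of_le_of_ne P.2.1 fun h => ?_
    rw [← h] at hx
    exact not_percG_zero G x hx
  obtain ⟨N, δ, hN, hδ, h⟩ := percG_of_moves
  obtain ⟨m, hm⟩ := kkm Z hP0 hP1
    (fun δ' hδ' => ballExit_of_perc G hc hP0.le hP1.le x Z.o hx δ' hδ') (2 * N) (δ / 2)
    (by positivity)
  obtain ⟨R, hR⟩ := h Z.Δ (m + Z.κ) (P / 2) P (by positivity) hP1
  obtain ⟨A, L, s, e, k, hs, hk, he, hRk, hlip, hmv⟩ := hm (R + Z.κ)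
  obtain ⟨p', h1, h2, h3⟩ := moveAt_cont _ hP0 hδ hmv
  have hp0 : 0 ≤ p' := by linarith
  have hp1 : p' ≤ 1 := by linarith
  have hκ : (Z.κ : ℤ) * k ≤ e := by
    push_cast at hRk
    nlinarith [mul_nonneg (Int.natCast_nonneg R) hk]
  have hκ0 : 0 ≤ (Z.κ : ℤ) * k := mul_nonneg (Int.natCast_nonneg _) hk
  have hN' : (1 : ℤ) ≤ N := by exact_mod_cast hN
  push_cast at he hRk
  have h4 := hR V G Z.deg (fun x => A (Z.π x)) Z.o p' (L + Z.κ) s (e + Z.κ * k) k h1 h2.le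
    (by simp [Z.zero]) hs hk (by nlinarith) (by nlinarith) hlip (fun v i => by
      refine le_trans (moveAt_all Z A hp0 hp1 hk hlip h3 v i) (hitS_mono hp0 hp1
        Finset.Subset.rfl ((Ein_mono _ fun y hy => ?_).trans Finset.subset_union_left)
        Finset.Subset.rfl Finset.Subset.rfl)
      rw [mem_win] at hy ⊢
      exact ⟨hy.1, fun j => (hy.2 j).trans (by nlinarith)⟩)
  have h5 : P ≤ (⟨p', hp0, hp1⟩ : I) :=
    sInf_le ((perc_pos_iffG G hc ⟨p', hp0, hp1⟩).2 ⟨_, h4⟩)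
  have h6 : (P : ℝ) ≤ p' := h5
  linarith

end Vale.Agent.P151
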