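import Mathlib
import Vale.Agent.P151.Hit
import Vale.Agent.P151.Block
import Vale.Agent.P151.Bridge

open MeasureTheory ProbabilityTheory unitInterval

namespace Vale.Agent.P151

theorem pc_lt_one (d : ℕ) (hd : 2 ≤ d) : pc (lattice d) < 1 := by
  obtain ⟨p, h0, h1, h⟩ := percFin_near_one d hd
  have h2 : pc (lattice d) ≤ (⟨p, h0, h1.le⟩ : I) :=
    sInf_le ((perc_pos_iff d ⟨p, h0, h1.le⟩).2 ⟨0, h⟩)
  exact lt_of_le_of_lt h2 (by exact_mod_cast h1)

theorem no_perc_at_pc (d : ℕ) (hd : 2 ≤ d) :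
    perc (lattice d) (pc (lattice d)) (infCluster (Fin d → ℤ)) = 0 := by
  by_contra hne
  obtain ⟨x, hx⟩ := (perc_pos_iff d _).1 (pos_iff_ne_zero.2 hne)
  set P : I := pc (lattice d) with hP
  have hP1 : (P : ℝ) < 1 := by exact_mod_cast pc_lt_one d hd
  have hP0 : 0 < (P : ℝ) := by
    refine lt_of_le_of_ne P.2.1 fun h => ?_
    rw [← h] at hx
    exact not_percFin_zero d x hx
  obtain ⟨δ, hδ, h⟩ := percFin_of_hit d hd
  obtain ⟨m, hm⟩ := hit_of_perc d (by omega) P hP0.le hP1.le x hx (δ / 2) (by positivity)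
  obtain ⟨l0, hl⟩ := h m (P / 2) P (by positivity) hP1
  obtain ⟨p', h1, h2, h3⟩ := hit_cont d P hP0 hP1.le m (max l0 m) δ hδ (hm _ (le_max_right _ _))
  have h4 := hl _ (le_max_left _ _) p' h1 h2.le h3
  have h5 : P ≤ (⟨p', by linarith, by linarith⟩ : I) :=
    sInf_le ((perc_pos_iff d ⟨p', by linarith, by linarith⟩).2 ⟨0, h4⟩)
  have h6 : (P : ℝ) ≤ p' := h5
  linarith

end Vale.Agent.P151
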